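import Vale.Agent.P007X.SpecA
import Vale.Agent.P007.S11.DivBd

/-! Divisor bounds for ideals, modules between `q L` and `L` (helper11). -/

set_option linter.all false

open NumberField UniqueFactorizationMonoid
open scoped nonZeroDivisors

namespace Vale.Agent.P007X

section

variable {K : Type} [Field K] [NumberField K] {q a b : Ideal (𝓞 K)}

theorem fin_div (hq : q ≠ ⊥) : {I : Ideal (𝓞 K) | q ≤ I}.Finite :=
  (Ideal.finite_setOfPred_absNorm_le (Ideal.absNorm q)).subset fun I h =>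
    Nat.le_of_dvd (Nat.pos_of_ne_zero (mt Ideal.absNorm_eq_zero_iff.1 hq))
      (Ideal.absNorm_dvd_absNorm_of_le h)

theorem card_div (hq : q ≠ ⊥) : (fin_div hq).toFinset.card = ndiv q :=
  (Nat.card_eq_card_finite_toFinset (fin_div hq)).symm

theorem ndiv_le {T : Finset (Ideal (𝓞 K))} (h : ∀ I, q ≤ I → I ∈ T) : ndiv q ≤ T.card := by
  rw [← Nat.card_eq_finsetCard]
  exact Nat.card_le_card_of_injective (fun I : {I // q ≤ I} => (⟨I.1, h _ I.2⟩ : T))
    fun I J e => Subtype.ext (congrArg (·.1) e :)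

theorem ndiv_anti (ha : a ≠ ⊥) (h : a ≤ b) : ndiv b ≤ ndiv a :=
  (ndiv_le fun I k => (fin_div ha).mem_toFinset.2 (h.trans k)).trans_eq (card_div ha)

theorem ndiv_mul (ha : a ≠ ⊥) (hb : b ≠ ⊥) : ndiv (a * b) ≤ ndiv a * ndiv b := by
  classical
  rw [← card_div ha, ← card_div hb]
  refine (ndiv_le fun I h => ?_).trans (Finset.card_image₂_le (· * ·) _ _)
  obtain ⟨c, d, h1, h2, rfl⟩ := exists_dvd_and_dvd_of_dvd_mul (Ideal.dvd_iff_le.2 h)
  exact Finset.mem_image₂_of_mem ((fin_div ha).mem_toFinset.2 (Ideal.dvd_iff_le.1 h1))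
    ((fin_div hb).mem_toFinset.2 (Ideal.dvd_iff_le.1 h2))

theorem ndiv_top : ndiv (⊤ : Ideal (𝓞 K)) ≤ 1 :=
  ndiv_le (T := {⊤}) fun I h => Finset.mem_singleton.2 (top_le_iff.1 h)

theorem ndiv_pow (k : ℕ) (s : Multiset (Ideal (𝓞 K))) (h : ∀ P ∈ s, Prime P) :
    ndiv (s.prod ^ k) ≤ (k + 1) ^ s.card := by
  classical
  induction s using Multiset.induction_on with
  | empty => simpa [Ideal.top_pow] using ndiv_top (K := K)
  | cons P s ih =>
    have hP := h P (Multiset.mem_cons_self _ _)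
    have hs : ∀ Q ∈ s, Prime Q := fun Q k => h Q (Multiset.mem_cons_of_mem k)
    rw [Multiset.prod_cons, mul_pow, Multiset.card_cons, pow_succ']
    refine (ndiv_mul (pow_ne_zero _ hP.ne_zero) (pow_ne_zero _ (Multiset.prod_ne_zero
      fun k => (hs _ k).ne_zero rfl))).trans (Nat.mul_le_mul ((ndiv_le (T := (Finset.range
      (k + 1)).image (P ^ ·)) fun I j => ?_).trans (Finset.card_image_le.trans_eq
      (Finset.card_range _))) (ih hs))
    obtain ⟨i, h1, h2⟩ := (dvd_prime_pow hP k).1 (Ideal.dvd_iff_le.2 j)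
    exact Finset.mem_image.2 ⟨i, Finset.mem_range.2 (Nat.lt_succ_of_le h1),
      (associated_iff_eq.1 h2).symm⟩

theorem span_ne {m : ℕ} (hm : m ≠ 0) : Ideal.span {(m : 𝓞 K)} ≠ ⊥ :=
  mt Ideal.span_singleton_eq_bot.1 (Nat.cast_ne_zero.2 hm)

theorem ndiv_nat {n m : ℕ} (hn : Module.finrank ℚ K ≤ n) (hm : m ≠ 0) :
    ndiv (Ideal.span {(m : 𝓞 K)}) ≤ m.divisors.card ^ n := by
  induction m using Nat.recOnPosPrimePosCoprime with
  | prime_pow p k hp hk =>
    have h0 := span_ne (K := K) hp.ne_zero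
    have e := Ideal.prod_normalizedFactors_eq_self h0
    have hs := fun P (h : P ∈ normalizedFactors (Ideal.span {(p : 𝓞 K)})) =>
      prime_of_normalized_factor P h
    have hN : Ideal.absNorm (Ideal.span {(p : 𝓞 K)}) = p ^ Module.finrank ℚ K := by
      rw [Ideal.absNorm_span_natCast, RingOfIntegers.rank]
    rw [Nat.divisors_prime_pow hp, Finset.card_map, Finset.card_range, Nat.cast_pow,
      ← Ideal.span_singleton_pow, ← e]
    refine (ndiv_pow k _ hs).trans (Nat.pow_le_pow_right k.succ_pos (le_trans ?_ hn))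
    rw [← Nat.pow_le_pow_iff_right hp.one_lt, ← hN, ← e, map_multiset_prod, e,
      ← Multiset.card_map Ideal.absNorm]
    refine Multiset.pow_card_le_prod fun x hx => ?_
    obtain ⟨P, h1, rfl⟩ := Multiset.mem_map.1 hx
    have d := map_dvd Ideal.absNorm (dvd_of_mem_normalizedFactors h1)
    rw [hN] at d
    obtain ⟨i, -, h2⟩ := (Nat.dvd_prime_pow hp).1 d
    rw [h2]
    refine Nat.le_self_pow (fun j => (hs P h1).not_unit ?_) p
    rw [j, pow_zero, Ideal.absNorm_eq_one_iff] at h2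
    exact Ideal.isUnit_iff.2 h2
  | zero => exact absurd rfl hm
  | one => simpa using ndiv_top
  | coprime a b ha hb hab iha ihb =>
    rw [hab.card_divisors_mul, mul_pow, Nat.cast_mul, ← Ideal.span_singleton_mul_span_singleton]
    exact (ndiv_mul (span_ne (by omega)) (span_ne (by omega))).trans
      (Nat.mul_le_mul (iha (by omega)) (ihb (by omega)))

end

theorem ndiv_bd (n : ℕ) {ε : ℝ} (hε : 0 < ε) : ∃ C : ℝ, 0 < C ∧ ∀ (K : Type) [Field K]
    [NumberField K], Module.finrank ℚ K ≤ n → ∀ m : ℕ, m ≠ 0 →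
    (ndiv (Ideal.span {(m : 𝓞 K)}) : ℝ) ≤ C * (m : ℝ) ^ ε := by
  obtain ⟨C, hC, hτ⟩ := Vale.Agent.P007.S11.divisor_bound (ε / (n + 1)) (by positivity)
  refine ⟨C ^ (n + 1), by positivity, fun K _ _ hn m hm => ?_⟩
  calc (ndiv (Ideal.span {(m : 𝓞 K)}) : ℝ) ≤ (m.divisors.card : ℝ) ^ (n + 1) := by
        exact_mod_cast ndiv_nat (hn.trans n.le_succ) hm
    _ ≤ (C * (m : ℝ) ^ (ε / (n + 1))) ^ (n + 1) := pow_le_pow_left₀ (by positivity) (hτ m hm) _
    _ = C ^ (n + 1) * (m : ℝ) ^ ε := by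
        rw [mul_pow, ← Real.rpow_natCast ((m : ℝ) ^ (ε / (n + 1))), ← Real.rpow_mul (by positivity)]
        congr 2
        push_cast
        field_simp

theorem sDiv : SDiv := fun n ε hε => by
  obtain ⟨C, hC, h⟩ := ndiv_bd n hε
  refine ⟨C, hC, fun K _ _ hn q hq => ⟨fin_div hq, le_trans ?_
    (h K hn _ (mt Ideal.absNorm_eq_zero_iff.1 hq))⟩⟩
  exact_mod_cast ndiv_anti (span_ne (mt Ideal.absNorm_eq_zero_iff.1 hq))
    (Ideal.span_singleton_absNorm_le q)

theorem sSmall : SSmall := fun n => by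
  classical
  obtain ⟨C, hC, h⟩ := ndiv_bd n one_pos
  refine ⟨C, hC, fun K _ _ hn B hB => ⟨(Finset.range ⌊B⌋₊).biUnion fun m =>
    (fin_div (span_ne (K := K) m.succ_ne_zero)).toFinset, ?_, fun I h0 hI => ?_⟩⟩
  · have b := Nat.floor_le (zero_le_one.trans hB)
    refine (Nat.cast_le.2 Finset.card_biUnion_le).trans ?_
    rw [Nat.cast_sum]
    refine (Finset.sum_le_card_nsmul _ _ (C * B) fun m hm => ?_).trans ?_
    · rw [card_div (span_ne m.succ_ne_zero)]
      refine (h K hn _ m.succ_ne_zero).trans (mul_le_mul_of_nonneg_left ?_ hC.le)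
      rw [Real.rpow_one]
      exact (Nat.cast_le.2 (Finset.mem_range.1 hm)).trans b
    · rw [Finset.card_range, nsmul_eq_mul]
      nlinarith [mul_le_mul_of_nonneg_right b (by positivity : 0 ≤ C * B)]
  · obtain ⟨m, hm⟩ := Nat.exists_eq_succ_of_ne_zero (mt Ideal.absNorm_eq_zero_iff.1 h0)
    refine Finset.mem_biUnion.2 ⟨m, Finset.mem_range.2 ?_, (Set.Finite.mem_toFinset _).2 ?_⟩
    · exact hm.ge.trans (Nat.le_floor hI)
    · have := Ideal.span_singleton_absNorm_le I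
      rwa [hm] at this

theorem sOne : SOne := fun K _ _ L hL q hq => by
  classical
  let L' : FractionalIdeal (𝓞 K)⁰ K := ⟨L, FractionalIdeal.isFractional_of_fg hL⟩
  refine ⟨(fin_div hq).toFinset.image fun I : Ideal (𝓞 K) =>
    (((I : FractionalIdeal (𝓞 K)⁰ K) * L' : FractionalIdeal (𝓞 K)⁰ K) : Submodule (𝓞 K) K),
    Finset.card_image_le.trans_eq (card_div hq), fun N h1 h2 => Finset.mem_image.2 ?_⟩
  let N' : FractionalIdeal (𝓞 K)⁰ K := ⟨N, FractionalIdeal.isFractional_of_le (J := L') h2⟩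
  have k : N' ≤ L' := h2
  by_cases h : L' = 0
  · refine ⟨⊤, (fin_div hq).mem_toFinset.2 (le_top : q ≤ ⊤), ?_⟩
    rw [h, mul_zero, ← le_zero_iff.1 (h ▸ k)]
    rfl
  obtain ⟨I, hI⟩ := FractionalIdeal.le_one_iff_exists_coeIdeal.1
    ((mul_le_mul_left k L'⁻¹).trans_eq (mul_inv_cancel₀ h))
  refine ⟨I, (fin_div hq).mem_toFinset.2 ?_, by rw [hI, inv_mul_cancel_right₀ h]; rfl⟩
  have : (q : FractionalIdeal (𝓞 K)⁰ K) * L' ≤ N' := FractionalIdeal.mul_le.2 fun i hi j hj => by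
    obtain ⟨r, hr, rfl⟩ := (FractionalIdeal.mem_coeIdeal _).1 hi
    rw [← Algebra.smul_def]
    exact h1 (Submodule.smul_mem_smul hr hj)
  have := mul_le_mul_left this L'⁻¹
  rwa [mul_inv_cancel_right₀ h, ← hI, FractionalIdeal.coeIdeal_le_coeIdeal] at this

theorem gens {K : Type} [Field K] [NumberField K] {N : Submodule ℤ K} (hN : N.FG) :
    ∃ v : Fin (Module.finrank ℚ K) → K, Submodule.span ℤ (Set.range v) = N := by
  haveI : Module.Finite ℤ N := .of_fg hN
  let b := Module.finBasis ℤ N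
  have l : LinearIndependent ℚ fun i => (b i : K) := (LinearIndependent.iff_fractionRing ℤ ℚ).1
    (b.linearIndependent.map' N.subtype N.ker_subtype)
  have s := l.fintype_card_le_finrank
  rw [Fintype.card_fin] at s
  refine ⟨fun j => if h : j.1 < _ then b ⟨j.1, h⟩ else 0, le_antisymm (Submodule.span_le.2 ?_) ?_⟩
  · rintro _ ⟨j, rfl⟩
    beta_reduce
    split_ifs
    exacts [Subtype.property _, N.zero_mem]
  · conv_lhs => rw [← N.range_subtype, LinearMap.range_eq_map, ← b.span_eq, Submodule.map_span]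
    refine Submodule.span_mono ?_
    rintro _ ⟨_, ⟨i, rfl⟩, rfl⟩
    exact ⟨i.castLE s, dif_pos i.2⟩

theorem sInt : SInt := fun K _ _ L hL c hc => by
  classical
  obtain ⟨b, rfl⟩ := gens hL
  have c0 : (0 : ℤ) < c := by omega
  refine ⟨Finset.univ.image fun A : Fin (Module.finrank ℚ K) → Fin (Module.finrank ℚ K) → Fin c =>
    Submodule.span ℤ (Set.range fun j => ∑ i, ((A j i : ℕ) : ℤ) • b i) ⊔
      (Submodule.span ℤ (Set.range b)).map (LinearMap.mulLeft ℤ (c : K)),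
    Finset.card_image_le.trans_eq (by simp [sq, pow_mul]), fun N h1 h2 => ?_⟩
  obtain ⟨v, rfl⟩ := gens (Submodule.FG.of_le hL h2)
  choose z hz using fun j => (Submodule.mem_span_range_iff_exists_fun ℤ).1
    (h2 (Submodule.subset_span ⟨j, rfl⟩))
  have y : ∀ j, ∑ i, (z j i / c) • b i ∈ Submodule.span ℤ (Set.range b) := fun j =>
    (Submodule.mem_span_range_iff_exists_fun ℤ).2 ⟨_, rfl⟩
  have e : ∀ j, v j = ∑ i, (((z j i % c).toNat : ℕ) : ℤ) • b i + c * ∑ i, (z j i / c) • b i :=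
    fun j => by
      rw [← hz, Finset.mul_sum, ← Finset.sum_add_distrib]
      refine Finset.sum_congr rfl fun i _ => ?_
      conv_lhs => rw [← Int.emod_add_mul_ediv (z j i) c]
      rw [Int.toNat_of_nonneg (Int.emod_nonneg _ c0.ne')]
      simp [add_mul, mul_assoc]
  refine Finset.mem_image.2 ⟨fun j i => ⟨(z j i % c).toNat, by
    have := Int.emod_lt_of_pos (z j i) c0; omega⟩, Finset.mem_univ _, le_antisymm
    (sup_le (Submodule.span_le.2 ?_) ?_) (Submodule.span_le.2 ?_)⟩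
  · rintro _ ⟨j, rfl⟩
    have := sub_mem (Submodule.subset_span (s := Set.range v) ⟨j, rfl⟩) (h1 _ (y j))
    rwa [e j, add_sub_cancel_right] at this
  · rintro _ ⟨x, hx, rfl⟩
    exact h1 x hx
  · rintro _ ⟨j, rfl⟩
    rw [e j]
    exact Submodule.add_mem_sup (Submodule.subset_span ⟨j, rfl⟩) ⟨_, y j, rfl⟩

end Vale.Agent.P007X
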