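import Vale.Agent.P007X.SpecA

/-! Modules of rank one and two between `q L` and `L`. -/

set_option linter.all false

open NumberField Submodule

namespace Vale.Agent.P007X

section

variable {R F : Type} [CommRing R] [IsDedekindDomain R] [Field F] [Algebra R F] [IsFractionRing R F]
  {L N : Submodule R F} {q : Ideal R}

/-- the quotients of fractional ideals are cyclic -/
theorem cyc (hL : L.FG) (hq : q ≠ ⊥) (h1 : q • L ≤ N) (h2 : N ≤ L) :
    ∃ y ∈ N, N ≤ span R {y} ⊔ q • L := by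
  by_cases h0 : L = ⊥
  · exact ⟨0, N.zero_mem, (h2.trans h0.le).trans bot_le⟩
  obtain ⟨d, hd, hd'⟩ := FractionalIdeal.isFractional_of_fg (S := nonZeroDivisors R) hL
  have d0 : algebraMap R F d ≠ 0 := IsFractionRing.to_map_ne_zero_of_mem_nonZeroDivisors hd
  let m := LinearMap.toSpanSingleton R F (algebraMap R F d)⁻¹
  have hm : ∀ x ∈ L, ∃ r, m r = x := fun x hx => by
    obtain ⟨r, hr⟩ := hd' x hx
    refine ⟨r, ?_⟩
    rw [LinearMap.toSpanSingleton_apply, Algebra.smul_def, hr, Algebra.smul_def, mul_right_comm,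
      mul_inv_cancel₀ d0, one_mul]
  obtain ⟨x, hx, x0⟩ := exists_mem_ne_zero_of_ne_bot h0
  obtain ⟨r, hr, r0⟩ := exists_mem_ne_zero_of_ne_bot hq
  obtain ⟨a, ha⟩ := IsDedekindDomain.exists_sup_span_eq (I := comap m (q • L)) (J := comap m N)
    (comap_mono h1) fun e => by
      obtain ⟨r', hr'⟩ := hm _ (L.smul_mem r hx)
      have : r' ∈ comap m (q • L) := by
        rw [mem_comap, hr']
        exact smul_mem_smul hr hx
      rw [e, Ideal.zero_eq_bot, Ideal.mem_bot] at this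
      rw [this, map_zero, Algebra.smul_def, eq_comm, mul_eq_zero] at hr'
      exact hr'.elim (fun h => r0 (IsFractionRing.to_map_eq_zero_iff.1 h)) x0
  refine ⟨m a, (ha ▸ mem_sup_right (mem_span_singleton_self a) : a ∈ comap m N), fun x hx => ?_⟩
  obtain ⟨r, rfl⟩ := hm x (h2 hx)
  obtain ⟨j, hj, k, hk, rfl⟩ := mem_sup.1 (ha.ge hx)
  obtain ⟨c, rfl⟩ := mem_span_singleton.1 hk
  rw [map_add, map_smul, add_comm]
  exact add_mem_sup (smul_mem _ _ (mem_span_singleton_self _)) hj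

end

theorem sOne' : SOne := by
  intro K _ _ L hL q hq
  classical
  obtain ⟨y, hy, e⟩ := cyc hL hq smul_le_right le_rfl
  have : Finite {I : Ideal (𝓞 K) // q ≤ I} :=
    ((Ideal.finite_setOf_absNorm_le (Ideal.absNorm q)).subset fun I (h : q ≤ I) =>
      Nat.le_of_dvd (Nat.pos_of_ne_zero (mt Ideal.absNorm_eq_zero_iff.1 hq))
        (Ideal.absNorm_dvd_absNorm_of_le h)).to_subtype
  have := Fintype.ofFinite {I : Ideal (𝓞 K) // q ≤ I}
  refine ⟨Finset.univ.image fun I : {I : Ideal (𝓞 K) // q ≤ I} => I.1 • span _ {y} ⊔ q • L,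
    Finset.card_image_le.trans_eq Nat.card_eq_fintype_card.symm, fun N h1 h2 =>
    Finset.mem_image.2 ⟨⟨comap (LinearMap.toSpanSingleton _ K y) N,
      fun r hr => h1 (smul_mem_smul hr hy)⟩, Finset.mem_univ _, le_antisymm (sup_le ?_ h1)
      fun x hx => ?_⟩⟩
  · refine smul_le.2 fun r hr z hz => ?_
    obtain ⟨c, rfl⟩ := mem_span_singleton.1 hz
    rw [smul_comm]
    exact N.smul_mem c hr
  · obtain ⟨_, hz, w, hw, rfl⟩ := mem_sup.1 (e (h2 hx))
    obtain ⟨c, rfl⟩ := mem_span_singleton.1 hz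
    exact add_mem_sup (smul_mem_smul ((N.add_mem_iff_left (h1 hw)).1 hx)
      (mem_span_singleton_self y)) hw

theorem sTwo : STwo := by
  intro F _ _ V _ _ _ _ hV L hL q hq
  classical
  have := Module.finite_of_finrank_eq_succ hV
  let b := Module.finBasisOfFinrankEq F V hV
  let π : V →ₗ[𝓞 F] F := (b.coord 1).restrictScalars _
  let ι : F →ₗ[𝓞 F] V := (LinearMap.toSpanSingleton F V (b 0)).restrictScalars _
  have a1 : ∀ x, π (ι x) = 0 := fun x => by simp [π, ι]
  have a2 : ∀ v, π v = 0 → ∃ x, ι x = v := fun v hv => ⟨b.repr v 0, by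
    have := b.sum_repr v
    rw [Fin.sum_univ_two, show b.repr v 1 = 0 from hv, zero_smul, add_zero] at this
    exact this⟩
  have a3 : Function.Injective ι := smul_left_injective F (b.ne_zero 0)
  have f1 : (comap ι L).FG := fg_of_fg_map_injective ι a3 (hL.of_le (map_comap_le _ _))
  have f2 := hL.map π
  obtain ⟨T1, c1, t1⟩ := sOne' F _ f1 q hq
  obtain ⟨T2, c2, t2⟩ := sOne' F _ f2 q hq
  obtain ⟨y, hy, e⟩ := cyc f1 hq smul_le_right le_rfl
  have hv : ∀ N : Submodule (𝓞 F) F, ∃ v, q • map π L ≤ N → N ≤ map π L →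
      v ∈ L ∧ π v ∈ N ∧ N ≤ span _ {π v} ⊔ q • map π L := fun N => by
    by_cases h : q • map π L ≤ N ∧ N ≤ map π L
    · obtain ⟨z, hz, e⟩ := cyc f2 hq h.1 h.2
      obtain ⟨v, hv, rfl⟩ := h.2 hz
      exact ⟨v, fun _ _ => ⟨hv, hz, e⟩⟩
    · exact ⟨0, fun a b => absurd ⟨a, b⟩ h⟩
  choose v hv using hv
  have := Ideal.finiteQuotientOfFreeOfNeBot q hq
  have := Fintype.ofFinite (𝓞 F ⧸ q)
  refine ⟨(T1 ×ˢ T2 ×ˢ (Finset.univ : Finset (𝓞 F ⧸ q))).image fun p =>
    map ι p.1 ⊔ q • L ⊔ span _ {v p.2.1 + ι (p.2.2.out • y)}, Finset.card_image_le.trans ?_,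
    fun N h1 h2 => ?_⟩
  · rw [Finset.card_product, Finset.card_product, Finset.card_univ, ← Nat.card_eq_fintype_card,
      Ideal.absNorm_apply, cardQuot_apply, sq, mul_assoc]
    gcongr
  have b1 : q • map π L ≤ map π N := (map_smul'' _ _ _).ge.trans (map_mono h1)
  obtain ⟨v1, ⟨m, hm, v2⟩, v3⟩ := hv _ b1 (map_mono h2)
  obtain ⟨x, hx⟩ := a2 (m - v (map π N)) (by rw [map_sub, v2, sub_self])
  obtain ⟨_, hz, w, hw, rfl⟩ := mem_sup.1 (e (mem_comap.2 (hx ▸ L.sub_mem (h2 hm) v1 : ι x ∈ L)))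
  obtain ⟨c, rfl⟩ := mem_span_singleton.1 hz
  have b2 : c - (Ideal.Quotient.mk q c).out ∈ q :=
    Ideal.Quotient.eq.1 (Ideal.Quotient.mk_out _).symm
  have b3 : v (map π N) + ι ((Ideal.Quotient.mk q c).out • y) ∈ N := by
    have := N.sub_mem (N.sub_mem hm (h1 (smul_comap_le_comap_smul _ _ _ hw)))
      (h1 (smul_mem_smul b2 hy))
    rw [eq_add_of_sub_eq hx.symm] at this
    convert this using 1
    simp only [map_add, map_smul, sub_smul]
    abel
  refine Finset.mem_image.2 ⟨(comap ι N, map π N, Ideal.Quotient.mk q c), Finset.mem_product.2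
    ⟨t1 _ ((smul_comap_le_comap_smul _ _ _).trans (comap_mono h1)) (comap_mono h2),
      Finset.mem_product.2 ⟨t2 _ b1 (map_mono h2), Finset.mem_univ _⟩⟩,
    le_antisymm (sup_le (sup_le (map_comap_le _ _) h1) ((span_singleton_le_iff_mem _ _).2 b3))
      fun z hz => ?_⟩
  obtain ⟨_, k1, _, k2, k3⟩ := mem_sup.1 (v3 (mem_map_of_mem hz))
  obtain ⟨a, rfl⟩ := mem_span_singleton.1 k1
  obtain ⟨w', k4, rfl⟩ := (map_smul'' _ _ _).ge k2
  obtain ⟨x, hx⟩ := a2 (z - w' - a • (v (map π N) + ι ((Ideal.Quotient.mk q c).out • y))) (by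
    rw [map_sub, map_sub, map_smul, map_add, a1, ← k3, add_zero, add_sub_cancel_right, sub_self])
  rw [eq_add_of_sub_eq (eq_add_of_sub_eq hx.symm), add_right_comm]
  exact add_mem_sup (add_mem_sup (mem_map_of_mem (mem_comap.2
    (hx ▸ N.sub_mem (N.sub_mem hz (h1 k4)) (N.smul_mem a b3) : ι x ∈ N))) k4)
    (smul_mem _ _ (mem_span_singleton_self _))

end Vale.Agent.P007X
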