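import Vale.Agent.P007X.SpecA

/-! Points of ideals in boxes, balanced elements, short generators (totally real fields). -/

set_option linter.all false

open NumberField NumberField.InfinitePlace NumberField.mixedEmbedding
open scoped nonZeroDivisors NNReal ENNReal

noncomputable section

namespace Vale.Agent.P007X

namespace A6

variable {F : Type} [Field F] [NumberField F] [IsTotallyReal F]

/-- real embeddings and places -/
def plc : (F →+* ℝ) ≃ InfinitePlace F where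
  toFun ψ := InfinitePlace.mk (Complex.ofRealHom.comp ψ)
  invFun w := embedding_of_isReal (IsTotallyReal.isReal w)
  left_inv ψ := RingHom.ext fun x => Complex.ofReal_injective (by
    rw [embedding_of_isReal_apply,
      embedding_mk_eq_of_isReal (IsTotallyReal.complexEmbedding_isReal _)]
    rfl)
  right_inv w := (congrArg InfinitePlace.mk
    (RingHom.ext fun x => embedding_of_isReal_apply _ x)).trans (mk_embedding w)

theorem plc_apply (ψ : F →+* ℝ) (x : F) : plc ψ x = |ψ x| :=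
  (Complex.norm_real _).trans (Real.norm_eq_abs _)

theorem prod_emb (x : F) : ∏ ψ : F →+* ℝ, |ψ x| = (|Algebra.norm ℚ x| : ℚ) := by
  rw [← prod_eq_abs_norm, ← plc.prod_comp]
  simp [plc_apply]

theorem card_emb : Fintype.card (F →+* ℝ) = Module.finrank ℚ F := by
  rw [Fintype.card_congr plc, card_eq_nrRealPlaces_add_nrComplexPlaces,
    IsTotallyReal.nrComplexPlaces_eq_zero, add_zero, IsTotallyReal.finrank]

theorem norm_le {h : Ideal (𝓞 F)} {x : 𝓞 F} (hx : x ∈ h) (x0 : x ≠ 0) :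
    (Ideal.absNorm h : ℝ) ≤ ∏ ψ : F →+* ℝ, |ψ (x : F)| := by
  have := Nat.le_of_dvd (Nat.pos_of_ne_zero (mt Ideal.absNorm_eq_zero_iff.1
    (mt Ideal.span_singleton_eq_bot.1 x0)))
    (Ideal.absNorm_dvd_absNorm_of_le ((Ideal.span_singleton_le_iff_mem h).2 hx))
  rw [Ideal.absNorm_span_singleton] at this
  rw [prod_emb, ← Algebra.coe_norm_int, ← Int.cast_abs, ← Nat.cast_natAbs]
  exact_mod_cast this

theorem mink (J : (FractionalIdeal (𝓞 F)⁰ F)ˣ) {f : (F →+* ℝ) → ℝ} (hf : ∀ ψ, 0 < f ψ)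
    (h : (FractionalIdeal.absNorm J.1 : ℝ) * √|(discr F : ℝ)| < ∏ ψ, f ψ) :
    ∃ a ∈ J.1, a ≠ 0 ∧ ∀ ψ : F →+* ℝ, |ψ a| < f ψ := by
  classical
  obtain ⟨a, ha, a0, e⟩ := exists_ne_zero_mem_ideal_lt F J
    (f := fun w => NNReal.mk (f (plc.symm w)) (hf _).le) (by
      rw [minkowskiBound, volume_fundamentalDomain_fractionalIdealLatticeBasis,
        volume_fundamentalDomain_latticeBasis, convexBodyLT_volume, convexBodyLTFactor,
        mixedEmbedding.finrank, IsTotallyReal.nrComplexPlaces_eq_zero, ← IsTotallyReal.finrank]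
      refine (ENNReal.toReal_lt_toReal (by finiteness) (by finiteness)).1 ?_
      have q : (0 : ℝ) ≤ (FractionalIdeal.absNorm J.1 : ℝ) := by
        exact_mod_cast FractionalIdeal.absNorm_nonneg J.1
      simp only [ENNReal.toReal_mul, ENNReal.toReal_ofReal q, ENNReal.coe_toReal, pow_zero,
        one_mul, mul_one, ENNReal.toReal_pow, ENNReal.toReal_ofNat, IsTotallyReal.mult_eq, pow_one,
        NNReal.coe_prod, NNReal.coe_pow, NNReal.coe_ofNat, NNReal.coe_mk, Real.coe_sqrt,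
        coe_nnnorm, Int.norm_eq_abs, plc.symm.prod_comp f]
      rw [mul_comm]
      gcongr)
  exact ⟨a, ha, a0, fun ψ => by simpa [plc_apply] using e (plc ψ)⟩

end A6

open A6

/-- [A6] -/
theorem sBox : SBox := by
  intro F _ _ _ h h0 b hb
  classical
  have N0 : (0 : ℝ) < Ideal.absNorm h :=
    Nat.cast_pos.2 (Nat.pos_of_ne_zero (mt Ideal.absNorm_eq_zero_iff.1 h0))
  have P0 : 0 < ∏ ψ, b ψ := Finset.prod_pos fun ψ _ => hb ψ
  rcases lt_or_ge (∏ ψ, b ψ) (Ideal.absNorm h) with q | q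
  · refine ⟨∅, by simp only [Finset.card_empty, Nat.cast_zero, zero_mul]; positivity,
      fun x hx x0 hψ => ?_⟩
    exact (q.not_ge ((norm_le hx x0).trans
      (Finset.prod_le_prod (fun _ _ => abs_nonneg _) fun ψ _ => hψ ψ))).elim
  obtain ⟨ψ₀⟩ : Nonempty (F →+* ℝ) := plc.nonempty
  set R := ∏ ψ ∈ Finset.univ.erase ψ₀, 2 * b ψ with hR
  have R0 : 0 < R := Finset.prod_pos fun ψ _ => mul_pos two_pos (hb ψ)
  have e : 2 * b ψ₀ * R = 2 ^ Module.finrank ℚ F * ∏ ψ, b ψ := by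
    rw [hR, Finset.mul_prod_erase _ (fun ψ => 2 * b ψ) (Finset.mem_univ ψ₀),
      Finset.prod_mul_distrib, Finset.prod_const, Finset.card_univ, card_emb]
  let S : Set (𝓞 F) := {x | x ∈ h ∧ ∀ ψ : F →+* ℝ, |ψ (x : F)| ≤ b ψ}
  let g : 𝓞 F → ℕ := fun x => ⌊(ψ₀ (x : F) + b ψ₀) * R / Ideal.absNorm h⌋₊
  have p : ∀ x ∈ S, 0 ≤ (ψ₀ (x : F) + b ψ₀) * R / Ideal.absNorm h := fun x hx =>
    div_nonneg (mul_nonneg (by linarith [(abs_le.1 (hx.2 ψ₀)).1]) R0.le) N0.le
  have inj : Set.InjOn g S := fun x hx y hy e => by_contra fun ne => by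
    have a1 := norm_le (h.sub_mem hx.1 hy.1) (sub_ne_zero.2 ne)
    rw [← Finset.mul_prod_erase _ _ (Finset.mem_univ ψ₀)] at a1
    have a2 : ∏ ψ ∈ Finset.univ.erase ψ₀, |ψ ((x - y : 𝓞 F) : F)| ≤ R :=
      Finset.prod_le_prod (fun _ _ => abs_nonneg _) fun ψ _ => by
        push_cast
        rw [map_sub]
        linarith [abs_sub (ψ (x : F)) (ψ (y : F)), hx.2 ψ, hy.2 ψ]
    have a3 := a1.trans (mul_le_mul_of_nonneg_left a2 (abs_nonneg _))
    have b1 := (le_div_iff₀ N0).1 (Nat.floor_le (p x hx))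
    have b2 := (le_div_iff₀ N0).1 (Nat.floor_le (p y hy))
    have b3 := (div_lt_iff₀ N0).1
      (Nat.lt_floor_add_one ((ψ₀ (x : F) + b ψ₀) * R / Ideal.absNorm h))
    have b4 := (div_lt_iff₀ N0).1
      (Nat.lt_floor_add_one ((ψ₀ (y : F) + b ψ₀) * R / Ideal.absNorm h))
    change ((g x : ℕ) : ℝ) * _ ≤ _ at b1
    change ((g y : ℕ) : ℝ) * _ ≤ _ at b2
    change _ < (((g x : ℕ) : ℝ) + 1) * _ at b3
    change _ < (((g y : ℕ) : ℝ) + 1) * _ at b4
    rw [e] at b1 b3
    push_cast at a3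
    rw [map_sub, ← abs_of_pos R0, ← abs_mul] at a3
    exact a3.not_gt (abs_lt.2 ⟨by linarith, by linarith⟩)
  have mp : Set.MapsTo g S (Finset.range (⌊2 * b ψ₀ * R / Ideal.absNorm h⌋₊ + 1)) := fun x hx =>
    Finset.mem_coe.2 (Finset.mem_range_succ_iff.2 (Nat.floor_le_floor (by
      gcongr
      linarith [(abs_le.1 (hx.2 ψ₀)).2])))
  have fin : S.Finite := .of_injOn mp inj (Finset.finite_toSet _)
  refine ⟨fin.toFinset, ?_, fun x hx _ hψ => fin.mem_toFinset.2 ⟨hx, hψ⟩⟩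
  have c1 := Finset.card_le_card_of_injOn (s := fin.toFinset) g (fin.coe_toFinset.symm ▸ mp)
    (fin.coe_toFinset.symm ▸ inj)
  rw [Finset.card_range, ← Nat.cast_le (α := ℝ), Nat.cast_add_one] at c1
  have c2 := (le_div_iff₀ N0).1 (Nat.floor_le (a := 2 * b ψ₀ * R / Ideal.absNorm h)
    (div_nonneg (mul_pos (mul_pos two_pos (hb ψ₀)) R0).le N0.le))
  nlinarith

/-- [A7] -/
theorem sBal : SBal := by
  refine fun n => ⟨2, one_le_two, fun F _ _ _ _ L fg L0 ω hω => ?_⟩
  classical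
  let J₀ : FractionalIdeal (𝓞 F)⁰ F := ⟨L, FractionalIdeal.isFractional_of_fg fg⟩
  have J0 : J₀ ≠ 0 := fun e => L0 ((FractionalIdeal.coeToSubmodule_eq_bot (I := J₀)).2 e)
  set N : ℝ := ((FractionalIdeal.absNorm J₀ : ℚ) : ℝ) with hN
  have N0 : 0 < N := Rat.cast_pos.2 ((FractionalIdeal.absNorm_nonneg J₀).lt_of_ne'
    (mt FractionalIdeal.absNorm_eq_zero_iff.1 J0))
  have D1 : (1 : ℝ) ≤ |(discr F : ℝ)| := by
    exact_mod_cast Int.one_le_abs (discr_ne_zero F)
  set D := |(discr F : ℝ)|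
  have W0 : 0 < ∏ ψ, ω ψ := Finset.prod_pos fun ψ _ => hω ψ
  obtain ⟨m, hm⟩ := Nat.exists_eq_add_one.2 (Fintype.card_pos (α := F →+* ℝ) (h := plc.nonempty))
  obtain ⟨t, t0, ht⟩ : ∃ t : ℝ, 0 < t ∧ t ^ (m + 1) = 2 * D * N * ∏ ψ, ω ψ :=
    ⟨_, Real.rpow_pos_of_pos (by positivity) _,
      Real.rpow_inv_natCast_pow (by positivity) m.succ_ne_zero⟩
  have e : ∏ ψ, t / ω ψ = 2 * D * N := by
    rw [Finset.prod_div_distrib, Finset.prod_const, Finset.card_univ, hm, ht,
      mul_div_cancel_right₀ _ W0.ne']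
  obtain ⟨a, ha, a0, q⟩ := mink (Units.mk0 J₀ J0) (f := fun ψ => t / ω ψ)
    (fun ψ => div_pos t0 (hω ψ)) (by
      have : √D ≤ D := Real.sqrt_le_iff.2 ⟨by linarith, by nlinarith⟩
      rw [e, Units.val_mk0, ← hN]
      nlinarith)
  obtain ⟨I, hI⟩ := FractionalIdeal.le_one_iff_exists_coeIdeal.1
    (show FractionalIdeal.spanSingleton (𝓞 F)⁰ a * J₀⁻¹ ≤ 1 by
      rw [← mul_inv_cancel₀ J0]
      exact mul_le_mul_left (FractionalIdeal.spanSingleton_le_iff_mem.2 ha) _)
  have h1 : (I : FractionalIdeal (𝓞 F)⁰ F) * J₀ = FractionalIdeal.spanSingleton (𝓞 F)⁰ a := by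
    rw [hI, inv_mul_cancel_right₀ J0]
  have h2 : (Ideal.absNorm I : ℝ) * N = ∏ ψ : F →+* ℝ, |ψ a| := by
    rw [prod_emb, ← FractionalIdeal.absNorm_span_singleton (𝓞 F), ← h1, map_mul,
      FractionalIdeal.coeIdeal_absNorm, Rat.cast_mul, Rat.cast_natCast]
  have I0 : I ≠ ⊥ := fun z => by
    rw [z, FractionalIdeal.coeIdeal_bot, zero_mul, eq_comm,
      FractionalIdeal.spanSingleton_eq_zero_iff] at h1
    exact a0 h1
  have I1 : (1 : ℝ) ≤ Ideal.absNorm I :=
    Nat.one_le_cast.2 (Nat.pos_of_ne_zero (mt Ideal.absNorm_eq_zero_iff.1 I0))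
  have q' : ∀ ψ : F →+* ℝ, |ψ a| * ω ψ ≤ t := fun ψ => ((lt_div_iff₀ (hω ψ)).1 (q ψ)).le
  refine ⟨a, ha, a0, ⟨I, I0, le_of_mul_le_mul_right ?_ N0, ?_⟩, fun ψ ψ' => (q' ψ).trans ?_⟩
  · rw [h2, ← e]
    exact Finset.prod_le_prod (fun _ _ => abs_nonneg _) fun ψ _ => (q ψ).le
  · rw [← FractionalIdeal.coe_spanSingleton (𝓞 F)⁰, ← h1, FractionalIdeal.coe_mul,
      FractionalIdeal.coe_coeIdeal]
    refine le_antisymm (Submodule.smul_le.2 fun r hr x hx => ?_) (Submodule.mul_le.2 ?_)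
    · rw [Algebra.smul_def]
      exact Submodule.mul_mem_mul ⟨r, hr, rfl⟩ hx
    · rintro _ ⟨r, hr, rfl⟩ x hx
      rw [Algebra.linearMap_apply, ← Algebra.smul_def]
      exact Submodule.smul_mem_smul hr hx
  · have a1 : ∏ χ ∈ Finset.univ.erase ψ', |χ a| * ω χ ≤ t ^ m := by
      refine (Finset.prod_le_prod (fun χ _ => mul_nonneg (abs_nonneg _) (hω χ).le)
        fun χ _ => q' χ).trans_eq ?_
      rw [Finset.prod_const, Finset.card_erase_of_mem (Finset.mem_univ _), Finset.card_univ, hm,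
        Nat.add_sub_cancel]
    have a2 := Finset.mul_prod_erase _ (fun χ : F →+* ℝ => |χ a| * ω χ) (Finset.mem_univ ψ')
    rw [Finset.prod_mul_distrib (s := Finset.univ), ← h2] at a2
    have a3 := mul_le_mul_of_nonneg_left a1 (mul_nonneg (abs_nonneg (ψ' a)) (hω ψ').le)
    rw [a2] at a3
    refine le_of_mul_le_mul_right ?_ (pow_pos t0 m)
    rw [← pow_succ', ht, mul_assoc (2 * D), mul_assoc (2 * D)]
    refine mul_le_mul_of_nonneg_left (le_trans ?_ a3) (by positivity)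
    rw [mul_assoc]
    exact le_mul_of_one_le_left (by positivity) I1

/-- [A8] -/
theorem sGen : SGen := by
  intro F _ _ _ a ia inj A A1 hA
  classical
  have re := fun φ : F →ₐ[ℚ] ℂ => IsTotallyReal.complexEmbedding_isReal (φ : F →+* ℂ)
  have top := (Field.primitive_element_iff_algHom_eq_of_eval' ℚ ℂ
    (fun x => IsAlgClosed.splits _) a).2 fun φ φ' e => by
      have := inj (a₁ := (re φ).embedding) (a₂ := (re φ').embedding) (Complex.ofReal_injective (by
        simpa only [ComplexEmbedding.IsReal.coe_embedding_apply, RingHom.coe_coe] using e))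
      refine AlgHom.ext fun x => ?_
      simpa only [ComplexEmbedding.IsReal.coe_embedding_apply, RingHom.coe_coe] using
        congrArg (fun ψ : F →+* ℝ => (ψ x : ℂ)) this
  have iq : IsIntegral ℚ a := ia.tower_top
  let B := PowerBasis.ofAdjoinEqTop iq (by
    rw [← IntermediateField.adjoin_simple_toSubalgebra_of_isAlgebraic iq.isAlgebraic, top,
      IntermediateField.top_toSubalgebra])
  have hB : B.gen = a := rfl
  have ib : ∀ i, IsIntegral ℤ (B.basis i) := fun i => by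
    rw [B.basis_eq_pow]
    exact ia.pow _
  obtain ⟨d, hd⟩ := IsIntegrallyClosed.isIntegral_iff.1 (Algebra.discr_isIntegral ℚ ib)
  have d0 : d ≠ 0 := fun z => Algebra.discr_not_zero_of_basis ℚ B.basis (by rw [← hd, z, map_zero])
  have d1 : |(d : ℝ)| ≤ (2 * A) ^ (Module.finrank ℚ F ^ 2) := by
    have e : Fin B.dim ≃ (F →ₐ[ℚ] ℂ) := Fintype.equivOfCardEq (by
      rw [Fintype.card_fin, AlgHom.card, B.finrank])
    have h1 := congrArg (‖·‖) (Algebra.discr_powerBasis_eq_prod ℚ ℂ B e)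
    have h2 : ∀ i, ‖e i a‖ ≤ A := fun i => by
      have := hA (re (e i)).embedding
      rwa [← Real.norm_eq_abs, ← Complex.norm_real,
        ComplexEmbedding.IsReal.coe_embedding_apply] at this
    simp only [← hd, eq_intCast, map_intCast, Complex.norm_intCast, norm_prod, norm_pow, hB] at h1
    have h3 : ∀ i : Fin B.dim, ∏ j ∈ Finset.Ioi i, ‖e j a - e i a‖ ^ 2 ≤
        (2 * A) ^ (2 * (B.dim - 1 - i)) := fun i => by
      rw [pow_mul, ← Fin.card_Ioi, ← Finset.prod_const]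
      refine Finset.prod_le_prod (fun _ _ => sq_nonneg _) fun j _ => ?_
      exact pow_le_pow_left₀ (norm_nonneg _) (by linarith [norm_sub_le (e j a) (e i a), h2 i, h2 j]) 2
    rw [h1]
    refine (Finset.prod_le_prod (fun _ _ => Finset.prod_nonneg fun _ _ => sq_nonneg _)
      fun i _ => h3 i).trans ?_
    rw [Finset.prod_pow_eq_pow_sum, B.finrank, ← Finset.mul_sum,
      Fin.sum_univ_eq_sum_range (fun i => B.dim - 1 - i), Finset.sum_range_reflect (fun i => i),
      mul_comm 2 (∑ _ ∈ _, _), Finset.sum_range_id_mul_two]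
    exact pow_le_pow_right₀ (by linarith) (by rw [sq]; exact Nat.mul_le_mul_left _ (Nat.sub_le _ _))
  refine ⟨le_trans ?_ d1, d.natAbs, Int.natAbs_ne_zero.2 d0, by
    rw [Nat.cast_natAbs, Int.cast_abs]; exact d1, fun x hx => ?_⟩
  · let f := B.basis.indexEquiv (integralBasis F)
    let P : Matrix _ _ ℤ := (RingOfIntegers.basis F).toMatrix fun i => ⟨_, ib (f.symm i)⟩
    have h1 := Algebra.discr_of_matrix_vecMul (integralBasis F) (P.map (Int.castRingHom ℚ))
    rw [show P.map (Int.castRingHom ℚ) = (integralBasis F).toMatrix (B.basis ∘ f.symm) from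
      Matrix.ext fun i j => (integralBasis_repr_apply F ⟨_, ib (f.symm j)⟩ i).symm] at h1
    rw [Module.Basis.toMatrix_map_vecMul, Algebra.discr_reindex, ← hd, ← coe_discr,
      show (integralBasis F).toMatrix (B.basis ∘ f.symm) = (Int.castRingHom ℚ).mapMatrix P from
        Matrix.ext fun i j => integralBasis_repr_apply F ⟨_, ib (f.symm j)⟩ i,
      ← RingHom.map_det, eq_intCast, eq_intCast] at h1
    have h2 : d = P.det ^ 2 * discr F := by exact_mod_cast h1
    exact_mod_cast Int.le_of_dvd (abs_pos.2 d0) ((abs_dvd_abs _ _).2 ⟨_, h2.trans (mul_comm _ _)⟩)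
  · have := Algebra.discr_mul_isIntegral_mem_adjoin ℚ (B := B) ia hx
    rw [← hd, eq_intCast, Int.cast_smul_eq_zsmul, zsmul_eq_mul, hB] at this
    rw [← Int.cast_natCast, Int.natCast_natAbs]
    rcases abs_choice d with e | e
    · rwa [e]
    · rw [e, Int.cast_neg, neg_mul]
      exact neg_mem this

end Vale.Agent.P007X
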