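import Mathlib

/-! Statements of the counting lemmas for ideals and lattices (index two case). -/

set_option autoImplicit false

open NumberField

namespace Vale.Agent.P007X

/-- the number of the ideals which contain `q` -/
noncomputable def ndiv {R : Type} [CommRing R] (q : Ideal R) : ℕ := Nat.card {I : Ideal R // q ≤ I}

/-- [A1] the divisor bound for ideals -/
def SDiv : Prop := ∀ (n : ℕ) (ε : ℝ), 0 < ε → ∃ C : ℝ, 0 < C ∧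
  ∀ (K : Type) [Field K] [NumberField K], Module.finrank ℚ K ≤ n → ∀ q : Ideal (𝓞 K), q ≠ ⊥ →
    Finite {I : Ideal (𝓞 K) // q ≤ I} ∧ (ndiv q : ℝ) ≤ C * (Ideal.absNorm q : ℝ) ^ ε

/-- [A2] ideals of small norm -/
def SSmall : Prop := ∀ n : ℕ, ∃ C : ℝ, 0 < C ∧
  ∀ (K : Type) [Field K] [NumberField K], Module.finrank ℚ K ≤ n → ∀ B : ℝ, 1 ≤ B →
    ∃ T : Finset (Ideal (𝓞 K)), (T.card : ℝ) ≤ C * B ^ 2 ∧
      ∀ I : Ideal (𝓞 K), I ≠ ⊥ → (Ideal.absNorm I : ℝ) ≤ B → I ∈ T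

/-- [A3] modules of rank one between `q L` and `L` -/
def SOne : Prop := ∀ (K : Type) [Field K] [NumberField K] (L : Submodule (𝓞 K) K), L.FG →
  ∀ q : Ideal (𝓞 K), q ≠ ⊥ → ∃ T : Finset (Submodule (𝓞 K) K), T.card ≤ ndiv q ∧
    ∀ N : Submodule (𝓞 K) K, q • L ≤ N → N ≤ L → N ∈ T

/-- [A4] modules of rank two between `q L` and `L` -/
def STwo : Prop := ∀ (F : Type) [Field F] [NumberField F] (V : Type) [AddCommGroup V] [Module F V]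
  [Module (𝓞 F) V] [IsScalarTower (𝓞 F) F V], Module.finrank F V = 2 →
  ∀ L : Submodule (𝓞 F) V, L.FG → ∀ q : Ideal (𝓞 F), q ≠ ⊥ →
    ∃ T : Finset (Submodule (𝓞 F) V), T.card ≤ ndiv q ^ 2 * Ideal.absNorm q ∧
      ∀ N : Submodule (𝓞 F) V, q • L ≤ N → N ≤ L → N ∈ T

/-- [A5] subgroups between `c L` and `L` -/
def SInt : Prop := ∀ (K : Type) [Field K] [NumberField K] (L : Submodule ℤ K), L.FG →
  ∀ c : ℕ, c ≠ 0 → ∃ T : Finset (Submodule ℤ K), T.card ≤ c ^ (Module.finrank ℚ K ^ 2) ∧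
    ∀ N : Submodule ℤ K, (∀ x ∈ L, (c : K) * x ∈ N) → N ≤ L → N ∈ T

/-- [A6] nonzero points of an ideal in a box -/
def SBox : Prop := ∀ (F : Type) [Field F] [NumberField F] [IsTotallyReal F] (h : Ideal (𝓞 F)),
  h ≠ ⊥ → ∀ b : (F →+* ℝ) → ℝ, (∀ ψ, 0 < b ψ) → ∃ T : Finset (𝓞 F),
    (T.card : ℝ) * Ideal.absNorm h ≤ (2 ^ Module.finrank ℚ F + 1) * ∏ ψ, b ψ ∧
      ∀ x ∈ h, x ≠ 0 → (∀ ψ : F →+* ℝ, |ψ (x : F)| ≤ b ψ) → x ∈ T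

/-- [A7] a balanced element of a fractional ideal -/
def SBal : Prop := ∀ n : ℕ, ∃ C : ℝ, 1 ≤ C ∧
  ∀ (F : Type) [Field F] [NumberField F] [IsTotallyReal F], Module.finrank ℚ F ≤ n →
    ∀ L : Submodule (𝓞 F) F, L.FG → L ≠ ⊥ → ∀ ω : (F →+* ℝ) → ℝ, (∀ ψ, 0 < ω ψ) →
      ∃ φ ∈ L, φ ≠ 0 ∧ (∃ I : Ideal (𝓞 F), I ≠ ⊥ ∧
        (Ideal.absNorm I : ℝ) ≤ C * |(discr F : ℝ)| ∧ I • L = Submodule.span (𝓞 F) {φ}) ∧
        ∀ ψ ψ' : F →+* ℝ, |ψ φ| * ω ψ ≤ C * |(discr F : ℝ)| * (|ψ' φ| * ω ψ')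

/-- [A8] a field with a short generator -/
def SGen : Prop := ∀ (F : Type) [Field F] [NumberField F] [IsTotallyReal F] (a : F),
  IsIntegral ℤ a → (Function.Injective fun ψ : F →+* ℝ => ψ a) → ∀ A : ℝ, 1 ≤ A →
    (∀ ψ : F →+* ℝ, |ψ a| ≤ A) →
    |(discr F : ℝ)| ≤ (2 * A) ^ (Module.finrank ℚ F ^ 2) ∧
      ∃ c : ℕ, c ≠ 0 ∧ (c : ℝ) ≤ (2 * A) ^ (Module.finrank ℚ F ^ 2) ∧
        ∀ x : F, IsIntegral ℤ x → (c : F) * x ∈ Algebra.adjoin ℤ {a}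

/-- a field of degree `n` with an involution `τ`, a generator `a` of the fixed field and an
element `θ` of relative trace zero -/
structure Quad {n : ℕ} (K : Type) [Field K] (σ : Fin n ≃ (K →+* ℝ)) (s : Fin n → Fin n)
    (τ : K ≃+* K) (a θ : K) : Prop where
  ne : ∀ j, s j ≠ j
  emb : ∀ j x, σ (s j) x = σ j (τ x)
  inv : ∀ x, τ (τ x) = x
  fib : ∀ j k, σ k a = σ j a ↔ k = j ∨ k = s j
  ia : IsIntegral ℤ a
  iθ : IsIntegral ℤ θ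
  τθ : τ θ = -θ
  θ0 : θ ≠ 0

/-- a lattice which is stable under `a`, `θ` and `(ℓ + z τ) / (2 θ)` -/
structure Cfg {K : Type} [Field K] (τ : K ≃+* K) (a θ : K) (M : Submodule ℤ K) (l z : K) :
    Prop where
  fg : M.FG
  ne : M ≠ ⊥
  sa : ∀ m ∈ M, a * m ∈ M
  sθ : ∀ m ∈ M, θ * m ∈ M
  τl : τ l = l
  nz : z * τ z = l ^ 2 - 4 * θ ^ 4
  z0 : z ≠ 0
  sY : ∀ m ∈ M, (l * m + z * τ m) / (2 * θ) ∈ M

/-- [A] the count of the configurations -/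
def SLin (n : ℕ) : Prop := ∃ N : ℕ, ∀ ε : ℝ, 0 < ε → ∃ C : ℝ, 1 ≤ C ∧
  ∀ (K : Type) [Field K] [NumberField K] (σ : Fin n ≃ (K →+* ℝ)) (s : Fin n → Fin n)
    (τ : K ≃+* K) (a θ : K), Module.finrank ℚ K = n → Quad K σ s τ a θ → ∀ A Θ : ℝ, 1 ≤ A → 1 ≤ Θ →
    (∀ j, |σ j a| ≤ A) → (∀ j, |σ j θ| ≤ Θ) → ∀ b : Fin n → ℝ, (∀ j, 0 < b j) →
    (∀ j, b (s j) = b j) → (∀ j, b j ≤ Θ ^ 2) →
    ∃ T : Finset (Submodule ℤ K × K × K), (T.card : ℝ) ≤ C * A ^ N * Θ ^ ε * √(∏ j, b j) ∧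
      ∀ (M : Submodule ℤ K) (l z : K), Cfg τ a θ M l z → (∀ j, |σ j (l - 2 * θ ^ 2)| ≤ b j) →
        ∀ ω : Fin n → ℝ, (∀ j, 0 < ω j) → (∀ j, ω (s j) = ω j) → ∃ lam : K, lam ≠ 0 ∧
          (M.map (LinearMap.mulLeft ℤ lam), l, z * lam / τ lam) ∈ T ∧
          ∀ j k, ω j / |σ j (lam * τ lam)| ≤ C * A ^ N * (ω k / |σ k (lam * τ lam)|)

end Vale.Agent.P007X
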