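import Vale.Agent.P007M.Ent
import Vale.Agent.P007M.Tube
import Vale.Agent.P007M.CoreT
import Vale.Agent.P007X.SpecA

/-! Statements of the geometric blocks of the relative argument. -/

set_option autoImplicit false

open MeasureTheory
open scoped ENNReal

namespace Vale.Agent.P007X

open Vale.Agent.P007 Vale.Agent.P007.Fib Vale.Agent.P007M Vale.Agent.P007M.Reg

variable {n : ℕ}

/-- for all pairs `(j, k)` in one fibre of `a` the information at the entry `(j, k)` is large -/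
def Full (μ : Measure (X n)) (ρ : ℝ) (a : Fin n → ℝ) (r₁ l H ε : ℝ) : Prop :=
  ∀ j k, j ≠ k → a j = a k → ∃ t : Th n, Valid t ∧ Valid (up t j k l) ∧ 0 ≤ t ∧ t j k = 0 ∧
    (∀ p q, p ≠ q → ¬(p = j ∧ q = k) → r₁ ≤ t p q) ∧ μ.real {x | J (fi μ ρ) t j k l x < H} ≤ ε

/-- the fibres of `a` are the orbits of an involution of the field -/
structure Two (D : Datum n) (a : Fin n → ℝ) (s : Fin n → Fin n) (τ : D.K ≃+* D.K) : Prop where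
  ne : ∀ j, s j ≠ j
  emb : ∀ j x, D.σ (s j) x = D.σ j (τ x)
  inv : ∀ x, τ (τ x) = x
  fib : ∀ j k, a k = a j ↔ k = j ∨ k = s j

/-- [B1] the partition which is defined by the short elements of the order -/
def SBlocks (n : ℕ) : Prop := ∀ κ : ℝ, 0 < κ → ∃ (S : Finset ℝ) (D₀ : ℕ),
  (∀ c ∈ S, 0 < c ∧ c ≤ 1) ∧ ∀ D : Datum n,
  D₀ ≤ D.disc → ∃ c ∈ S, ∃ a ∈ RE D, (∀ j, |a j| ≤ (D.disc : ℝ) ^ (κ * c)) ∧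
    LamR a c D ∧ ((∀ j, 3 ≤ (Finset.univ.filter fun k => a k = a j).card) ∨ ∃ s τ, Two D a s τ)

/-- [B2] close points of the packet differ by an element which commutes with `a` -/
def SComm (n : ℕ) : Prop := ∀ Ω : Set (X n), IsCompact Ω → ∃ C₀ : ℝ, ∀ (D : Datum n),
  ∀ a ∈ RE D, ∀ A : ℝ, 1 ≤ A → (∀ j, |a j| ≤ A) → ∀ (ρ : ℝ) (t : Th n), 0 < ρ → 2 * n * ρ ≤ 1 →
    Valid t → (∀ p q, a p ≠ a q → C₀ + Real.log A ≤ t p q) → 0 ≤ t → ∀ x ∈ Ω, InvPt (RE D) x →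
      ∀ h ∈ bx ρ t, InvPt (RE D) (tr h x) → ∀ j k, a j ≠ a k → h.1 j k = 0

/-- [B3] both tubes -/
def STube (n : ℕ) : Prop := ∀ Ω : Set (X n), IsCompact Ω → ∀ p : Fin n → ℝ, H11.IsMult p →
  ∃ ρ₀ : ℝ, 0 < ρ₀ ∧ ∀ ρ, 0 < ρ → ρ ≤ ρ₀ → ∀ l : ℝ, 0 ≤ l → ∃ V : Set (X n), IsOpen V ∧ Yd p ⊆ V ∧
    ∃ C₀ : ℝ, ∀ D : Datum n, p ∉ RE D → ∀ a ∈ RE D, ∀ A : ℝ, 1 ≤ A → (∀ j, |a j| ≤ A) →
      (∀ j, ∃ k, k ≠ j ∧ a k = a j) → ∀ r₁ H ε : ℝ, C₀ + Real.log A ≤ r₁ →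
        Full D.packetMeas ρ a r₁ l H ε → D.packetMeas.real V ≤
          (n ^ 3 + 1) * (ε + D.packetMeas.real Ωᶜ + 24 ^ (n * n) * Real.exp (-H))

/-- bounded elements which commute with `a` and whose inverse has a small entry at `(j, k)` -/
def Eb (a : Fin n → ℝ) (j k : Fin n) (B T : ℝ) : Set (G n) :=
  {h | (∀ p q, |h.1 p q| ≤ B ∧ |(h⁻¹).1 p q| ≤ B ∧ (a p ≠ a q → h.1 p q = 0)) ∧
    |(h⁻¹).1 j k| ≤ B * Real.exp (-T) ∧ ∀ p q, p ≠ q → |h.1 p q * (h⁻¹).1 q p| ≤ 1 / 4}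

/-- [B4] the basic lemma of Linnik over the fixed field -/
def SLinG (n : ℕ) : Prop := ∃ N : ℕ, ∀ (Ω : Set (X n)) (ε B : ℝ), IsCompact Ω → 0 < ε → 1 ≤ B →
  ∃ D₀ : ℕ, ∀ D : Datum n, D₀ ≤ D.disc → ∀ a ∈ RE D, ∀ s τ, Two D a s τ → ∀ A : ℝ, 1 ≤ A →
    (∀ j, |a j| ≤ A) → A ≤ D.disc → ∀ (j : Fin n) (T : ℝ), 0 ≤ T → T ≤ Real.log D.disc / 4 →
      D.packetMeas.real {x | x ∈ Ω ∧ ENNReal.ofReal ((D.disc : ℝ) ^ ε * A ^ N * Real.exp (-T)) <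
        loc D.packetMeas x (Eb a j (s j) B T)} ≤ ε

/-- [B5] full information, fibres with at least three elements -/
def SFull3 (n : ℕ) : Prop := ∀ ε H : ℝ, 0 < ε → ∃ ε₀ : ℝ, 0 < ε₀ ∧ ∀ Ω : Set (X n), IsCompact Ω →
  ∀ ρ₁ : ℝ, 0 < ρ₁ → ∃ ρ l κ : ℝ, 0 < ρ ∧ ρ ≤ ρ₁ ∧ 0 ≤ l ∧ 0 < κ ∧ ∀ c C₀ : ℝ, 0 < c → c ≤ 1 →
    ∃ D₀ : ℕ, ∀ D : Datum n, D₀ ≤ D.disc → D.packetMeas.real Ωᶜ ≤ ε₀ →
      ∀ a ∈ RE D, (∀ j, |a j| ≤ (D.disc : ℝ) ^ (κ * c)) → LamR a c D →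
        (∀ j, 3 ≤ (Finset.univ.filter fun k => a k = a j).card) →
        Full D.packetMeas ρ a (C₀ + κ * c * Real.log D.disc) l H ε

/-- [B6] full information, fibres with two elements -/
def SFull2 (n : ℕ) : Prop := ∀ ε H : ℝ, 0 < ε → ∃ ε₀ : ℝ, 0 < ε₀ ∧ ∀ Ω : Set (X n), IsCompact Ω →
  ∀ ρ₁ : ℝ, 0 < ρ₁ → ∃ ρ l κ : ℝ, 0 < ρ ∧ ρ ≤ ρ₁ ∧ 0 ≤ l ∧ 0 < κ ∧ ∀ C₀ : ℝ,
    ∃ D₀ : ℕ, ∀ D : Datum n, D₀ ≤ D.disc → D.packetMeas.real Ωᶜ ≤ ε₀ →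
      ∀ a ∈ RE D, (∀ j, |a j| ≤ (D.disc : ℝ) ^ κ) → ∀ s τ, Two D a s τ →
        Full D.packetMeas ρ a (C₀ + κ * Real.log D.disc) l H ε

end Vale.Agent.P007X
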