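import Vale.Agent.P007M.Ari
import Vale.Agent.P007X.SpecB

/-! The partition which is defined by the short elements of an order. -/

set_option autoImplicit false

namespace Vale.Agent.P007X

open Vale.Agent.P007 Vale.Agent.P007.Fib Vale.Agent.P007M Finset

variable {n : ℕ}

/-- a decreasing chain of finite sets has a stationary step -/
theorem exists_stat {α : Type*} [Fintype α] (f : ℕ → Finset α) (h : ∀ i, f (i + 1) ⊆ f i) :
    ∃ i ≤ Fintype.card α, f (i + 1) = f i := by
  by_contra hc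
  push Not at hc
  have h0 : ∀ i ≤ Fintype.card α + 1, (f i).card + i ≤ Fintype.card α := by
    intro i hi
    induction i with
    | zero => simpa using card_le_univ _
    | succ i ih =>
      have h1 := ih (by omega)
      have h2 := card_lt_card (Finset.ssubset_iff_subset_ne.2 ⟨h i, hc i (by omega)⟩)
      omega
  have := h0 _ le_rfl
  omega

/-- a small integer combination of short elements which separates the given pairs -/
theorem exists_sep (R : Subring (Fin n → ℝ)) {t : ℝ} (ht : 0 ≤ t) (P : Finset (Fin n × Fin n))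
    (hP : ∀ q ∈ P, ∃ x ∈ R, (∀ j, |x j| ≤ t) ∧ x q.1 ≠ x q.2) :
    ∃ a ∈ R, (∀ j, |a j| ≤ (P.card : ℝ) ^ 2 * t) ∧ (∀ q ∈ P, a q.1 ≠ a q.2) ∧
      ∀ j k, (∀ x ∈ R, (∀ j, |x j| ≤ t) → x j = x k) → a j = a k := by
  induction P using Finset.induction_on with
  | empty => exact ⟨0, R.zero_mem, fun j => by simp, by simp, fun _ _ _ => rfl⟩
  | insert q P hq ih =>
    obtain ⟨a, ha, h1, h2, h3⟩ := ih fun p hp => hP p (mem_insert_of_mem hp)
    obtain ⟨x, hx, h4, h5⟩ := hP q (mem_insert_self _ _)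
    obtain ⟨v, hv, hm⟩ := exists_mem_notMem_of_card_lt_card
      (s := (insert q P).image fun p => (a p.2 - a p.1) / (x p.1 - x p.2))
      (t := (range (P.card + 2)).image (Nat.cast : ℕ → ℝ)) (by
        rw [card_image_of_injective _ Nat.cast_injective, card_range]
        have := card_image_le (s := insert q P) (f := fun p => (a p.2 - a p.1) / (x p.1 - x p.2))
        rw [card_insert_of_notMem hq] at this
        omega)
    obtain ⟨m, hm1, rfl⟩ := mem_image.1 hv
    have hm2 : (m : ℝ) ≤ P.card + 1 := by exact_mod_cast Nat.lt_succ_iff.1 (mem_range.1 hm1)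
    refine ⟨a + m * x, R.add_mem ha (R.mul_mem (natCast_mem R m) hx), fun j => ?_, fun p hp e => ?_,
      fun j k e => ?_⟩
    · rw [card_insert_of_notMem hq, Pi.add_apply, Pi.mul_apply, Pi.natCast_apply]
      refine (abs_add_le _ _).trans ?_
      rw [abs_mul, Nat.abs_cast]
      have h6 := mul_le_mul hm2 (h4 j) (abs_nonneg _) (by positivity)
      have h7 : (0 : ℝ) ≤ P.card * t := by positivity
      push_cast
      linarith [h1 j]
    · simp only [Pi.add_apply, Pi.mul_apply, Pi.natCast_apply] at e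
      by_cases e1 : x p.1 = x p.2
      · rcases mem_insert.1 hp with rfl | hp
        · exact h5 e1
        · rw [e1] at e
          exact h2 p hp (add_right_cancel e)
      · refine hm (mem_image.2 ⟨p, hp, ?_⟩)
        rw [div_eq_iff (sub_ne_zero.2 e1)]
        linarith
    · simp only [Pi.add_apply, Pi.mul_apply, Pi.natCast_apply, h3 j k e, e x hx h4]

/-- reduction modulo `ℤ[a]` of an element which is nearly constant on the fibres of `a` -/
theorem exists_red (R : Subring (Fin n → ℝ)) {a x : Fin n → ℝ} (ha : a ∈ R) (hx : x ∈ R) {A b : ℝ}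
    (hA : ∀ j, |a j| ≤ A) (h1 : 1 ≤ A) (hb : ∀ j k, a j = a k → |x j - x k| ≤ b) :
    ∃ y ∈ R, (∀ j, |y j| ≤ b + (n + 1) * A ^ n) ∧ ∀ j k, a j = a k → y j = y k → x j = x k := by
  have hr : ∀ v : ℝ, ∃ w : ℝ, ∀ j, a j = v → |x j - w| ≤ b := fun v => by
    by_cases h : ∃ k, a k = v
    · obtain ⟨k, rfl⟩ := h
      exact ⟨x k, fun j e => hb j k e⟩
    · exact ⟨0, fun j e => absurd ⟨j, e⟩ h⟩
  choose r hr using hr
  set p := Lagrange.interpolate (univ.image a) id r with hp
  have hd : p.natDegree < n + 1 := by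
    have h2 := Lagrange.degree_interpolate_lt (s := univ.image a) (v := id) r (Set.injOn_id _)
    have h3 : (univ.image a).card ≤ n := card_image_le.trans (by simp)
    exact Nat.lt_succ_iff.2 (Polynomial.natDegree_le_iff_degree_le.2
      (h2.le.trans (by exact_mod_cast h3)))
  have he : ∀ j, ∑ i ∈ range (n + 1), p.coeff i * a j ^ i = r (a j) := fun j => by
    rw [← Polynomial.eval_eq_sum_range' hd]
    exact Lagrange.eval_interpolate_at_node (v := id) r (Set.injOn_id _)
      (mem_image_of_mem a (mem_univ j))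
  have hy : ∀ j, (x - ∑ i ∈ range (n + 1), (⌊p.coeff i⌋ : Fin n → ℝ) * a ^ i) j =
      x j - ∑ i ∈ range (n + 1), (⌊p.coeff i⌋ : ℝ) * a j ^ i := fun j => by
    simp
  refine ⟨x - ∑ i ∈ range (n + 1), (⌊p.coeff i⌋ : Fin n → ℝ) * a ^ i, R.sub_mem hx
    (R.sum_mem fun i _ => R.mul_mem (intCast_mem R _) (R.pow_mem ha i)), fun j => ?_,
    fun j k e e1 => ?_⟩
  · have h2 : x j - ∑ i ∈ range (n + 1), (⌊p.coeff i⌋ : ℝ) * a j ^ i =
        x j - r (a j) + ∑ i ∈ range (n + 1), Int.fract (p.coeff i) * a j ^ i := by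
      simp only [← he j, Int.fract, sub_mul, sum_sub_distrib]
      ring
    rw [hy, h2]
    refine (abs_add_le _ _).trans (add_le_add (hr _ j rfl) ((abs_sum_le_sum_abs _ _).trans ?_))
    refine (sum_le_card_nsmul _ _ (A ^ n) fun i hi => ?_).trans_eq (by simp)
    rw [abs_mul, abs_pow, abs_of_nonneg (Int.fract_nonneg _)]
    exact (mul_le_of_le_one_left (by positivity) (Int.fract_lt_one _).le).trans
      ((pow_le_pow_left₀ (abs_nonneg _) (hA j) i).trans
        (pow_le_pow_right₀ h1 (Nat.lt_succ_iff.1 (mem_range.1 hi))))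
  · rw [hy, hy, e] at e1
    exact sub_left_injective e1

theorem emb_eq (D : Datum n) {r : D.K} {j k : Fin n} (e : D.σ k r = D.σ j r) {y : D.K}
    (hy : y ∈ IntermediateField.adjoin ℚ {r}) : D.σ k y = D.σ j y := by
  induction hy using IntermediateField.adjoin_induction with
  | mem x hx => exact hx ▸ e
  | algebraMap x => simp
  | add x y _ _ h1 h2 => rw [map_add, map_add, h1, h2]
  | inv x _ h1 => rw [map_inv₀, map_inv₀, h1]
  | mul x y _ _ h1 h2 => rw [map_mul, map_mul, h1, h2]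

theorem fib_le (D : Datum n) (r : D.K) (j : Fin n) : (univ.filter fun k => D.σ k r = D.σ j r).card ≤
    Module.finrank (IntermediateField.adjoin ℚ {r}) D.K := by
  let _ : Algebra (IntermediateField.adjoin ℚ {r}) ℝ :=
    ((D.σ j).comp (algebraMap (IntermediateField.adjoin ℚ {r}) D.K)).toAlgebra
  refine le_trans ?_ (card_algHom_le_finrank (IntermediateField.adjoin ℚ {r}) D.K ℝ)
  rw [← Fintype.card_coe, ← Nat.card_eq_fintype_card]
  refine Nat.card_le_card_of_injective
    (fun k => ⟨D.σ k.1, fun y => emb_eq D (mem_filter.1 k.2).2 y.2⟩) fun k l e => ?_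
  exact Subtype.ext (D.σ.injective (RingHom.ext fun y => DFunLike.congr_fun e y))

theorem val_le (D : Datum n) (r : D.K) : (univ.image fun k => D.σ k r).card ≤
    Module.finrank ℚ (IntermediateField.adjoin ℚ {r}) := by
  have hi : IsIntegral ℚ r := Algebra.IsIntegral.isIntegral r
  rw [IntermediateField.adjoin.finrank hi, ← Polynomial.natDegree_map (algebraMap ℚ ℝ)]
  refine Polynomial.card_le_degree_of_subset_roots fun v hv => ?_
  obtain ⟨k, -, rfl⟩ := mem_image.1 (mem_def.2 hv)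
  rw [Polynomial.mem_roots (Polynomial.map_ne_zero (minpoly.ne_zero hi)), Polynomial.IsRoot,
    Polynomial.eval_map_algebraMap]
  have h := Polynomial.aeval_algHom_apply (D.σ k).toRatAlgHom r (minpoly ℚ r)
  rw [minpoly.aeval, map_zero] at h
  exact h

/-- all fibres of an element have the same number of points -/
theorem fib_eq (D : Datum n) (r : D.K) (j : Fin n) : (univ.filter fun k => D.σ k r = D.σ j r).card =
    Module.finrank (IntermediateField.adjoin ℚ {r}) D.K := by
  refine (fib_le D r j).eq_of_not_lt fun h => ?_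
  have h1 := card_eq_sum_card_image (fun k => D.σ k r) univ
  have h2 := sum_lt_sum (s := univ.image fun k => D.σ k r)
    (f := fun v => (univ.filter fun k => D.σ k r = v).card)
    (g := fun _ => Module.finrank (IntermediateField.adjoin ℚ {r}) D.K) (fun v hv => by
      obtain ⟨k, -, rfl⟩ := mem_image.1 hv
      exact fib_le D r k) ⟨_, mem_image_of_mem _ (mem_univ j), h⟩
  rw [← h1, sum_const, smul_eq_mul, card_univ, Fintype.card_fin] at h2
  have h3 := Module.finrank_mul_finrank ℚ (IntermediateField.adjoin ℚ {r}) D.K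
  rw [D.deg] at h3
  exact absurd (h2.trans_le (Nat.mul_le_mul_right _ (val_le D r))) (by rw [h3]; exact lt_irrefl n)

theorem two_of (D : Datum n) (r : D.K)
    (h : Module.finrank (IntermediateField.adjoin ℚ {r}) D.K = 2) : ∃ s τ, Two D (sE D r) s τ := by
  have : Algebra.IsQuadraticExtension (IntermediateField.adjoin ℚ {r}) D.K :=
    { finrank_eq_two' := h }
  have hc := (IsGalois.card_aut_eq_finrank (IntermediateField.adjoin ℚ {r}) D.K).trans h
  obtain ⟨τ, hτ, -⟩ := (Nat.card_eq_two_iff' 1).1 hc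
  have h2 : τ ^ 2 = 1 := hc ▸ pow_card_eq_one'
  have he : ∀ j x, D.σ (D.σ.symm ((D.σ j).comp τ.toRingEquiv.toRingHom)) x = D.σ j (τ x) :=
    fun j x => by simp
  have hne : ∀ j, D.σ.symm ((D.σ j).comp τ.toRingEquiv.toRingHom) ≠ j := fun j e =>
    hτ (AlgEquiv.ext fun x => (D.σ j).injective (by rw [← he j x, e]; rfl))
  have hr : τ r = r := τ.commutes ⟨r, IntermediateField.mem_adjoin_simple_self ℚ r⟩
  refine ⟨fun j => D.σ.symm ((D.σ j).comp τ.toRingEquiv.toRingHom), τ.toRingEquiv, hne, he,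
    fun x => DFunLike.congr_fun h2 x, fun j k => ⟨fun e => ?_, ?_⟩⟩
  · have h3 := eq_of_subset_of_card_le (s := {j, D.σ.symm ((D.σ j).comp τ.toRingEquiv.toRingHom)})
      (t := univ.filter fun k => D.σ k r = D.σ j r) (by
        simp only [insert_subset_iff, singleton_subset_iff, mem_filter, mem_univ, he, hr, and_self])
      (by rw [fib_eq, h, card_pair (hne j).symm])
    have h4 : k ∈ univ.filter fun k => D.σ k r = D.σ j r := mem_filter.2 ⟨mem_univ _, e⟩
    rw [← h3] at h4
    simpa using h4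
  · rintro (rfl | rfl)
    · rfl
    · rw [sE_apply, sE_apply, he, hr]

theorem fib_cases (D : Datum n) {a : Fin n → ℝ} (ha : a ∈ RE D) (hi : ¬Function.Injective a) :
    (∀ j, 3 ≤ (univ.filter fun k => a k = a j).card) ∨ ∃ s τ, Two D a s τ := by
  obtain ⟨r, -, rfl⟩ := (mem_RE D).1 ha
  by_cases h : Module.finrank (IntermediateField.adjoin ℚ {(r : D.K)}) D.K = 2
  · exact .inr (two_of D r h)
  refine .inl fun j => (fib_eq D r j).ge.trans' ?_
  obtain ⟨k, l, e, hkl⟩ := Function.not_injective_iff.1 hi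
  have h1 : 1 < (univ.filter fun i => D.σ i r = D.σ l r).card :=
    one_lt_card.2 ⟨k, mem_filter.2 ⟨mem_univ _, e⟩, l, mem_filter.2 ⟨mem_univ _, rfl⟩, hkl⟩
  rw [fib_eq] at h1
  omega

open Classical in
/-- **The blocks.** -/
theorem sBlocks (n : ℕ) : SBlocks n := fun κ hκ => by
  obtain ⟨θ, hθ, h1, h2⟩ : ∃ θ : ℝ, 0 < θ ∧ θ ≤ κ / 4 ∧ θ * (4 * (n + 1) ^ 2) ≤ 1 :=
    ⟨min (κ / 4) (1 / (4 * (n + 1) ^ 2)), by positivity, min_le_left _ _,
      (le_div_iff₀ (by positivity)).1 (min_le_right _ _)⟩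
  have hn : (0 : ℝ) ≤ n := n.cast_nonneg
  have h3 : θ ≤ 1 := by nlinarith [mul_nonneg hθ.le hn, mul_nonneg hθ.le (sq_nonneg (n : ℝ))]
  obtain ⟨D₀, hD⟩ := Filter.eventually_atTop.1 (((tendsto_rpow_atTop (pow_pos hθ (n * n + 1))).comp
    tendsto_natCast_atTop_atTop).eventually_ge_atTop ((n * n : ℝ) ^ 2 + n + 2))
  refine ⟨(range (n * n + 1)).image fun i => θ ^ i / 2, D₀, fun c hc => ?_, fun D hD₀ => ?_⟩
  · obtain ⟨i, -, rfl⟩ := mem_image.1 hc
    exact ⟨by positivity, by linarith [pow_le_one₀ (n := i) hθ.le h3]⟩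
  have hΔ : (1 : ℝ) ≤ D.disc := by
    exact_mod_cast Nat.cast_pos.1 (Real.sqrt_pos.1 (N.disc_pos D))
  obtain ⟨i, hi, hs⟩ := exists_stat (fun i => univ.filter fun q : Fin n × Fin n =>
    ∃ x ∈ RE D, (∀ j, |x j| ≤ (D.disc : ℝ) ^ θ ^ i) ∧ x q.1 ≠ x q.2) fun i q hq => by
      obtain ⟨x, hx, h4, h5⟩ := (mem_filter.1 hq).2
      exact mem_filter.2 ⟨mem_univ _, x, hx, fun j => (h4 j).trans (Real.rpow_le_rpow_of_exponent_le
        hΔ (pow_le_pow_of_le_one hθ.le h3 i.le_succ)), h5⟩
  rw [Fintype.card_prod, Fintype.card_fin] at hi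
  set W := (D.disc : ℝ) ^ θ ^ (i + 1) with hW
  have hM : (n * n : ℝ) ^ 2 + n + 2 ≤ W := (hD _ hD₀).trans (Real.rpow_le_rpow_of_exponent_le hΔ
    (pow_le_pow_of_le_one hθ.le h3 (by omega)))
  have hW2 : 2 ≤ W := by nlinarith [sq_nonneg (n * n : ℝ)]
  have hP : ∀ (m : ℕ) (e : ℝ), θ * m ≤ e → W ^ m ≤ (D.disc : ℝ) ^ (e * θ ^ i) := fun m e h => by
    rw [hW, ← Real.rpow_mul_natCast (by positivity)]
    refine Real.rpow_le_rpow_of_exponent_le hΔ ?_
    rw [pow_succ, mul_assoc, mul_comm e]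
    exact mul_le_mul_of_nonneg_left h (by positivity)
  obtain ⟨a, ha, h4, h5, h6⟩ := exists_sep (RE D) (t := W) (by positivity) _
    fun q hq => (mem_filter.1 hq).2
  have h7 : ∀ j, |a j| ≤ W ^ 2 := fun j => by
    refine (h4 j).trans ?_
    rw [sq W]
    refine mul_le_mul_of_nonneg_right (le_trans (pow_le_pow_left₀ (Nat.cast_nonneg _)
      (b := (n * n : ℝ)) ?_ 2) (by linarith)) (by positivity)
    exact_mod_cast (card_le_univ _).trans_eq (by simp)
  refine ⟨θ ^ i / 2, mem_image.2 ⟨i, mem_range.2 (by omega), rfl⟩, a, ha, fun j => ?_,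
    fun x hx => ?_, fib_cases D ha fun hi => ?_⟩
  · rw [show κ * (θ ^ i / 2) = κ / 2 * θ ^ i by ring]
    exact (h7 j).trans (hP 2 _ (by push_cast; linarith))
  · refine or_iff_not_imp_right.2 fun hc j k e => ?_
    push Not at hc
    obtain ⟨y, hy, h8, h9⟩ := exists_red (RE D) ha hx h7 (by nlinarith) fun j k e => (hc j k e).le
    refine h9 j k e (by_contra fun e1 => h5 (j, k) ?_ e)
    rw [hs]
    refine mem_filter.2 ⟨mem_univ _, y, hy, fun l => (h8 l).trans ?_, e1⟩
    have h10 := hP (2 * n + 1) (1 / 2) (by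
      push_cast
      nlinarith [mul_nonneg hθ.le hn, mul_nonneg hθ.le (sq_nonneg (n : ℝ))])
    rw [show 1 / 2 * θ ^ i = θ ^ i / 2 by ring] at h10
    have h11 : (n + 1) * (W ^ 2) ^ n ≤ W ^ (2 * n + 1) := by
      rw [← pow_mul, pow_succ' W]
      exact mul_le_mul_of_nonneg_right (by nlinarith [sq_nonneg (n * n : ℝ)]) (by positivity)
    have h12 : W ≤ W ^ (2 * n + 1) := le_self_pow₀ (by linarith) (by omega)
    have h13 : (D.disc : ℝ) ^ θ ^ i = (D.disc : ℝ) ^ (θ ^ i / 2) * (D.disc : ℝ) ^ (θ ^ i / 2) := by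
      rw [← Real.rpow_add (by positivity), add_halves]
    rw [h13]
    nlinarith
  · have h8 := disc_le_pow D ha hi (b := W ^ 3) fun j k => (abs_sub _ _).trans (by
      nlinarith [h7 j, h7 k, sq_nonneg W])
    have h9 := hP (3 * (n * (n - 1)) + 1) 1 (by
      have : ((3 * (n * (n - 1)) + 1 : ℕ) : ℝ) ≤ 4 * (n + 1) ^ 2 := by
        have := Nat.mul_le_mul_left n (Nat.sub_le n 1)
        exact_mod_cast (by nlinarith : 3 * (n * (n - 1)) + 1 ≤ 4 * (n + 1) ^ 2)
      exact (mul_le_mul_of_nonneg_left this hθ.le).trans h2)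
    have h10 : (D.disc : ℝ) ^ (1 * θ ^ i) ≤ D.disc := by
      simpa using Real.rpow_le_rpow_of_exponent_le hΔ (pow_le_one₀ (n := i) hθ.le h3)
    rw [← pow_mul] at h8
    rw [pow_succ] at h9
    nlinarith [pow_pos (by linarith : 0 < W) (3 * (n * (n - 1)))]

end Vale.Agent.P007X
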