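import Vale.Agent.P007X.SpecB

/-! Close points which are stable under `diag a` differ by an element which commutes with it. -/

set_option linter.all false

open MeasureTheory Set Real Matrix
open scoped ENNReal

namespace Vale.Agent.P007X

open Vale.Agent.P007 Vale.Agent.P007.Fib Vale.Agent.P007.Koopman Vale.Agent.P007M
  Vale.Agent.P007M.Reg

variable {n : ℕ} {x : X n} {a : Fin n → ℝ} {μ : Measure (X n)}

theorem invPt_Yd {R : Subring (Fin n → ℝ)} (hx : InvPt R x) (ha : a ∈ R) : x ∈ Yd a := by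
  obtain ⟨g, rfl, h, -⟩ := hx
  choose M hM using fun i => h a ha (g.1 i) ⟨Pi.single i 1, by
    ext j; simp [vecMul, dotProduct, Pi.single_apply]⟩
  refine ⟨g, rfl, M, Matrix.ext fun i j => ?_⟩
  rw [mul_diagonal, mul_comm]
  exact (congrFun (hM i) j).symm

theorem meas_orb (x : X n) : MeasurableSet (orb x) := by
  obtain ⟨K, h, e⟩ := isSigmaCompact_range (continuous_orbMap x)
  rw [orb, ← e]
  exact .iUnion fun i => (h i).measurableSet

theorem meas_invPt (D : Datum n) : MeasurableSet {x | InvPt (RE D) x} := by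
  have e : {x | InvPt (RE D) x} = ⋃ S ∈ D.packet, S := by
    rw [packet_eq]
    ext x
    simp only [mem_iUnion₂, mem_ofPred_eq, exists_prop]
    exact ⟨fun h => ⟨_, ⟨x, h, rfl⟩, mem_orb_self x⟩, fun ⟨_, ⟨y, h, rfl⟩, u, k⟩ => k ▸ h.tr u⟩
  rw [e]
  refine D.packet_finite.measurableSet_biUnion fun S h => ?_
  obtain ⟨x, -, rfl⟩ := h
  exact meas_orb x

theorem ae_invPt (D : Datum n) : ∀ᵐ x ∂D.packetMeas, InvPt (RE D) x :=
  packetMeas_null D (meas_invPt D) fun S h => by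
    rw [packet_eq] at h
    obtain ⟨y, h, rfl⟩ := h
    rintro _ ⟨u, rfl⟩
    exact h.tr u

theorem ae_Yd (D : Datum n) (ha : a ∈ RE D) : ∀ᵐ x ∂D.packetMeas, x ∈ Yd a :=
  (ae_invPt D).mono fun _ h => invPt_Yd h ha

/-- the local measures only see the points of a set of full measure -/
theorem ae_loc {p : X n → Prop} (h : ∀ᵐ y ∂μ, p y) (x : X n) : ∀ᵐ g ∂loc μ x, p (tr g x) := by
  obtain ⟨Z, h1, h2, h3⟩ := exists_measurable_superset_of_null h
  have m : MeasurableSet {g : G n | tr g x ∈ Z} :=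
    (measurable_tr_uncurry.comp measurable_prodMk_left) h2
  refine measure_mono_null (fun g hg => h1 hg) (t := {g : G n | tr g x ∈ Z}) ?_
  rw [loc_apply m]
  refine (lintegral_congr_ae ?_).trans lintegral_zero
  filter_upwards [measure_eq_zero_iff_ae_notMem.1 h3] with y hy
  exact ENNReal.tsum_eq_zero.2 fun g => indicator_of_notMem
    (s := {g : G n | tr g x ∈ Z}) (fun k => hy (g.2 ▸ k)) _

theorem valid_zero : Valid (0 : Th n) := fun _ _ _ => by simp

/-- **commutation** -/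
theorem comm {Ω : Set (X n)} (hΩ : IsCompact Ω) : ∃ C₀ : ℝ, ∀ (a : Fin n → ℝ) (A : ℝ), 1 ≤ A →
    (∀ j, |a j| ≤ A) → ∀ (ρ : ℝ) (t : Th n), 0 < ρ → 2 * n * ρ ≤ 1 →
    (∀ p q, a p ≠ a q → C₀ + log A ≤ t p q) → 0 ≤ t → ∀ x ∈ Ω, x ∈ Yd a →
      ∀ h ∈ bx ρ t, tr h x ∈ Yd a → ∀ j k, a j ≠ a k → h.1 j k = 0 := by
  obtain ⟨L, hL, e⟩ := cpt_lift hΩ
  have c : Continuous fun g : G n => g.1 := continuous_subtype_val
  obtain ⟨B, hB⟩ := hL.bddAbove_image (f := fun g : G n => nt 0 g.1 + nt 0 (g⁻¹).1)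
    ((cont_nt.comp c).add (cont_nt.comp (c.comp continuous_inv))).continuousOn
  refine ⟨n ^ 3 * (2 * B ^ 2 * 2), fun a A h1 h2 ρ t k k1 h3 t0 x hx s h hh s' j l z => ?_⟩
  obtain ⟨g, hg, rfl⟩ := e hx
  obtain ⟨M, hM⟩ := (stab_iff _ _).1 (pt_mem_Yd.1 s)
  obtain ⟨M', hM'⟩ := (stab_iff _ _).1 (pt_mem_Yd.1 s')
  have n1 : (1 : ℝ) ≤ n := by exact_mod_cast j.pos
  have b := hB ⟨g, hg, rfl⟩
  have b1 := @nt_nonneg n 0 g.1
  have b2 := @nt_nonneg n 0 (g⁻¹).1
  set E := diagonal a * h.1 - h.1 * diagonal a with hE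
  have e1 : castM (M - M') = g.1 * (E * (h⁻¹).1) * (g⁻¹).1 := by
    rw [show castM (M - M') = castM M - castM M' from Matrix.map_sub _ Int.cast_sub _ _, hM, hM',
      _root_.mul_inv_rev, coe_mul_G, coe_mul_G, hE, sub_mul, mul_assoc (diagonal a) h.1, coe_mul_inv]
    noncomm_ring
  have e2 : ∀ p q, E p q = (a p - a q) * h.1 p q := fun p q => by
    simp only [hE, Matrix.sub_apply, diagonal_mul, mul_diagonal]; ring
  set c := exp (-(n ^ 3 * (2 * B ^ 2 * 2)) : ℝ) with hc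
  have e3 : nt 0 E ≤ c := (nt_le (exp_pos _).le).2 fun p q => by
    by_cases y : a p = a q
    · simp [e2, y, hc, (exp_pos _).le]
    have y1 := hh p q
    rw [Matrix.sub_apply, one_apply_ne fun w => y (congrArg a w), sub_zero] at y1
    have y2 := exp_le_exp.2 (neg_le_neg (h3 p q y))
    rw [neg_add, exp_add, exp_neg (log A), exp_log (by linarith), ← hc] at y2
    have y3 : |a p - a q| ≤ 2 * A := (abs_sub _ _).trans (by linarith [h2 p, h2 q])
    have y4 := mul_le_mul y3 (y1.le.trans (mul_le_mul_of_nonneg_left y2 k.le)) (abs_nonneg _)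
      (by linarith)
    rw [e2, abs_mul]
    refine y4.trans ?_
    have : 0 < c := exp_pos _
    simp only [Pi.zero_apply, neg_zero, exp_zero, mul_one]
    rw [show 2 * A * (ρ * (c * A⁻¹)) = 2 * ρ * c by field_simp]
    exact mul_le_of_le_one_left this.le (by nlinarith)
  have e4 : nt 0 (h⁻¹).1 ≤ 2 := (nt_le two_pos.le).2 fun p q => by
    have y := abs_lt.1 (inv_bx valid_zero k k1 (bx_mono k.le le_rfl t0 hh) p q)
    simp only [Pi.zero_apply, neg_zero, exp_zero, mul_one, Matrix.sub_apply, one_apply] at y ⊢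
    split_ifs at y <;> rw [abs_le] <;> constructor <;> nlinarith
  have e5 : nt 0 (castM (M - M')) < 1 := by
    have := @nt_nonneg n 0 E
    have := @nt_nonneg n 0 (h⁻¹).1
    have y : nt 0 (castM (M - M')) ≤ n * (n * B * (n * c * 2)) * B := by
      rw [e1]
      refine (nt_mul valid_zero).trans ?_
      gcongr
      · have : 0 < c := exp_pos _
        have : 0 ≤ B := by linarith
        positivity
      · refine (nt_mul valid_zero).trans ?_
        gcongr
        exacts [nt_nonneg, mul_nonneg (by linarith) (by linarith), by linarith,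
          (nt_mul valid_zero).trans (by gcongr)]
      · linarith
    have y1 := add_one_le_exp (n ^ 3 * (2 * B ^ 2 * 2) : ℝ)
    have y2 : c * exp (n ^ 3 * (2 * B ^ 2 * 2)) = 1 := by rw [hc, ← exp_add, neg_add_cancel, exp_zero]
    have : 0 < c := exp_pos _
    nlinarith [mul_nonneg (mul_nonneg this.le (pow_nonneg (Nat.cast_nonneg (α := ℝ) n) 3)) (sq_nonneg B)]
  have e6 : M - M' = 0 := Matrix.ext fun p q => Int.abs_lt_one_iff.1 (by
    have := (nt_lt one_pos).1 e5 p q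
    simp only [Pi.zero_apply, neg_zero, exp_zero, mul_one, castM, map_apply] at this
    exact_mod_cast this)
  have e7 : E = (g⁻¹).1 * castM (M - M') * g.1 * h.1 := by
    rw [e1]
    simp only [mul_assoc]
    rw [← mul_assoc (g⁻¹).1 g.1 h.1, coe_inv_mul, one_mul, coe_inv_mul, mul_one, ← mul_assoc,
      coe_inv_mul, one_mul]
  have e8 := e2 j l
  rw [e7, e6, show castM (0 : Matrix (Fin n) (Fin n) ℤ) = 0 from Matrix.map_zero _ Int.cast_zero,
    mul_zero, zero_mul, zero_mul] at e8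
  exact (mul_eq_zero.1 e8.symm).resolve_left (sub_ne_zero.2 z)

theorem sComm (n : ℕ) : SComm n := fun Ω hΩ => (comm hΩ).imp fun _ h _ a ha A h1 h2 ρ t k k1 _ h3 t0
    x hx s g hg s' => h a A h1 h2 ρ t k k1 h3 t0 x hx (invPt_Yd s ha) g hg (invPt_Yd s' ha)

/-- no information is gained in the entries where all visible elements vanish -/
theorem loc_up {ρ b : ℝ} {t : Th n} {j k : Fin n} (h0 : 0 < ρ) (e : j ≠ k) (hb : t j k ≤ b)
    (h : ∀ᵐ g ∂loc μ x, g ∈ bx ρ t → g.1 j k = 0) :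
    loc μ x (bx ρ (up t j k b)) = loc μ x (bx ρ t) :=
  (measure_mono (bx_mono h0.le le_rfl (le_up hb))).antisymm (measure_mono_ae (h.mono
    fun g hg y p q => by
      by_cases z : p = j ∧ q = k
      · rw [z.1, z.2, Matrix.sub_apply, hg y, one_apply_ne e, sub_zero, abs_zero]
        positivity
      · rw [up_ne z]
        exact y p q))

/-- **NULL** for the information of measures which live on the points stable under `diag a` -/
theorem null_fi {Ω : Set (X n)} (hΩ : IsCompact Ω) : ∃ C₀ : ℝ, ∀ (μ : Measure (X n))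
    [IsProbabilityMeasure μ] (a : Fin n → ℝ) (A : ℝ), (∀ᵐ x ∂μ, x ∈ Yd a) → 1 ≤ A →
    (∀ j, |a j| ≤ A) → ∀ (ρ b c : ℝ) (t : Th n) (j k : Fin n), 0 < ρ → 2 * n * ρ ≤ 1 → 0 < c →
    (∀ p q, a p ≠ a q → C₀ + log A ≤ t p q) → 0 ≤ t → a j ≠ a k → t j k ≤ b →
    μ.real {x | c ≤ J (fi μ ρ) t j k b x} ≤ μ.real Ωᶜ := by
  obtain ⟨C, h⟩ := comm hΩ
  refine ⟨C, fun μ _ a A s h1 h2 ρ b c t j k h0 k1 c0 h3 t0 z hb =>
    ENNReal.toReal_mono (measure_ne_top _ _) (measure_mono_ae (s.mono fun x hx y w => ?_))⟩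
  have e := loc_up h0 (fun u => z (congrArg a u)) hb ((ae_loc s x).mono fun g s' hg =>
    h a A h1 h2 ρ t h0 k1 h3 t0 x w hx g hg s' j k z)
  have y' : c ≤ fi μ ρ _ x - fi μ ρ t x := y
  rw [fi, fi, e, sub_self] at y'
  exact y'.not_gt c0

end Vale.Agent.P007X
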