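import Vale.Agent.P007X.Comm
import Vale.Agent.P007M.Core2
import Vale.Agent.P007M.Gain
import Vale.Agent.P007M.Equi

/-! Full information for fibres with two elements. -/

set_option linter.all false

open MeasureTheory Set Real Filter
open scoped ENNReal

namespace Vale.Agent.P007X

open Vale.Agent.P007 Vale.Agent.P007.Fib Vale.Agent.P007M Vale.Agent.P007M.Reg

variable {n : ℕ}

theorem mem_Eb {a : Fin n → ℝ} {j k : Fin n} {ρ T : ℝ} {t : Th n} {h : G n} (v : Valid t)
    (t0 : 0 ≤ t) (e : j ≠ k) (hT : T ≤ t j k) (h0 : 0 < ρ) (h1 : 2 * n * ρ ≤ 1) (h2 : 4 * ρ ≤ 1)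
    (hh : h ∈ bx ρ t) (z : ∀ p q, a p ≠ a q → h.1 p q = 0) : h ∈ Eb a j k 2 T := by
  have a1 := bx_mono h0.le le_rfl t0 hh
  have a2 := inv_bx valid_zero h0 h1 a1
  have a3 := inv_bx v h0 h1 hh j k
  simp only [bx, mem_ofPred_eq, Pi.zero_apply, neg_zero, exp_zero, mul_one, Matrix.sub_apply,
    Matrix.one_apply, if_neg e, sub_zero] at a1 a2 a3
  refine ⟨fun p q => ⟨?_, ?_, z p q⟩, a3.le.trans (mul_le_mul (by linarith)
    (exp_le_exp.2 (by linarith)) (exp_pos _).le two_pos.le), fun p q y => ?_⟩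
  · have := abs_lt.1 (a1 p q)
    split_ifs at this <;> rw [abs_le] <;> constructor <;> linarith
  · have := abs_lt.1 (a2 p q)
    split_ifs at this <;> rw [abs_le] <;> constructor <;> linarith
  · have b1 := a1 p q
    have b2 := a2 q p
    rw [if_neg y, sub_zero] at b1
    rw [if_neg y.symm, sub_zero] at b2
    rw [abs_mul]
    nlinarith [abs_nonneg (h.1 p q), abs_nonneg ((h⁻¹).1 q p)]

theorem sFull2 (lin : SLinG n) : SFull2 n := fun ε H hε => by
  obtain ⟨η, e0, d, d0, core⟩ := C2.core2 n (2 * 84 ^ (n * n)) H hε (by positivity)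
  obtain ⟨N₀, lin⟩ := lin
  refine ⟨η / 3, by positivity, fun Ω hΩ ρ₁ h1 => ?_⟩
  set ρ : ℝ := min ρ₁ (1 / (14 * (n + 1))) with hρ
  have ρ0 : 0 < ρ := lt_min h1 (by positivity)
  have ρ1 : 14 * (n + 1) * ρ ≤ 1 := by
    have := min_le_right ρ₁ (1 / (14 * ((n : ℝ) + 1)))
    rwa [← hρ, le_div_iff₀ (by positivity), mul_comm] at this
  have n0 : 0 ≤ (n : ℝ) * ρ := by positivity
  have ρ2 : 2 * n * ρ ≤ 1 := by linarith
  have ρ3 : 14 * n * ρ ≤ 1 := by linarith
  have ρ4 : 4 * ρ ≤ 1 := by linarith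
  set κ : ℝ := min 1 (η / (32 * (N₀ + 2 * n ^ 2 + 1))) with hκ
  have κ0 : 0 < κ := lt_min one_pos (by positivity)
  have κ1 : 32 * (N₀ + 2 * n ^ 2 + 1) * κ ≤ η := by
    have := min_le_right 1 (η / (32 * ((N₀ : ℝ) + 2 * n ^ 2 + 1)))
    rwa [← hκ, le_div_iff₀ (by positivity), mul_comm] at this
  refine ⟨ρ, d, κ, ρ0, min_le_left _ _, d0.le, κ0, fun C₀ => ?_⟩
  obtain ⟨C₁, cm⟩ := comm hΩ
  obtain ⟨C₂, nl⟩ := null_fi hΩ
  obtain ⟨M, bl⟩ := base_le hΩ ρ0 ρ2 (by positivity : 0 < η / 3)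
  obtain ⟨D₁, lin⟩ := lin Ω (η / 32) 2 hΩ (by positivity) one_le_two
  set c := |C₀| + |C₁| + |C₂| + d with hc
  obtain ⟨D₂, hD⟩ := eventually_atTop.1 ((tendsto_log_atTop.comp tendsto_natCast_atTop_atTop).eventually
    ((eventually_ge_atTop (8 * d)).and (eventually_ge_atTop (16 * (2 * n ^ 2 * c + |M|) / η))))
  refine ⟨max D₁ (max D₂ 1), fun D hD' hΩ' a ha hA s τ two j k jk ak => ?_⟩
  have := packetMeas_prob D
  obtain ⟨L1, L2⟩ := hD D.disc ((le_max_left _ _).trans ((le_max_right _ _).trans hD'))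
  have D1 : (1 : ℝ) ≤ D.disc := by exact_mod_cast (le_max_right _ _).trans ((le_max_right _ _).trans hD')
  simp only [Function.comp] at L1 L2
  set L := log (D.disc : ℝ) with hL
  have A1 : 1 ≤ (D.disc : ℝ) ^ κ := one_le_rpow D1 κ0.le
  have A2 : log ((D.disc : ℝ) ^ κ) = κ * L := log_rpow (by linarith) _
  have ks : k = s j := ((two.fib j k).1 ak.symm).resolve_left jk.symm
  set r := c + κ * L with hr
  have c0 := abs_nonneg C₀
  have c1 := abs_nonneg C₁
  have c2 := abs_nonneg C₂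
  have kL : 0 ≤ κ * L := mul_nonneg κ0.le (by linarith)
  have dr : d ≤ r := by linarith
  set N := ⌊L / 4 / d⌋₊ with hN
  have N1 : N * d ≤ L / 4 := (le_div_iff₀ d0).1 (Nat.floor_le (by positivity))
  have N2 : L / 8 ≤ N * d := by
    have := (div_lt_iff₀ d0).1 (Nat.lt_floor_add_one (L / 4 / d))
    linarith
  have N0 : 0 ≤ N * d := by positivity
  have Y := ae_Yd D ha
  have b0 : ∀ p q, 0 ≤ (base d (2 * r) : Th n) p q ∧ (base d (2 * r) : Th n) p q ≤ 2 * r :=
    fun p q => by unfold base; split_ifs <;> constructor <;> linarith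
  have b1 : ∀ p q, a p ≠ a q → (base d (2 * r) : Th n) p q = 2 * r := fun p q z =>
    if_neg fun w => z (congrArg a w)
  have key := core (X n) D.packetMeas (fi D.packetMeas ρ) (fun u => tr (R.da u)) d r N j k le_rfl dr
    (Nat.pos_of_ne_zero fun z => by rw [z] at N2; simp at N2; linarith) jk
    (info_fi ρ0 ρ3 d) (tail_row ρ0 ρ3 d) (meas_fi ρ)
    (act_fi (ainv_packet D) ρ d) ?_ fun l l1 l2 => ?_
  · have v : ∀ {b}, 0 ≤ b → b ≤ 2 * r → Valid (bs d j k b r) := fun u u' =>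
      (val_bs jk d0.le dr u u').valid
    refine ⟨bs d j k 0 r, v le_rfl (by linarith), by rw [up_bs]; exact v d0.le (by linarith),
      fun p q => ?_, bs_self, fun p q u u' => by rw [bs_ne u u']; linarith [le_abs_self C₀],
      I_eq (f := fi D.packetMeas ρ) d ▸ key⟩
    by_cases u : p = q
    · rw [u, bs_diag jk]; exact d0.le
    · rcases bs_ge (d := d) (j := j) (k := k) (a := 0) (r := r) u with w | ⟨-, -, w⟩ <;> rw [w]
      exacts [d0.le.trans dr, le_rfl]
  · have vb := val_base (n := n) d0.le (by linarith : d ≤ 2 * r)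
    have vt := (val_base_crs d0.le (by linarith : d ≤ 2 * r) {j} N0).valid
    have t0 : (0 : Th n) ≤ base d (2 * r) + crs {j} (N * d) := fun p q =>
      add_nonneg (b0 p q).1 (crs_nonneg _ N0 p q)
    have k1 := bl D.packetMeas _ _ vb.valid b0
    have k2 := lin D ((le_max_left _ _).trans hD') a ha s τ two _ A1 hA
      ((rpow_le_rpow_of_exponent_le D1 (min_le_left _ _)).trans_eq (rpow_one _)) j (N * d) N0 N1
    refine le_trans (le_trans (ENNReal.toReal_mono (measure_ne_top _ _) (measure_mono_ae ?_))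
      ((measureReal_union_le _ _).trans (add_le_add (measureReal_union_le _ _) le_rfl)))
      ((add_le_add (add_le_add hΩ' k1) k2).trans (by linarith))
    filter_upwards [Y, ae_pos D.packetMeas] with x y1 y2 y3
    by_contra y0
    have xΩ : x ∈ Ω := not_not.1 fun u => y0 (.inl (.inl u))
    have y4 := not_lt.1 fun u => y0 (.inl (.inr ⟨xΩ, u⟩))
    have y5 := not_lt.1 fun u => y0 (.inr ⟨xΩ, u⟩)
    have y6 := (y2.eq ρ0 _).symm.trans_le <| (measure_mono_ae ((ae_loc Y x).mono fun g s' hg => mem_Eb (a := a) vt t0 (two.ne j).symm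
      (T := N * d) (by simp [crs, two.ne j, (b0 j (s j)).1]) ρ0 ρ2 ρ4 hg
        (cm a _ A1 hA ρ _ ρ0 ρ2 (fun p q z => ?_) t0 x xΩ y1 g hg s'))).trans y5
    · rw [ENNReal.ofReal_le_ofReal_iff (by positivity), ← rpow_natCast, ← rpow_mul (by linarith),
        ← rpow_add (by linarith), rpow_def_of_pos (by linarith), ← exp_add, exp_le_exp, ← hL] at y6
      have y7 : fi D.packetMeas ρ _ x ≤ _ := y4
      have y8 : fi D.packetMeas ρ _ x - fi D.packetMeas ρ _ x < _ := y3
      rw [div_le_iff₀ e0] at L2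
      have := mul_le_mul_of_nonneg_left κ1 (by linarith : 0 ≤ L)
      have := mul_le_mul_of_nonneg_left N2 e0.le
      rw [hr] at y7
      linarith [le_abs_self M]
    · have := crs_nonneg {j} N0 p q
      rw [Pi.add_apply, Pi.add_apply, b1 p q z, A2]
      linarith [le_abs_self C₁]
  · have z : a j ≠ a l := fun w => ((two.fib j l).1 w.symm).elim l1 fun u => l2 (u.trans ks.symm)
    refine (nl D.packetMeas a _ Y A1 hA ρ _ 1 _ j l ρ0 ρ2 one_pos (fun p q z => ?_)
      (fun p q => (b0 p q).1) z (by rw [b1 j l z]; linarith)).trans (hΩ'.trans (by linarith))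
    rw [b1 p q z, A2]
    linarith [le_abs_self C₂]

end Vale.Agent.P007X
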