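import Vale.Agent.P007X.SpecB
import Vale.Agent.P007M.Gain
import Vale.Agent.P007M.CoreA
import Vale.Agent.P007M.Heis
import Vale.Agent.P007M.CntM
import Vale.Agent.P007M.Equi

/-! Full information in the fibres with at least three elements. -/

open MeasureTheory Filter Topology Set Real
open scoped ENNReal Pointwise

namespace Vale.Agent.P007X

open Vale.Agent.P007 Vale.Agent.P007.Fib Vale.Agent.P007.Koopman Vale.Agent.P007M
  Vale.Agent.P007M.Reg

namespace Full3

variable {n : ℕ}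

theorem meas_orb (x : X n) : MeasurableSet (orb x) := by
  have h : orb x = ⋃ m : ℕ, (fun u => tr (aexp u) x) '' Metric.closedBall 0 m := by
    rw [← image_iUnion, Metric.iUnion_closedBall_nat, image_univ]
    rfl
  rw [h]
  exact .iUnion fun m => ((isCompact_closedBall _ _).image (continuous_orbMap x)).measurableSet

theorem exists_supp (D : Datum n) : ∃ Z : Set (X n), MeasurableSet Z ∧ D.packetMeas Zᶜ = 0 ∧
    ∀ x ∈ Z, InvPt (RE D) x := by
  have m : MeasurableSet (⋃ S ∈ D.packet, S) := D.packet_finite.measurableSet_biUnion fun S hS => by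
    obtain ⟨x, -, rfl⟩ := hS
    exact meas_orb x
  refine ⟨_, m, packetMeas_null D m fun S hS => subset_biUnion_of_mem (u := fun S => S) hS, ?_⟩
  intro x hx
  obtain ⟨_, ⟨y, hy, rfl⟩, u, rfl⟩ := mem_iUnion₂.1 hx
  exact (isPacketPt_invPt D hy).tr u

theorem loc_ae {μ : Measure (X n)} {Z : Set (X n)} (hZ : MeasurableSet Z) (h0 : μ Zᶜ = 0)
    (x : X n) : ∀ᵐ h ∂loc μ x, tr h x ∈ Z := by
  have m : MeasurableSet {h : G n | ¬tr h x ∈ Z} :=
    (measurable_tr_uncurry.comp measurable_prodMk_left) hZ.compl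
  rw [ae_iff, loc_apply m]
  refine (lintegral_congr_ae ?_).trans lintegral_zero
  filter_upwards [h0] with y hy
  exact ENNReal.tsum_eq_zero.2 fun h => indicator_of_notMem
    (s := {h : G n | ¬tr h x ∈ Z}) (fun k => k (by rw [h.2]; exact hy)) _

theorem base_nonneg {d r : ℝ} (d0 : 0 ≤ d) (dr : d ≤ r) (j k : Fin n) :
    0 ≤ (base d r : Th n) j k ∧ (base d r : Th n) j k ≤ r := by
  unfold base
  split_ifs <;> constructor <;> linarith

theorem bx_bound {ρ d r τ : ℝ} {S : Finset (Fin n)} (hρ : 0 < ρ) (hρ1 : 2 * n * ρ ≤ 1)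
    (hρ2 : 2 * ρ ≤ 1) (d0 : 0 ≤ d) (dr : d ≤ r) (τ0 : 0 ≤ τ) {h : G n}
    (hh : h ∈ bx ρ (base d r + crs S τ)) (j k : Fin n) :
    |h.1 j k| ≤ 2 ∧ |(h⁻¹).1 j k| ≤ 2 * exp (-crs S τ j k) := by
  have vt := valid_of_val (val_base_crs d0 dr S τ0)
  have hb := base_nonneg (n := n) d0 dr
  have t0 : (0 : Th n) ≤ base d r + crs S τ := fun j k =>
    add_nonneg (hb j k).1 (crs_nonneg S τ0 j k)
  have a1 := bx_mono hρ.le le_rfl t0 hh j k
  have a2 := inv_bx vt hρ hρ1 hh j k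
  simp only [Pi.zero_apply, neg_zero, exp_zero, mul_one, Matrix.sub_apply, Matrix.one_apply,
    Pi.add_apply] at a1 a2
  have a3 : exp (-((base d r : Th n) j k + crs S τ j k)) ≤ exp (-crs S τ j k) :=
    exp_le_exp.2 (by linarith [(hb j k).1])
  have a4 := abs_lt.1 a1
  refine ⟨abs_le.2 ?_, ?_⟩
  · split_ifs at a4 <;> constructor <;> linarith
  by_cases e : j = k
  · have a5 : crs S τ j k = 0 := by simp [crs, e]
    rw [a5] at a3 a2 ⊢
    rw [if_pos e] at a2
    simp only [neg_zero, exp_zero, mul_one] at a3 ⊢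
    have a6 := abs_lt.1 a2
    refine abs_le.2 ⟨?_, ?_⟩ <;> nlinarith
  · rw [if_neg e, sub_zero] at a2
    have := exp_pos (-crs S τ j k)
    nlinarith

/-- the gain of information from a bound at almost all points -/
theorem gain_ae {Ω : Set (X n)} (hΩ : IsCompact Ω) {ρ η c₀ : ℝ} (hρ : 0 < ρ)
    (hρ1 : 2 * n * ρ ≤ 1) (hη : 0 < η) (hc : 0 < c₀) :
    ∃ r₀ : ℝ, ∀ (μ : Measure (X n)) [IsProbabilityMeasure μ] (d r τ : ℝ) (S : Finset (Fin n)),
      μ.real Ωᶜ ≤ η / 2 → 0 ≤ d → d ≤ r → r₀ ≤ r → (4 * n ^ 2 / c₀ + 1) * r ≤ τ →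
      (∀ᵐ x ∂μ, x ∈ Ω → μ.real ((tr · x) '' bx ρ (base d r + crs S τ)) ≤ exp (-(c₀ * τ))) →
      μ.real {x | fi μ ρ (base d r + crs S τ) x - fi μ ρ (base d r) x < c₀ / 2 * τ} ≤ η := by
  obtain ⟨M, hM⟩ := base_le hΩ hρ hρ1 (half_pos hη)
  obtain ⟨K, hK, hK'⟩ := cpt_bx ρ (0 : Th n)
  obtain ⟨N, hN⟩ := loc_le_mul hΩ hK
  refine ⟨4 * (|M| + N) / c₀, fun μ _ d r τ S hΩ' d0 dr hr e2 hE => ?_⟩
  have r0 : 0 ≤ r := by linarith
  have hrτ : r ≤ τ := by
    have : 0 ≤ 4 * n ^ 2 / c₀ * r := by positivity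
    nlinarith
  have τ0 : 0 ≤ τ := r0.trans hrτ
  have hn : n ^ 2 * r ≤ c₀ * τ / 4 := by
    have : 4 * n ^ 2 / c₀ * r ≤ τ := by nlinarith
    rw [div_mul_eq_mul_div, div_le_iff₀ hc] at this
    nlinarith
  have hm : |M| + N ≤ c₀ * τ / 4 := by
    have : 4 * (|M| + N) / c₀ ≤ τ := by linarith
    rw [div_le_iff₀ hc] at this
    nlinarith
  have hb := base_nonneg (n := n) d0 dr
  have h1 := hM μ (base d r) r (valid_of_val (val_base d0 dr)) hb
  refine le_trans (le_trans (ENNReal.toReal_mono (measure_ne_top _ _) (measure_mono_ae ?_))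
    (measureReal_union_le _ _)) ((add_le_add hΩ' h1).trans_eq (add_halves η))
  filter_upwards [loc_pos μ, hE] with x hx h3 hx'
  by_cases xΩ : x ∈ Ω
  swap
  · exact .inl xΩ
  refine .inr ⟨xΩ, ?_⟩
  have h2 : fi μ ρ (base d r + crs S τ) x - fi μ ρ (base d r) x < c₀ / 2 * τ := hx'
  unfold fi at h2
  have t0 : (0 : Th n) ≤ base d r + crs S τ := fun j k =>
    add_nonneg (hb j k).1 (crs_nonneg S τ0 j k)
  have h4 := hN μ x xΩ _ ((bx_mono hρ.le le_rfl t0).trans hK') meas_bx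
  have h5 : (loc μ x (bx ρ (base d r + crs S τ))).toReal ≤ N * exp (-(c₀ * τ)) := by
    refine (ENNReal.toReal_mono (ENNReal.mul_ne_top (ENNReal.natCast_ne_top N)
      (measure_ne_top _ _)) h4).trans ?_
    rw [ENNReal.toReal_mul, ENNReal.toReal_natCast]
    exact mul_le_mul_of_nonneg_left (h3 xΩ) (Nat.cast_nonneg _)
  have h6 : 0 < (loc μ x (bx ρ (base d r + crs S τ))).toReal :=
    ENNReal.toReal_pos (hx _ (bx_nhds hρ)).ne' (loc_ne_top μ x ρ _)
  have h7 : (N : ℝ) * exp (-(c₀ * τ)) ≤ exp (N + -(c₀ * τ)) := by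
    rw [exp_add]
    have := add_one_le_exp (N : ℝ)
    gcongr
    linarith
  have h8 := (log_le_iff_le_exp h6).2 (h5.trans h7)
  linarith [le_abs_self M]

end Full3

open Full3

/-- **Full information in large fibres.** -/
theorem sFull3 {n : ℕ} (hC : SComm n) : SFull3 n := by
  classical
  intro ε H hε
  by_cases hn : 3 ≤ n
  swap
  · refine ⟨1, one_pos, fun Ω _ ρ₁ h => ⟨ρ₁, 0, 1, h, le_rfl, le_rfl, one_pos,
      fun c C₀ _ _ => ⟨0, fun D _ _ a _ _ _ h3 j => ?_⟩⟩⟩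
    exact absurd ((h3 j).trans ((Finset.card_le_univ _).trans_eq (Fintype.card_fin n))) hn
  have n3 : (3 : ℝ) ≤ n := by exact_mod_cast hn
  obtain ⟨CH, -, hheis⟩ := heis n
  set c₀ : ℝ := 1 / (40 * n ^ 2) with hc₀
  have c0 : 0 < c₀ := by positivity
  obtain ⟨η, η0, hcore⟩ := coreB n (c₀ := c₀ / 2) (K := 4 * n ^ 2 / c₀ + 1) (ε := ε)
    (C := 2 * 84 ^ (n * n)) (CH := CH) H (by positivity) (le_add_of_nonneg_left (by positivity)) hε
    (by positivity)
  refine ⟨η / 2, by positivity, fun Ω hΩ ρ₁ hρ₁ => ?_⟩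
  set ρ : ℝ := min ρ₁ (1 / (256 * n)) with hρ
  have ρ0 : 0 < ρ := lt_min hρ₁ (by positivity)
  have ρ1 : 256 * n * ρ ≤ 1 := by
    have := min_le_right ρ₁ (1 / (256 * (n : ℝ)))
    rwa [← hρ, le_div_iff₀ (by positivity), mul_comm] at this
  have nρ : 0 ≤ (n : ℝ) * ρ := by positivity
  obtain ⟨d, Λ, d0, Λ1, hcore⟩ := hcore (log (32 / ρ))
  have Λ0 : 0 < Λ := by linarith
  obtain ⟨r₀, hgain⟩ := gain_ae hΩ ρ0 (by linarith) η0 c0
  obtain ⟨C₁, hC⟩ := hC Ω hΩ
  refine ⟨ρ, d, 1 / (2 * Λ), ρ0, min_le_left _ _, d0.le, by positivity, fun c C₀ c1 c2 => ?_⟩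
  set κ : ℝ := 1 / (2 * Λ) * c with hκ
  have κ0 : 0 < κ := by positivity
  obtain ⟨D₁, hent⟩ := entR hn (cntM (by omega)) (ε := 2 * κ) (B := 2) c1 (by positivity) one_le_two
  have hlog : Tendsto (fun m : ℕ => κ * log (m : ℝ)) atTop atTop :=
    (tendsto_log_atTop.comp tendsto_natCast_atTop_atTop).const_mul_atTop κ0
  obtain ⟨D₂, hD₂⟩ := eventually_atTop.1
    (hlog.eventually_ge_atTop (max (max C₀ C₁) (max d r₀)))
  refine ⟨max (max D₁ D₂) 1, fun D hD hΩ' a ha hA hL h3 j k hjk e => ?_⟩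
  have := packetMeas_prob D
  have D1 : (1 : ℝ) ≤ D.disc := by exact_mod_cast (le_max_right _ _).trans hD
  have b0 := hD₂ D.disc (((le_max_right _ _).trans (le_max_left _ _)).trans hD)
  simp only [max_le_iff] at b0
  obtain ⟨⟨b1, b2⟩, b3, b4⟩ := b0
  set L : ℝ := κ * log D.disc with hL'
  have lA : log ((D.disc : ℝ) ^ κ) = L := log_rpow (by linarith) _
  have hC' := hC D a ha _ (one_le_rpow D1 κ0.le) hA ρ
  rw [lA] at hC'
  obtain ⟨Z, Zm, Z0, Zi⟩ := exists_supp D
  have ΛL : Λ * (2 * L) = c * log D.disc := by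
    rw [hL', hκ]; field_simp
  have off : ∀ {r : ℝ} (t : Th n), 2 * L ≤ r → base d r ≤ t → ∀ p q, a p ≠ a q → C₁ + L ≤ t p q :=
    fun {r} t hr ht p q hpq => by
      have := ht p q
      rw [base, if_neg fun e => hpq (by rw [e])] at this
      linarith
  have hc := hcore (Finset.univ.filter fun k => a k = a j) (h3 j) (X n) D.packetMeas
    (fi D.packetMeas ρ) (fun u => tr (R.da u)) (info_fi ρ0 (by linarith) d)
    (tail_row ρ0 (by linarith) d) (meas_fi ρ) (act_fi (ainv_packet D) ρ d) tr_da_add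
    (hheis _ (ainv_packet D) ρ d ρ0 ρ1) (2 * L) (by linarith) ?_ ?_
  · obtain ⟨r, r1, -, h2⟩ := hc
    have dr : d ≤ r := by linarith
    refine ⟨bs d j k 0 r, (val_bs hjk d0.le dr le_rfl (by linarith)).valid, ?_, fun p q => ?_,
      bs_self, fun p q h h' => ?_, ?_⟩
    · rw [up_bs]
      exact (val_bs hjk d0.le dr d0.le (by linarith)).valid
    · by_cases h : p = q
      · rw [h, bs_diag hjk]; exact d0.le
      · rcases bs_ge (d := d) (j := j) (k := k) (a := 0) (r := r) h with h' | ⟨-, -, h'⟩ <;>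
          rw [h'] <;> simp only [Pi.zero_apply] <;> linarith
    · rw [bs_ne h h']; linarith
    · rw [← I_eq]
      exact h2 j (by simp) k (by simp [e]) hjk
  · intro S s1 s2 r τ e1 e2 e3
    have dr : d ≤ r := by linarith
    have rτ : r ≤ τ := by
      have r0 : 0 ≤ r := by linarith
      have : 0 ≤ 4 * n ^ 2 / c₀ * r := by positivity
      nlinarith
    have τ0 : 0 ≤ τ := by linarith
    refine hgain _ d r τ S hΩ' d0.le dr (by linarith) e2 ?_
    filter_upwards [Z0] with x hx xΩ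
    obtain ⟨g, rfl⟩ := pt_surjective x
    have le : (base d r : Th n) ≤ base d r + crs S τ := fun p q =>
      le_add_of_nonneg_right (crs_nonneg S τ0 p q)
    refine hent D (((le_max_left _ _).trans (le_max_left _ _)).trans hD) a hL S s1 (fun p hp => ?_)
      τ (by linarith) (by linarith) g
      {h | h ∈ bx ρ (base d r + crs S τ) ∧ ∀ p q, a p ≠ a q → h.1 p q = 0} _
      (open_tr _ _ open_bx).measurableSet ?_ fun h hh p q => ?_
    · obtain ⟨q, q1, q2⟩ := Finset.exists_of_ssubset s2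
      exact ⟨q, q2, (Finset.mem_filter.1 q1).2.trans (Finset.mem_filter.1 (s2.subset hp)).2.symm⟩
    · rintro _ ⟨h, hh, rfl⟩ hy
      exact ⟨h, ⟨hh, hC' _ ρ0 (by linarith) (val_base_crs d0.le dr S τ0).valid (off _ e1 le)
        (fun p q => (base_nonneg d0.le dr p q).1.trans (le p q)) _ xΩ (Zi _ hx) h hh hy⟩, rfl⟩
    · have := bx_bound ρ0 (by linarith) (by nlinarith) d0.le dr τ0 hh.1 p q
      exact ⟨this.1, this.2, hh.2 p q⟩
  · intro p hp q hq r l e1 l0 _ _
    have dr : d ≤ r := by linarith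
    have pq : a p ≠ a q := fun h => hq (Finset.mem_filter.2
      ⟨Finset.mem_univ _, h.symm.trans (Finset.mem_filter.1 hp).2⟩)
    refine le_trans (ENNReal.toReal_mono (measure_ne_top _ _) (measure_mono_ae ?_))
      (hΩ'.trans (by linarith))
    filter_upwards [Z0] with x hx hx' xΩ
    have h1 : loc D.packetMeas x (bx ρ (up (base d r) p q (r + l))) =
        loc D.packetMeas x (bx ρ (base d r)) := by
      refine le_antisymm (measure_mono (bx_mono ρ0.le le_rfl
        (le_up (by linarith [(base_nonneg (n := n) d0.le dr p q).2])))) (measure_mono_ae ?_)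
      filter_upwards [loc_ae Zm Z0 x] with h hz hh p' q'
      by_cases e' : p' = p ∧ q' = q
      · have pq' : p ≠ q := fun h => pq (by rw [h])
        rw [e'.1, e'.2, HGeo.off pq', hC' _ ρ0 (by linarith) (val_base d0.le dr).valid
          (off _ e1 le_rfl) (fun p q => (base_nonneg d0.le dr p q).1) _ xΩ (Zi _ hx) h hh
          (Zi _ hz) p q pq, abs_zero]
        positivity
      · rw [up_ne e']
        exact hh p' q'
    have h2 : 1 ≤ J (fi D.packetMeas ρ) (base d r) p q (r + l) x := hx'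
    rw [J, fi, fi, h1, sub_self] at h2
    linarith

end Vale.Agent.P007X
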