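import Vale.Agent.P007X.House
import Vale.Agent.P007X.Blocks
import Vale.Agent.P007X.Comm
import Vale.Agent.P007X.Full2
import Vale.Agent.P007X.Full3

/-! Wiring of the two characterisations. -/

open MeasureTheory Filter Topology NumberField

namespace Vale.Agent.P007X

open Vale.Agent.P007.F

variable {n : ℕ} {K : ℕ → Type} [∀ i, Field (K i)] [∀ i, NumberField (K i)]
  {O : ∀ i, Subring (𝓞 (K i))} {σ : ∀ i, Fin n ≃ (K i →+* ℝ)} {μ : ℕ → Measure (X n)}
  {m : Measure (X n)}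

theorem all_of (hn : 3 ≤ n) (hT : STube n) (hL : SLinG n)
    (h : ∀ i, PacketMeas (K i) (O i) (σ i) (μ i)) (hm : IsInvProb m) :
    (WeakTo μ m ↔
      ∀ B : ℝ, ∀ᶠ i in atTop, ∀ a ∈ O i, (∀ j, |σ i j a| ≤ B) → ∃ z : ℤ, a = z) ∧
    (WeakTo μ m ↔ Tendsto (fun i => disc (K i) (O i)) atTop atTop ∧
      ∀ f : Polynomial ℤ, f.Monic → Irreducible f → 1 < f.natDegree → f.natDegree < n →
        ∀ᶠ i in atTop, ∀ a ∈ O i, Polynomial.aeval a f ≠ 0) :=
  ⟨fin_house hn (sBlocks n) hT (sFull3 (sComm n)) (sFull2 hL) h hm,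
    fun hW => ⟨(necessary (by omega) h hm hW).1,
      (fin_iff hn (sBlocks n) hT (sFull3 (sComm n)) (sFull2 hL) h
        (necessary (by omega) h hm hW).1 hm).1 hW⟩,
    fun hf => (fin_iff hn (sBlocks n) hT (sFull3 (sComm n)) (sFull2 hL) h hf.1 hm).2 hf.2⟩

end Vale.Agent.P007X
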