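import Vale.Agent.P007X.SpecA

/-! The fixed field of the involution. -/

open NumberField

namespace Vale.Agent.P007X

variable {n : ℕ} {K : Type} [Field K] [NumberField K] {σ : Fin n ≃ (K →+* ℝ)}
  {s : Fin n → Fin n} {τ : K ≃+* K} {a θ : K}

/-- the fixed field of `τ` -/
def Fx (τ : K ≃+* K) : IntermediateField ℚ K :=
  (RingHom.eqLocusField τ.toRingHom (RingHom.id K)).toIntermediateField fun q => by
    change τ (algebraMap ℚ K q) = algebraMap ℚ K q
    simp

theorem mem_Fx {x : K} : x ∈ Fx τ ↔ τ x = x := Iff.rfl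

theorem Fx_fix (x : Fx τ) : τ x = x := x.2

theorem ofReal_inj (E : Type) [Field E] :
    Function.Injective fun ψ : E →+* ℝ => Complex.ofRealHom.comp ψ := by
  intro a b hab
  ext x
  simpa using congrArg (fun f : E →+* ℂ => f x) hab

theorem ofReal_surj (E : Type) [Field E] [IsTotallyReal E] :
    Function.Surjective fun ψ : E →+* ℝ => Complex.ofRealHom.comp ψ := fun φ =>
  ⟨(IsTotallyReal.complexEmbedding_isReal φ).embedding, by ext x; simp⟩

theorem real_of_ord (σ : Fin n ≃ (K →+* ℝ)) (hn : Module.finrank ℚ K = n) :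
    IsTotallyReal K := by
  classical
  have h1 : Function.Bijective fun j : Fin n => Complex.ofRealHom.comp (σ j) :=
    (Fintype.bijective_iff_injective_and_card _).mpr ⟨(ofReal_inj K).comp σ.injective, by
      rw [Embeddings.card, hn, Fintype.card_fin]⟩
  refine ⟨fun w => ?_⟩
  obtain ⟨j, hj⟩ := h1.2 w.embedding
  rw [← InfinitePlace.mk_embedding w, InfinitePlace.isReal_mk_iff, ← hj,
    ComplexEmbedding.isReal_iff]
  ext x
  simp

/-- the norm as a product over the real embeddings -/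
theorem norm_eq_prod (E : Type) [Field E] [NumberField E] [IsTotallyReal E] (x : E) :
    ((Algebra.norm ℚ x : ℚ) : ℝ) = ∏ ψ : E →+* ℝ, ψ x := by
  have h1 := Algebra.norm_eq_prod_embeddings ℚ ℂ x
  have h2 : ∏ φ : E →ₐ[ℚ] ℂ, φ x = ∏ ψ : E →+* ℝ, (ψ x : ℂ) := by
    symm
    refine Fintype.prod_equiv ((Equiv.ofBijective _ ⟨ofReal_inj E, ofReal_surj E⟩).trans
      (RingHom.equivRatAlgHom E ℂ)) _ _ fun ψ => rfl
  rw [h2, eq_ratCast, ← Complex.ofReal_prod] at h1
  exact_mod_cast h1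

theorem absNorm_span (E : Type) [Field E] [NumberField E] [IsTotallyReal E] (x : 𝓞 E) :
    (Ideal.absNorm (Ideal.span {x}) : ℝ) = ∏ ψ : E →+* ℝ, |ψ x| := by
  rw [Ideal.absNorm_span_singleton, Nat.cast_natAbs, Int.cast_abs, ← Finset.abs_prod,
    ← norm_eq_prod, ← Algebra.coe_norm_int, Rat.cast_intCast]

/-- the restriction of the `j`-th embedding to the fixed field -/
def rs (σ : Fin n ≃ (K →+* ℝ)) (τ : K ≃+* K) (j : Fin n) : Fx τ →+* ℝ :=
  (σ j).comp (algebraMap (Fx τ) K)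

theorem rs_apply (j : Fin n) (x : Fx τ) : rs σ τ j x = σ j x := rfl

theorem rs_surj (hn : Module.finrank ℚ K = n) : Function.Surjective (rs σ τ) := by
  have := real_of_ord σ hn
  intro ψ
  obtain ⟨φ, hφ⟩ := ofReal_surj K (ComplexEmbedding.lift K (Complex.ofRealHom.comp ψ))
  refine ⟨σ.symm φ, ofReal_inj _ ?_⟩
  simp only [rs, Equiv.apply_symm_apply, ← RingHom.comp_assoc] at hφ ⊢
  rw [hφ, ComplexEmbedding.lift_comp_algebraMap]

namespace Quad

variable (h : Quad K σ s τ a θ)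
include h

theorem ss (j : Fin n) : s (s j) = j :=
  σ.injective (RingHom.ext fun x => by rw [h.emb, h.emb, h.inv])

theorem τa (hn : Module.finrank ℚ K = n) : τ a = a := by
  have h0 : 0 < n := hn ▸ Module.finrank_pos
  exact (σ ⟨0, h0⟩).injective (by rw [← h.emb, (h.fib _ _).mpr (Or.inr rfl)])

theorem rs_s (j : Fin n) : rs σ τ (s j) = rs σ τ j :=
  RingHom.ext fun x => by rw [rs_apply, rs_apply, h.emb, Fx_fix]

theorem rs_eq (hn : Module.finrank ℚ K = n) {j k : Fin n} :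
    rs σ τ k = rs σ τ j ↔ k = j ∨ k = s j := by
  refine ⟨fun e => (h.fib j k).mp (DFunLike.congr_fun e ⟨a, h.τa hn⟩), ?_⟩
  rintro (rfl | rfl)
  · rfl
  · exact h.rs_s j

theorem prod_rs (hn : Module.finrank ℚ K = n) (g : (Fx τ →+* ℝ) → ℝ) :
    ∏ j, g (rs σ τ j) = (∏ ψ, g ψ) ^ 2 := by
  classical
  rw [← Finset.prod_fiberwise' Finset.univ (rs σ τ) g, ← Finset.prod_pow]
  refine Finset.prod_congr rfl fun ψ _ => ?_
  obtain ⟨j, rfl⟩ := rs_surj (σ := σ) hn ψ
  have h1 : (Finset.univ.filter fun k => rs σ τ k = rs σ τ j) = {j, s j} := by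
    ext k
    simp [h.rs_eq hn]
  rw [Finset.prod_const, h1, Finset.card_pair (h.ne j).symm]

theorem a_inj (hn : Module.finrank ℚ K = n) :
    Function.Injective fun ψ : Fx τ →+* ℝ => ψ ⟨a, h.τa hn⟩ := by
  intro ψ ψ' e
  obtain ⟨j, rfl⟩ := rs_surj (σ := σ) hn ψ
  obtain ⟨k, rfl⟩ := rs_surj (σ := σ) hn ψ'
  exact (h.rs_eq hn).mpr ((h.fib k j).mp e)

theorem tr_mem (x : K) : x + τ x ∈ Fx τ := by rw [mem_Fx, map_add, h.inv, add_comm]

theorem nm_mem (x : K) : x * τ x ∈ Fx τ := by rw [mem_Fx, map_mul, h.inv, mul_comm]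

theorem od_mem (x : K) : θ * (x - τ x) ∈ Fx τ := by
  rw [mem_Fx, map_mul, map_sub, h.inv, h.τθ]; ring

theorem sq_mem : θ ^ 2 ∈ Fx τ := by rw [mem_Fx, map_pow, h.τθ, neg_sq]

theorem finrank_two : Module.finrank (Fx τ) K = 2 := by
  have h1 : LinearIndependent (Fx τ) ![(1 : K), θ] := by
    rw [LinearIndependent.pair_iff]
    intro x y hxy
    have h2 := congrArg τ hxy
    simp only [IntermediateField.smul_def, smul_eq_mul, mul_one, map_add, map_mul, Fx_fix, h.τθ,
      map_zero] at hxy h2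
    have h3 : (y : K) * θ = 0 := by linear_combination (hxy - h2) / 2
    have h4 : (x : K) = 0 := by linear_combination (hxy + h2) / 2
    exact ⟨Subtype.ext h4, Subtype.ext ((mul_eq_zero.mp h3).resolve_right h.θ0)⟩
  have h5 : ⊤ ≤ Submodule.span (Fx τ) (Set.range ![(1 : K), θ]) := by
    intro x _
    rw [Matrix.range_cons_cons_empty, Submodule.mem_span_pair]
    refine ⟨⟨_, h.tr_mem x⟩ / 2, ⟨_, h.od_mem x⟩ / (2 * ⟨_, h.sq_mem⟩), ?_⟩
    have := h.θ0
    simp only [IntermediateField.smul_def, smul_eq_mul]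
    push_cast
    rw [show ((2 : Fx τ) : K) = 2 from rfl]
    field_simp
    ring
  simpa using Module.finrank_eq_card_basis (Module.Basis.mk h1 h5)

/-- Hilbert 90 for the involution -/
theorem hilbert {w : K} (hw : w * τ w = 1) : ∃ k : K, k ≠ 0 ∧ w = k / τ k := by
  by_cases h1 : 1 + w = 0
  · refine ⟨θ, h.θ0, ?_⟩
    rw [h.τθ, div_neg, div_self h.θ0]
    linear_combination h1
  · refine ⟨1 + w, h1, ?_⟩
    rw [eq_div_iff ((map_ne_zero τ).mpr h1), map_add, map_one]
    linear_combination hw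

end Quad

theorem integral_of_stable {M : Submodule ℤ K} (hM : M.FG) (h0 : M ≠ ⊥) {x : K}
    (hx : ∀ m ∈ M, x * m ∈ M) : IsIntegral ℤ x :=
  isIntegral_of_smul_mem_submodule M h0 hM x hx

theorem Cfg.sl {M : Submodule ℤ K} {l z : K} (c : Cfg τ a θ M l z) (h : Quad K σ s τ a θ) :
    ∀ m ∈ M, l * m ∈ M := fun m hm => by
  have h1 := M.add_mem (c.sθ _ (c.sY m hm)) (c.sY _ (c.sθ m hm))
  have := h.θ0
  convert h1 using 1
  rw [map_mul, h.τθ]
  field_simp
  ring

theorem Cfg.sz {M : Submodule ℤ K} {l z : K} (c : Cfg τ a θ M l z) (h : Quad K σ s τ a θ) :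
    ∀ m ∈ M, z * τ m ∈ M := fun m hm => by
  have h1 := M.sub_mem (c.sθ _ (c.sY m hm)) (c.sY _ (c.sθ m hm))
  have := h.θ0
  convert h1 using 1
  rw [map_mul, h.τθ]
  field_simp
  ring

theorem Cfg.il {M : Submodule ℤ K} {l z : K} (c : Cfg τ a θ M l z) (h : Quad K σ s τ a θ) :
    IsIntegral ℤ l := integral_of_stable c.fg c.ne (c.sl h)

end Vale.Agent.P007X
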