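import Vale.Agent.P007X.Fin
import Vale.Agent.P007X.A6

/-! The characterisation by the size of the conjugates of the irrational elements. -/

open MeasureTheory Filter Topology NumberField

namespace Vale.Agent.P007X

open Vale.Agent.P007.F

namespace House

variable {n : ℕ}

theorem small (hn : 2 ≤ n) {K : Type} [Field K] [NumberField K] {O : Subring (𝓞 K)}
    {σ : Fin n ≃ (K →+* ℝ)} (h : IsTriple K O σ) {N : ℕ} (hN : disc K O ≤ N) :
    ∃ a ∈ O, (∀ j, |σ j a| ≤ ((N : ℝ) + 1) ^ 3) ∧ ∀ z : ℤ, a ≠ z := by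
  classical
  have := h.real
  have := h.order
  set m := O.toAddSubgroup.index with hm
  have m1 : 1 ≤ m := Nat.one_le_iff_ne_zero.2 AddSubgroup.FiniteIndex.index_ne_zero
  have d1 : 1 ≤ (discr K).natAbs := Nat.one_le_iff_ne_zero.2 (Int.natAbs_ne_zero.2 (discr_ne_zero K))
  have hN' : (discr K).natAbs * m ^ 2 ≤ N := hN
  have mN : (m : ℝ) ≤ N := by exact_mod_cast (by nlinarith : m ≤ N)
  have dN : (discr K).natAbs ≤ N := by nlinarith [Nat.one_le_pow 2 m m1]
  have m1' : (1 : ℝ) ≤ m := by exact_mod_cast m1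
  have N0 : (0 : ℝ) ≤ N := Nat.cast_nonneg _
  set j₀ : Fin n := ⟨0, by omega⟩
  set j₁ : Fin n := ⟨1, by omega⟩
  have j01 : σ j₁ ≠ σ j₀ := fun e => by simpa [j₀, j₁] using σ.injective e
  set c : ℝ := m * (N + 1) with hc
  have c1 : 1 ≤ c := by nlinarith
  obtain ⟨a, ha, a0, hb⟩ := A6.mink (F := K) 1
    (f := fun ψ => if ψ = σ j₀ then 1 / m else c)
    (fun ψ => by split_ifs <;> positivity) (by
      rw [← Finset.mul_prod_erase _ _ (Finset.mem_univ (σ j₀)), if_pos rfl,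
        ← Finset.mul_prod_erase _ _ (Finset.mem_erase.2 ⟨j01, Finset.mem_univ _⟩), if_neg j01]
      have p1 : (1 : ℝ) ≤ ∏ ψ ∈ (Finset.univ.erase (σ j₀)).erase (σ j₁),
          if ψ = σ j₀ then 1 / (m : ℝ) else c := Finset.one_le_prod fun ψ hψ => by
        rw [if_neg (Finset.ne_of_mem_erase (Finset.mem_of_mem_erase hψ))]
        exact c1
      have p2 : √|(discr K : ℝ)| ≤ N := by
        have e : |(discr K : ℝ)| = ((discr K).natAbs : ℝ) := by
          rw [Nat.cast_natAbs, Int.cast_abs]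
        have q1 : (1 : ℝ) ≤ (discr K).natAbs := by exact_mod_cast d1
        have q2 : ((discr K).natAbs : ℝ) ≤ N := by exact_mod_cast dN
        rw [e]
        exact Real.sqrt_le_iff.2 ⟨N0, by nlinarith⟩
      have p3 : 1 / (m : ℝ) * c = N + 1 := by rw [hc]; field_simp
      simp only [Units.val_one, map_one, Rat.cast_one, one_mul]
      rw [← mul_assoc, p3]
      nlinarith)
  obtain ⟨a, rfl⟩ := (FractionalIdeal.mem_one_iff _).1 ha
  have e : ∀ j, |σ j ((m • a : 𝓞 K) : K)| = m * |σ j (algebraMap (𝓞 K) K a)| := fun j => by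
    rw [show ((m • a : 𝓞 K) : K) = m • algebraMap (𝓞 K) K a from map_nsmul _ _ _, map_nsmul,
      nsmul_eq_mul, abs_mul, Nat.abs_cast]
  refine ⟨m • a, O.toAddSubgroup.nsmul_index_mem a, fun j => ?_, fun z hz => ?_⟩
  · have b1 : |σ j (algebraMap (𝓞 K) K a)| ≤ c := by
      have := (hb (σ j)).le
      split_ifs at this
      · exact this.trans (((div_le_one (by linarith)).2 m1').trans c1)
      · exact this
    rw [e]
    calc (m : ℝ) * _ ≤ (N + 1) * ((N + 1) * (N + 1)) := by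
          refine mul_le_mul (by linarith) (b1.trans ?_) (abs_nonneg _) (by linarith)
          rw [hc]
          gcongr
          linarith
      _ = _ := by ring
  · have b1 := hb (σ j₀)
    rw [if_pos rfl, lt_div_iff₀ (by linarith), mul_comm, ← e, hz] at b1
    have b2 : |z| < 1 := by
      have : ((|z| : ℤ) : ℝ) < 1 := by simpa using b1
      exact_mod_cast this
    have b3 : z = 0 := Int.abs_lt_one_iff.1 b2
    rw [b3, Int.cast_zero, nsmul_eq_mul, mul_eq_zero] at hz
    rcases hz with hz | hz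
    · exact absurd (Nat.cast_eq_zero.1 hz) (by omega)
    · exact a0 (by rw [hz, map_zero])

end House

variable {n : ℕ} {K : ℕ → Type} [∀ i, Field (K i)] [∀ i, NumberField (K i)]
  {O : ∀ i, Subring (𝓞 (K i))} {σ : ∀ i, Fin n ≃ (K i →+* ℝ)} {μ : ℕ → Measure (X n)}
  {m : Measure (X n)}

theorem House.disc_top (hn : 2 ≤ n) (h : ∀ i, IsTriple (K i) (O i) (σ i))
    (hB : ∀ B : ℝ, ∀ᶠ i in atTop, ∀ a ∈ O i, (∀ j, |σ i j a| ≤ B) → ∃ z : ℤ, a = z) :
    Tendsto (fun i => disc (K i) (O i)) atTop atTop := by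
  refine tendsto_atTop.2 fun N => ?_
  filter_upwards [hB (((N : ℝ) + 1) ^ 3)] with i hi
  by_contra hN
  obtain ⟨a, ha, h1, h2⟩ := House.small hn (h i) (not_le.1 hN).le
  obtain ⟨z, hz⟩ := hi a ha h1
  exact h2 z hz

theorem House.roots
    (hB : ∀ B : ℝ, ∀ᶠ i in atTop, ∀ a ∈ O i, (∀ j, |σ i j a| ≤ B) → ∃ z : ℤ, a = z)
    {f : Polynomial ℤ} (hf : f.Monic) (hi : Irreducible f) (h1 : 1 < f.natDegree) :
    ∀ᶠ i in atTop, ∀ a ∈ O i, Polynomial.aeval a f ≠ 0 := by
  obtain ⟨B, hb⟩ := ((f.rootSet_finite ℝ).image fun x => |x|).bddAbove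
  filter_upwards [hB B] with i h a ha e
  obtain ⟨z, rfl⟩ := h a ha fun j => hb ⟨_, (hf.mem_rootSet).2
    ((Polynomial.aeval_algHom_apply (((σ i j).comp (algebraMap (𝓞 (K i)) (K i))).toIntAlgHom)
      a f).trans (by rw [e, map_zero])), rfl⟩
  have e' : f.IsRoot z := by
    have := Polynomial.aeval_algebraMap_apply (𝓞 (K i)) z f
    rw [eq_intCast, e, eq_intCast, Polynomial.coe_aeval_eq_eval] at this
    exact Int.cast_eq_zero.1 this.symm
  have : f.natDegree = 1 := Polynomial.natDegree_eq_of_degree_eq_some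
    (Polynomial.degree_eq_one_of_irreducible_of_root hi e')
  omega

/-- **The characterisation by the conjugates.** -/
theorem fin_house (hn3 : 3 ≤ n) (hB : SBlocks n) (hT : STube n) (h3 : SFull3 n) (h2 : SFull2 n)
    (h : ∀ i, PacketMeas (K i) (O i) (σ i) (μ i)) (hm : IsInvProb m) :
    WeakTo μ m ↔
      ∀ B : ℝ, ∀ᶠ i in atTop, ∀ a ∈ O i, (∀ j, |σ i j a| ≤ B) → ∃ z : ℤ, a = z :=
  ⟨fun hW => (necessary (by omega) h hm hW).2, fun hb =>
    (fin_iff hn3 hB hT h3 h2 h (House.disc_top (by omega) (fun i => (h i).1) hb) hm).2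
      fun _ hf hi h1 _ => House.roots hb hf hi h1⟩

end Vale.Agent.P007X
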