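import Vale.Agent.P007X.LinS
import Vale.Agent.P007X.A6

/-! The sum over `ℓ`. -/

open NumberField

namespace Vale.Agent.P007X

theorem sLin_of {n : ℕ} (hD : SDiv) (hB : SBox) (h : PerL n) : SLin n := by
  classical
  obtain ⟨N, H⟩ := h
  refine ⟨N, fun ε hε => ?_⟩
  obtain ⟨C₁, hC₁, H₁⟩ := H (ε / 2) (by positivity)
  obtain ⟨C₂, hC₂, H₂⟩ := hD n (ε / 4 / (n + 1 : ℕ)) (by positivity)
  obtain ⟨C₃, hC₃⟩ : ∃ C₃ : ℝ, C₃ = max 1 (C₂ * 4 ^ (ε / 4) * ((2 ^ n + 1) * 4 ^ n)) := ⟨_, rfl⟩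
  have h31 : 1 ≤ C₃ := by rw [hC₃]; exact le_max_left _ _
  have h32 : C₂ * 4 ^ (ε / 4) * ((2 ^ n + 1) * 4 ^ n) ≤ C₃ := by rw [hC₃]; exact le_max_right _ _
  refine ⟨C₁ * C₃, one_le_mul_of_one_le_of_one_le hC₁ h31, ?_⟩
  intro K _ _ σ s τ a θ hn hQ A Θ hA hΘ ha hθ b hb hbs hbΘ
  have := real_of_ord σ hn
  have hd : Module.finrank ℚ (Fx τ) ≤ n := by
    have h1 := Module.finrank_mul_finrank ℚ (Fx τ) K
    rw [hQ.finrank_two, hn] at h1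
    omega
  obtain ⟨t, ht⟩ : ∃ t : 𝓞 (Fx τ), ((t : Fx τ) : K) = θ ^ 2 :=
    ⟨oF (mem_Fx.mp hQ.sq_mem) (hQ.iθ.pow 2), rfl⟩
  obtain ⟨ι, hι⟩ := (rs_surj (σ := σ) (τ := τ) hn).hasRightInverse
  have hbι : ∀ j, b (ι (rs σ τ j)) = b j := fun j => by
    rcases (hQ.rs_eq hn).mp (hι (rs σ τ j)) with e | e
    · rw [e]
    · rw [e, hbs]
  have hP0 : 0 ≤ ∏ ψ, b (ι ψ) := Finset.prod_nonneg fun ψ _ => (hb _).le
  have hsq : √(∏ j, b j) = ∏ ψ, b (ι ψ) := by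
    rw [← Finset.prod_congr rfl fun j _ => hbι j, hQ.prod_rs hn fun ψ => b (ι ψ),
      Real.sqrt_sq hP0]
  have hψ : ∀ (ψ : Fx τ →+* ℝ) (x : Fx τ), ψ x = σ (ι ψ) x := fun ψ x => by
    rw [← rs_apply (τ := τ), hι ψ]
  have hcoe : ∀ l : 𝓞 (Fx τ), (((4 * (l - 2 * t) : 𝓞 (Fx τ)) : Fx τ) : K) =
      4 * ((l : Fx τ) - 2 * θ ^ 2) := fun l => by
    rw [← ht]
    rfl
  have h4 : Ideal.span {4 * t} ≠ ⊥ := by
    rw [Ne, Ideal.span_singleton_eq_bot]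
    intro e
    have h1 : (((4 * t : 𝓞 (Fx τ)) : Fx τ) : K) = 4 * θ ^ 2 := by rw [← ht]; rfl
    rw [e] at h1
    exact mul_ne_zero (OfNat.ofNat_ne_zero 4) (pow_ne_zero 2 hQ.θ0) h1.symm
  obtain ⟨hfin, hnd⟩ := H₂ (Fx τ) hd _ h4
  have hf : {I : Ideal (𝓞 (Fx τ)) | Ideal.span {4 * t} ≤ I}.Finite := hfin
  have hΘ2 : 1 ≤ 4 * Θ ^ 2 := by nlinarith
  have hcard : (hf.toFinset.card : ℝ) ≤ C₂ * 4 ^ (ε / 4) * Θ ^ (ε / 2) := by
    have h1 : hf.toFinset.card = ndiv (Ideal.span {4 * t}) :=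
      (Nat.card_eq_card_finite_toFinset hf).symm
    have h2 : (Ideal.absNorm (Ideal.span {4 * t}) : ℝ) ≤ (4 * Θ ^ 2) ^ (n + 1) := by
      refine (norm_span_le (4 * t) fun ψ => ?_).trans (pow_le_pow_right₀ hΘ2 (by omega))
      have h3 : (((4 * t : 𝓞 (Fx τ)) : Fx τ) : K) = 4 * θ ^ 2 := by rw [← ht]; rfl
      rw [hψ, h3, map_mul, map_pow, map_ofNat, abs_mul, abs_pow, Nat.abs_ofNat]
      gcongr
      exact hθ _
    rw [h1, mul_assoc]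
    refine hnd.trans (mul_le_mul_of_nonneg_left ((Real.rpow_le_rpow (Nat.cast_nonneg _) h2
      (by positivity)).trans (le_of_eq ?_)) hC₂.le)
    rw [← Real.rpow_natCast, ← Real.rpow_mul (by positivity), mul_div_cancel₀ _ (by positivity),
      Real.mul_rpow (by norm_num) (by positivity), ← Real.rpow_natCast,
      ← Real.rpow_mul (by positivity)]
    congr 2
    push_cast
    ring
  have hbox : ∀ q : Ideal (𝓞 (Fx τ)), ∃ T : Finset (𝓞 (Fx τ)),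
      (T.card : ℝ) * Ideal.absNorm q ≤ (2 ^ n + 1) * 4 ^ n * ∏ ψ, b (ι ψ) ∧
      ∀ l : 𝓞 (Fx τ), l ∈ T ↔ Ideal.span {4 * t, 4 * l} = q ∧ l ≠ 2 * t ∧
        ∀ j, |σ j ((l : Fx τ) - 2 * θ ^ 2)| ≤ b j := by
    intro q
    by_cases hq : q = ⊥
    · refine ⟨∅, by rw [Finset.card_empty, Nat.cast_zero, zero_mul]; positivity, fun l =>
        ⟨fun h1 => absurd h1 (Finset.notMem_empty _), fun h1 => absurd ?_ h4⟩⟩
      rw [eq_bot_iff, ← hq, ← h1.1]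
      exact Ideal.span_mono (by simp)
    obtain ⟨T, hT, hm⟩ := hB (Fx τ) q hq (fun ψ => 4 * b (ι ψ))
      fun ψ => mul_pos four_pos (hb _)
    have hinj : Function.Injective fun l : 𝓞 (Fx τ) => 4 * (l - 2 * t) := fun l l' e =>
      sub_left_injective (mul_left_cancel₀ (OfNat.ofNat_ne_zero 4) e)
    refine ⟨(T.preimage _ hinj.injOn).filter fun l => Ideal.span {4 * t, 4 * l} = q ∧
      l ≠ 2 * t ∧ ∀ j, |σ j ((l : Fx τ) - 2 * θ ^ 2)| ≤ b j, ?_, fun l =>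
        ⟨fun h1 => (Finset.mem_filter.mp h1).2, fun h1 => Finset.mem_filter.mpr
          ⟨Finset.mem_preimage.mpr (hm _ ?_ ?_ fun ψ => ?_), h1⟩⟩⟩
    · refine le_trans (mul_le_mul_of_nonneg_right (Nat.cast_le.mpr
        (Finset.card_le_card_of_injOn _ (fun l hl => ?_) hinj.injOn)) (Nat.cast_nonneg _))
        (hT.trans ?_)
      · exact (Finset.mem_preimage (hf := hinj.injOn)).mp (Finset.mem_filter.mp hl).1
      · rw [Finset.prod_mul_distrib, Finset.prod_const, Finset.card_univ, A6.card_emb, mul_assoc]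
        gcongr <;> norm_num
    · rw [← h1.1, show 4 * (l - 2 * t) = 4 * l - 2 * (4 * t) by ring]
      exact Ideal.sub_mem _ (Ideal.subset_span (by simp))
        (Ideal.mul_mem_left _ _ (Ideal.subset_span (by simp)))
    · exact mul_ne_zero (OfNat.ofNat_ne_zero 4) (sub_ne_zero.mpr h1.2.1)
    · rw [hψ, hcoe, map_mul, map_ofNat, abs_mul, Nat.abs_ofNat]
      gcongr
      exact h1.2.2 _
  choose L hL hmL using hbox
  have hper := fun (l : 𝓞 (Fx τ)) (hl : ∀ j, |σ j ((l : Fx τ) - 2 * θ ^ 2)| ≤ b j) =>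
    H₁ K σ s τ a θ hn hQ A Θ hA hΘ ha hθ t l ht fun j => (hl j).trans (hbΘ j)
  choose! T hT hmT using hper
  refine ⟨hf.toFinset.biUnion fun q => (L q).biUnion T, ?_, fun M l z c hl ω hω hωs => ?_⟩
  · have h1 : ∀ q ∈ hf.toFinset, (((L q).biUnion T).card : ℝ) ≤
        C₁ * A ^ N * Θ ^ (ε / 2) * ((2 ^ n + 1) * 4 ^ n * ∏ ψ, b (ι ψ)) := by
      intro q _
      refine le_trans (Nat.cast_le.mpr Finset.card_biUnion_le) ?_
      rw [Nat.cast_sum]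
      refine (Finset.sum_le_card_nsmul _ _ (C₁ * A ^ N * Θ ^ (ε / 2) * Ideal.absNorm q)
        fun l hl => ?_).trans ?_
      · obtain ⟨e, -, h2⟩ := (hmL q l).mp hl
        rw [← e]
        exact hT l h2
      · rw [nsmul_eq_mul, mul_left_comm]
        exact mul_le_mul_of_nonneg_left (hL q) (by positivity)
    refine le_trans (Nat.cast_le.mpr Finset.card_biUnion_le) ?_
    rw [Nat.cast_sum]
    refine (Finset.sum_le_card_nsmul _ _ _ h1).trans ?_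
    rw [nsmul_eq_mul, hsq, show Θ ^ ε = Θ ^ (ε / 2) * Θ ^ (ε / 2) by
      rw [← Real.rpow_add (by positivity), add_halves]]
    calc _ ≤ C₂ * 4 ^ (ε / 4) * Θ ^ (ε / 2) *
          (C₁ * A ^ N * Θ ^ (ε / 2) * ((2 ^ n + 1) * 4 ^ n * ∏ ψ, b (ι ψ))) := by gcongr
      _ = C₁ * (C₂ * 4 ^ (ε / 4) * ((2 ^ n + 1) * 4 ^ n)) * A ^ N *
          (Θ ^ (ε / 2) * Θ ^ (ε / 2)) * ∏ ψ, b (ι ψ) := by ring
      _ ≤ _ := by gcongr
  · obtain ⟨l', rfl⟩ : ∃ l' : 𝓞 (Fx τ), ((l' : Fx τ) : K) = l := ⟨oF c.τl (c.il hQ), rfl⟩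
    obtain ⟨lam, h0, h1, h2⟩ := hmT l' hl M z c ω hω hωs
    refine ⟨lam, h0, Finset.mem_biUnion.mpr ⟨Ideal.span {4 * t, 4 * l'},
      hf.mem_toFinset.mpr (Ideal.span_mono (by simp)), Finset.mem_biUnion.mpr
        ⟨l', (hmL _ _).mpr ⟨rfl, fun e => ?_, hl⟩, h1⟩⟩, fun j k => (h2 j k).trans ?_⟩
    · have h3 : ((l' : Fx τ) : K) = 2 * θ ^ 2 := by rw [e, ← ht]; rfl
      refine mul_ne_zero c.z0 ((map_ne_zero τ).mpr c.z0) ?_
      rw [c.nz, h3]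
      ring
    · have := (hω k).le
      gcongr
      exact le_mul_of_one_le_right (by positivity) h31

end Vale.Agent.P007X
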