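import Vale.Agent.P007X.Lin2
import Vale.Agent.P007X.Lin3
import Vale.Agent.P007X.A1
import Vale.Agent.P007X.A4

/-! The count of the configurations. -/

namespace Vale.Agent.P007X

theorem sLin (n : ℕ) : SLin n :=
  sLin_of sDiv sBox (perL sDiv sSmall sOne sTwo sInt sBal sGen n)

end Vale.Agent.P007X
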