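import Vale.Agent.P007X.Fix

/-! Integers of the fixed field, representatives. -/

set_option autoImplicit false
set_option linter.unusedSectionVars false

open NumberField

namespace Vale.Agent.P007X

variable {K : Type} [Field K] [NumberField K]

/-- an integer of the fixed field -/
def oF {τ : K ≃+* K} {x : K} (h : τ x = x) (i : IsIntegral ℤ x) : 𝓞 (Fx τ) :=
  ⟨⟨x, h⟩, (isIntegral_algebraMap_iff (algebraMap (Fx τ) K).injective).1 i⟩

theorem oF_smul {τ : K ≃+* K} {x : K} (h : τ x = x) (i : IsIntegral ℤ x) (y : K) :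
    oF h i • y = x * y := rfl

theorem smul_eq {τ : K ≃+* K} (r : 𝓞 (Fx τ)) (y : K) : r • y = ((r : Fx τ) : K) * y := rfl

theorem int_oF {τ : K ≃+* K} (r : 𝓞 (Fx τ)) : IsIntegral ℤ ((r : Fx τ) : K) :=
  (isIntegral_algebraMap_iff (algebraMap (Fx τ) K).injective).2 r.2

theorem int_map (τ : K ≃+* K) {x : K} (i : IsIntegral ℤ x) : IsIntegral ℤ (τ x) :=
  i.map τ.toRingHom.toIntAlgHom

theorem norm_span_le [IsTotallyReal K] (x : 𝓞 K) {B : ℝ} (h : ∀ ψ : K →+* ℝ, |ψ x| ≤ B) :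
    (Ideal.absNorm (Ideal.span {x}) : ℝ) ≤ B ^ Module.finrank ℚ K := by
  have e := congrArg norm (Algebra.norm_eq_prod_embeddings ℚ ℂ (x : K))
  rw [← Algebra.coe_norm_int, norm_prod] at e
  rw [Ideal.absNorm_span_singleton, ← AlgHom.card ℚ K ℂ, ← Finset.card_univ, ← Finset.prod_const,
    Nat.cast_natAbs, Int.cast_abs]
  refine le_of_eq_of_le (by simpa using e) (Finset.prod_le_prod (fun _ _ => norm_nonneg _)
    fun φ _ => ?_)
  have k := IsTotallyReal.complexEmbedding_isReal φ.toRingHom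
  have k2 := k.coe_embedding_apply (x : K)
  exact le_of_eq_of_le (by rw [← Real.norm_eq_abs, ← Complex.norm_real, k2]; rfl) (h k.embedding)

/-- representatives -/
theorem exists_reps {α β : Type*} (P : α → Prop) (f : α → β) (T : Finset β)
    (h : ∀ x, P x → f x ∈ T) :
    ∃ R : Finset α, R.card ≤ T.card ∧ ∀ x, P x → ∃ y ∈ R, P y ∧ f y = f x := by
  classical
  by_cases e : ∃ x, P x
  · obtain ⟨x₀, -⟩ := e
    refine ⟨T.image fun b => if k : ∃ y, P y ∧ f y = b then k.choose else x₀,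
      Finset.card_image_le, fun x hx => ?_⟩
    have k : ∃ y, P y ∧ f y = f x := ⟨x, hx, rfl⟩
    exact ⟨k.choose, Finset.mem_image.2 ⟨f x, h x hx, dif_pos k⟩, k.choose_spec⟩
  · exact ⟨∅, Nat.zero_le _, fun x hx => absurd ⟨x, hx⟩ e⟩

theorem hilbert' {τ : K ≃+* K} (hτ : ∀ x, τ (τ x) = x) {θ : K} (h1 : τ θ = -θ) (h0 : θ ≠ 0)
    {z z₀ : K} (hz : z ≠ 0) (e : z * τ z = z₀ * τ z₀) : ∃ l : K, l ≠ 0 ∧ z * l / τ l = z₀ := by
  have hz' : τ z ≠ 0 := (map_ne_zero τ).2 hz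
  by_cases k : z + z₀ = 0
  · refine ⟨θ, h0, ?_⟩
    rw [h1, div_neg, mul_div_cancel_right₀ _ h0]
    linear_combination -k
  · have k' : τ z + τ z₀ ≠ 0 := by rw [← map_add]; exact (map_ne_zero τ).2 k
    refine ⟨(z + z₀) * τ z, mul_ne_zero k hz', ?_⟩
    rw [map_mul, map_add, hτ]
    field_simp
    linear_combination e

end Vale.Agent.P007X
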