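import Vale.Agent.P007X.Lin0

/-! Fractional ideals which are stable under `z τ`. -/

set_option autoImplicit false
set_option linter.unusedSectionVars false

open NumberField Submodule
open scoped nonZeroDivisors

namespace Vale.Agent.P007X

variable {K : Type} [Field K] [NumberField K] {τ : K ≃+* K} {θ z : K}

open Classical in
/-- the inverse of a fractional ideal -/
noncomputable def iv (L : Submodule (𝓞 K) K) : Submodule (𝓞 K) K :=
  if h : ∃ L', L * L' = 1 then h.choose else ⊥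

theorem mul_iv {L : Submodule (𝓞 K) K} (h : L.FG) (h0 : L ≠ ⊥) : L * iv L = 1 := by
  have k : ∃ L', L * L' = 1 := by
    obtain ⟨I, rfl⟩ : ∃ I : FractionalIdeal (𝓞 K)⁰ K, (I : Submodule (𝓞 K) K) = L :=
      ⟨⟨L, FractionalIdeal.isFractional_of_fg h⟩, rfl⟩
    have I0 : I ≠ 0 := fun e => h0 (by rw [e, FractionalIdeal.coe_zero])
    exact ⟨(I⁻¹ : FractionalIdeal (𝓞 K)⁰ K), by
      rw [← FractionalIdeal.coe_mul, mul_inv_cancel₀ I0, FractionalIdeal.coe_one]⟩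
  rw [iv, dif_pos k]
  exact k.choose_spec

/-- an integer -/
def oK {x : K} (i : IsIntegral ℤ x) : 𝓞 K := ⟨x, i⟩

theorem int_mul_mem {J : Submodule (𝓞 K) K} {x y : K} (i : IsIntegral ℤ x) (h : y ∈ J) :
    x * y ∈ J := J.smul_mem (oK i) h

/-- the image of `J` under `z τ` -/
def iota (τ : K ≃+* K) (z : K) (J : Submodule (𝓞 K) K) : Submodule (𝓞 K) K where
  carrier := {y | ∃ w ∈ J, z * τ w = y}
  zero_mem' := ⟨0, J.zero_mem, by simp⟩
  add_mem' := by
    rintro _ _ ⟨a, ha, rfl⟩ ⟨b, hb, rfl⟩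
    exact ⟨a + b, J.add_mem ha hb, by rw [map_add, mul_add]⟩
  smul_mem' := by
    rintro r _ ⟨a, ha, rfl⟩
    refine ⟨τ.symm r * a, int_mul_mem (int_map τ.symm r.2) ha, ?_⟩
    rw [map_mul, τ.apply_symm_apply, mul_left_comm]
    rfl

/-- fractional ideals which are stable under `z τ` -/
structure Good (τ : K ≃+* K) (z : K) (J : Submodule (𝓞 K) K) : Prop where
  fg : J.FG
  ne : J ≠ ⊥
  st : ∀ w ∈ J, z * τ w ∈ J

theorem Good.le {J : Submodule (𝓞 K) K} (h : Good τ z J) : iota τ z J ≤ J := by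
  rintro _ ⟨w, hw, rfl⟩
  exact h.st w hw

theorem Good.unit {J : Submodule (𝓞 K) K} (h : Good τ z J) (hz : z ≠ 0) :
    iota τ z J * iv (iota τ z J) = 1 := by
  obtain ⟨w, hw, w0⟩ := (Submodule.ne_bot_iff J).1 h.ne
  exact mul_iv (h.fg.of_le h.le) ((Submodule.ne_bot_iff _).2
    ⟨_, ⟨w, hw, rfl⟩, mul_ne_zero hz ((map_ne_zero τ).2 w0)⟩)

theorem refs (hO : SOne) (hτ : ∀ x, τ (τ x) = x) (hz : z ≠ 0) (ν : 𝓞 K) (hν : (ν : K) = z * τ z) :
    ∃ R : Finset (Submodule (𝓞 K) K), R.card ≤ ndiv (Ideal.span {ν}) ∧ ∀ J, Good τ z J →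
      ∃ J₀ ∈ R, Good τ z J₀ ∧ ∀ w, (∀ x ∈ J₀, w * x ∈ J) → ∀ x ∈ J₀, τ w * x ∈ J := by
  have ν0 : ν ≠ 0 := fun e => mul_ne_zero hz ((map_ne_zero τ).2 hz) (by rw [← hν, e]; rfl)
  obtain ⟨T, hT, k⟩ := hO K 1 (by rw [Submodule.one_eq_span]; exact fg_span_singleton _)
    (Ideal.span {ν}) (by simpa using ν0)
  obtain ⟨R, hR, k'⟩ := exists_reps (Good τ z) (fun J => iota τ z J * iv J) T fun J h => by
    have e := mul_iv h.fg h.ne
    refine k _ ?_ ((mul_le_mul_left h.le _).trans e.le)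
    rw [← e, ← smul_mul_assoc]
    refine mul_le_mul_left (Submodule.smul_le.2 fun r hr w hw => ?_) _
    obtain ⟨s, rfl⟩ := Ideal.mem_span_singleton'.1 hr
    rw [mul_smul]
    refine smul_mem _ _ ⟨z * τ w, h.st w hw, ?_⟩
    rw [map_mul, hτ, ← mul_assoc, ← hν]
    rfl
  refine ⟨R, hR.trans hT, fun J h => ?_⟩
  obtain ⟨J₀, h0, h1, e⟩ := k' J h
  refine ⟨J₀, h0, h1, fun w hw x hx => ?_⟩
  have e0 := mul_iv h1.fg h1.ne
  have e1 := mul_iv h.fg h.ne
  have e2 := h.unit hz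
  have a : span (𝓞 K) {τ w} * iota τ z J₀ ≤ iota τ z J := fun y hy => by
    obtain ⟨_, ⟨x, hx, rfl⟩, rfl⟩ := mem_span_singleton_mul.1 hy
    exact ⟨w * x, hw x hx, by rw [map_mul, mul_left_comm]⟩
  have b : span (𝓞 K) {τ w} * J₀ = span (𝓞 K) {τ w} * iota τ z J₀ * (J * iv (iota τ z J)) := by
    calc _ = span (𝓞 K) {τ w} * J₀ * (J * iv J) * (iota τ z J * iv (iota τ z J)) := by
          rw [e1, e2, mul_one, mul_one]
      _ = span (𝓞 K) {τ w} * J₀ * (iota τ z J * iv J) * (J * iv (iota τ z J)) := by ring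
      _ = span (𝓞 K) {τ w} * iota τ z J₀ * (J₀ * iv J₀) * (J * iv (iota τ z J)) := by
          rw [← e]; ring
      _ = _ := by rw [e0, mul_one]
  have c : span (𝓞 K) {τ w} * J₀ ≤ J := by
    rw [b]
    refine (mul_le_mul_left a _).trans_eq ?_
    rw [mul_left_comm, e2, mul_one]
  exact c (mem_span_singleton_mul.2 ⟨x, hx, rfl⟩)

/-- the extension of an ideal of the fixed field -/
def ext (I : Ideal (𝓞 (Fx τ))) : Submodule (𝓞 K) K :=
  span (𝓞 K) ((fun r : 𝓞 (Fx τ) => ((r : Fx τ) : K)) '' I)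

theorem ext_unit {I : Ideal (𝓞 (Fx τ))} (h : I ≠ ⊥) : ext I * iv (ext I) = 1 := by
  obtain ⟨r, hr, r0⟩ := (Submodule.ne_bot_iff I).1 h
  refine mul_iv (FG.of_le (T := span (𝓞 K) {1}) (fg_span_singleton _) (span_le.2 ?_))
    ((Submodule.ne_bot_iff _).2 ⟨_, subset_span ⟨r, hr, rfl⟩, by simpa using r0⟩)
  rintro _ ⟨r, -, rfl⟩
  simpa using int_mul_mem (int_oF r) (mem_span_singleton_self (R := 𝓞 K) (1 : K))

/-- the elements of the fixed field which map `J₀` to `J` -/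
def quo (τ : K ≃+* K) (J J₀ : Submodule (𝓞 K) K) : Submodule (𝓞 (Fx τ)) (Fx τ) where
  carrier := {φ | ∀ x ∈ J₀, (φ : K) * x ∈ J}
  zero_mem' := fun x _ => by simp
  add_mem' := fun {a b} ha hb x hx => by
    simpa [add_mul] using J.add_mem (ha x hx) (hb x hx)
  smul_mem' := fun r a ha x hx => by
    have := int_mul_mem (int_oF r) (ha x hx)
    rwa [← mul_assoc] at this

theorem quo_fg {J J₀ : Submodule (𝓞 K) K} (h : J.FG) (h0 : J₀ ≠ ⊥) : (quo τ J J₀).FG := by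
  obtain ⟨x, hx, x0⟩ := (Submodule.ne_bot_iff J₀).1 h0
  let g : Fx τ →ₗ[ℤ] K := (LinearMap.mulRight ℤ x).comp (Fx τ).val.toRingHom.toIntAlgHom.toLinearMap
  refine FG.of_restrictScalars ℤ (fg_of_fg_map_injective g
    (fun a b e => Subtype.ext (mul_right_cancel₀ x0 e)) (FG.of_le (h.restrictScalars (R := ℤ)) ?_))
  rintro _ ⟨a, ha, rfl⟩
  exact ha x hx

theorem jfin (hO : SOne) (hτ : ∀ x, τ (τ x) = x) (h1 : τ θ = -θ) (h0 : θ ≠ 0) (i : IsIntegral ℤ θ)
    (hz : z ≠ 0) (ν : 𝓞 K) (hν : (ν : K) = z * τ z) (TI : Finset (Ideal (𝓞 (Fx τ)))) :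
    ∃ T : Finset (Submodule (𝓞 K) K),
      T.card ≤ ndiv (Ideal.span {ν}) * (TI.card * ndiv (Ideal.span {2 * oK i})) ∧
      ∀ J, Good τ z J → ∃ L : Submodule (𝓞 (Fx τ)) (Fx τ), L.FG ∧ L ≠ ⊥ ∧ ∀ φ : Fx τ, φ ≠ 0 →
        ∀ I ∈ TI, I ≠ ⊥ → I • L = span _ {φ} → span (𝓞 K) {(φ : K)⁻¹} * J ∈ T := by
  classical
  obtain ⟨R, hR, k⟩ := refs hO hτ hz ν hν
  have t0 : (2 * θ : K) ≠ 0 := mul_ne_zero two_ne_zero h0
  have q0 : Ideal.span {2 * oK i} ≠ ⊥ := by
    rw [Ne, Ideal.span_singleton_eq_bot]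
    exact fun e => t0 (congrArg (fun x : 𝓞 K => (x : K)) e)
  have H : ∀ J₀ : Submodule (𝓞 K) K, ∃ T : Finset (Submodule (𝓞 K) K),
      T.card ≤ ndiv (Ideal.span {2 * oK i}) ∧ (J₀.FG → ∀ N, J₀ ≤ N →
        (∀ y ∈ N, 2 * θ * y ∈ J₀) → N ∈ T) := fun J₀ => by
    by_cases f : J₀.FG
    · obtain ⟨T, a, b⟩ := hO K (span (𝓞 K) {(2 * θ)⁻¹} * J₀) ((fg_span_singleton _).mul f) _ q0
      refine ⟨T, a, fun _ N c d => b N (Submodule.smul_le.2 fun r hr y hy => c ?_) fun y hy =>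
        mem_span_singleton_mul.2 ⟨_, d y hy, inv_mul_cancel_left₀ t0 y⟩⟩
      obtain ⟨s, rfl⟩ := Ideal.mem_span_singleton'.1 hr
      obtain ⟨x, hx, rfl⟩ := mem_span_singleton_mul.1 hy
      rw [mul_smul]
      exact smul_mem _ _ ((mul_inv_cancel_left₀ t0 x).symm ▸ hx :
        2 * θ * ((2 * θ)⁻¹ * x) ∈ J₀)
    · exact ⟨∅, Nat.zero_le _, fun g => absurd g f⟩
  choose T hT hT' using H
  refine ⟨R.biUnion fun J₀ => (TI ×ˢ T J₀).image fun p => iv (ext p.1) * p.2,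
    (Finset.card_biUnion_le_card_mul _ _ _ fun J₀ _ => Finset.card_image_le.trans (by
      rw [Finset.card_product]; exact Nat.mul_le_mul_left _ (hT J₀))).trans
        (Nat.mul_le_mul_right _ hR), fun J h => ?_⟩
  obtain ⟨J₀, m, g, c⟩ := k J h
  have e0 := mul_iv g.fg g.ne
  have eA : J / J₀ * J₀ = J := le_antisymm (le_div_iff_mul_le.1 le_rfl) (by
    have e : J * iv J₀ * J₀ = J := by rw [mul_assoc, mul_comm (iv J₀), e0, mul_one]
    exact e.ge.trans (mul_le_mul_left (le_div_iff_mul_le.2 e.le) _))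
  have two : ∀ w ∈ J / J₀, ∃ a ∈ quo τ J J₀, ∃ b ∈ quo τ J J₀, 2 * θ * w = θ * a + b :=
    fun w hw => by
      have hw := mem_div_iff_forall_mul_mem.1 hw
      refine ⟨⟨w + τ w, mem_Fx.2 (by rw [map_add, hτ, add_comm])⟩, fun x hx => ?_,
        ⟨θ * (w - τ w), mem_Fx.2 (by rw [map_mul, map_sub, hτ, h1]; ring)⟩, fun x hx => ?_,
          by ring⟩
      · simpa [add_mul] using J.add_mem (hw x hx) (c w hw x hx)
      · have := int_mul_mem i (J.sub_mem (hw x hx) (c w hw x hx))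
        rwa [← sub_mul, ← mul_assoc] at this
  refine ⟨quo τ J J₀, quo_fg h.fg g.ne, fun e => h.ne ?_, fun φ φ0 I hI I0 e => ?_⟩
  · rw [← eA, Submodule.mul_eq_bot]
    refine .inl (eq_bot_iff.2 fun w hw => ?_)
    obtain ⟨a, ha, b, hb, e'⟩ := two w hw
    rw [e, mem_bot] at ha hb
    rw [ha, hb] at e'
    simpa [t0] using e'
  have φ0' : (φ : K) ≠ 0 := by simpa using φ0
  refine Finset.mem_biUnion.2 ⟨J₀, m, Finset.mem_image.2
    ⟨(I, ext I * (span (𝓞 K) {(φ : K)⁻¹} * J)), Finset.mem_product.2 ⟨hI, hT' J₀ g.fg _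
      (fun x hx => ?_) fun y hy => ?_⟩, by
        rw [← mul_assoc, mul_comm (iv _), ext_unit I0, one_mul]⟩⟩
  · rw [mul_left_comm]
    refine mem_span_singleton_mul.2 ⟨φ * x, ?_, inv_mul_cancel_left₀ φ0' x⟩
    have : φ ∈ I • quo τ J J₀ := e ▸ mem_span_singleton_self φ
    refine smul_induction_on (p := fun φ : Fx τ => (φ : K) * x ∈ ext I * J) this
      (fun r hr a ha => ?_) fun a b ha hb => by simpa [add_mul] using add_mem ha hb
    have := mul_mem_mul (subset_span ⟨r, hr, rfl⟩ : _ ∈ ext I) (ha x hx)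
    rwa [← mul_assoc] at this
  · have key : ext I * (J / J₀) ≤ span (𝓞 K) {(φ : K) / (2 * θ)} := by
      refine mul_le.2 fun m hm w hw => ?_
      obtain ⟨a, ha, b, hb, e'⟩ := two w hw
      induction hm using span_induction with
      | mem m hm =>
        obtain ⟨r, hr, rfl⟩ := hm
        obtain ⟨s, hs⟩ := mem_span_singleton.1 (e ▸ smul_mem_smul hr ha)
        obtain ⟨s', hs'⟩ := mem_span_singleton.1 (e ▸ smul_mem_smul hr hb)
        have k1 : ((s : Fx τ) : K) * φ = ((r : Fx τ) : K) * a := congrArg Subtype.val hs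
        have k2 : ((s' : Fx τ) : K) * φ = ((r : Fx τ) : K) * b := congrArg Subtype.val hs'
        have k3 : ((r : Fx τ) : K) * w = (θ * (s : Fx τ) + (s' : Fx τ)) * (φ / (2 * θ)) := by
          field_simp
          linear_combination ((r : Fx τ) : K) * e' - θ * k1 - k2
        exact k3 ▸ int_mul_mem ((i.mul (int_oF s)).add (int_oF s')) (mem_span_singleton_self _)
      | zero => simp
      | add x y _ _ hx hy => simpa [add_mul] using add_mem hx hy
      | smul r x _ hx => simpa using smul_mem _ r hx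
    rw [← eA, mul_left_comm, ← mul_assoc (ext I)] at hy
    obtain ⟨y, hy1, rfl⟩ := mem_span_singleton_mul.1 hy
    have hy' := mul_le_mul_left key J₀ hy1
    obtain ⟨x, hx, rfl⟩ := mem_span_singleton_mul.1 hy'
    have : 2 * θ * ((φ : K)⁻¹ * (φ / (2 * θ) * x)) = x := by field_simp
    rwa [this]

end Vale.Agent.P007X
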