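import Vale.Agent.P007X.LinS

/-! The count of the configurations with a given `ℓ`. -/

set_option autoImplicit false
set_option linter.unusedSectionVars false

open NumberField Submodule

namespace Vale.Agent.P007X

variable {n : ℕ} {K : Type} [Field K] [NumberField K] {σ : Fin n ≃ (K →+* ℝ)}
  {s : Fin n → Fin n} {τ : K ≃+* K} {a θ z : K}

/-- the elements `v` of `J` with `ℓ v + z τ v ∈ θ J` -/
def sharp (θ z : K) (l : Fx τ) (J : Submodule (𝓞 K) K) : Submodule (𝓞 (Fx τ)) K where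
  carrier := {v | v ∈ J ∧ ∃ w ∈ J, l * v + z * τ v = θ * w}
  zero_mem' := ⟨J.zero_mem, 0, J.zero_mem, by simp⟩
  add_mem' := by
    rintro x y ⟨hx, u, hu, e⟩ ⟨hy, w, hw, e'⟩
    exact ⟨J.add_mem hx hy, u + w, J.add_mem hu hw, by rw [map_add]; linear_combination e + e'⟩
  smul_mem' := by
    rintro r x ⟨hx, u, hu, e⟩
    refine ⟨int_mul_mem (int_oF r) hx, _, int_mul_mem (int_oF r) hu, ?_⟩
    rw [smul_eq, map_mul, Fx_fix]
    linear_combination ((r : Fx τ) : K) * e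

theorem fx_mul_mem {N : Submodule (𝓞 (Fx τ)) K} {x y : K} (h : τ x = x) (i : IsIntegral ℤ x)
    (hy : y ∈ N) : x * y ∈ N := N.smul_mem (oF h i) hy

theorem span_ind {R : Type} [CommRing R] [Algebra R K] {M : Set K} {N : AddSubgroup K}
    {f : K →+ K} (h : ∀ r : R, ∀ m ∈ M, f (r • m) ∈ N) {x : K} (hx : x ∈ span R M) : f x ∈ N := by
  have k : ∀ r : R, f (r • x) ∈ N := by
    induction hx using span_induction with
    | mem m hm => exact fun r => h r m hm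
    | zero => simp
    | add x y _ _ hx hy => exact fun r => by rw [smul_add, map_add]; exact add_mem (hx r) (hy r)
    | smul r' x _ hx => exact fun r => by rw [← mul_smul]; exact hx _
  simpa using k 1

theorem mfin (hT : STwo) (hI : SInt) (h : Quad K σ s τ a θ) (ha : τ a = a) (t l : 𝓞 (Fx τ))
    (ht : ((t : Fx τ) : K) = θ ^ 2) {c : ℕ} (c0 : c ≠ 0)
    (hc : ∀ x : Fx τ, IsIntegral ℤ x → (c : Fx τ) * x ∈ Algebra.adjoin ℤ {(⟨a, ha⟩ : Fx τ)})
    (J : Submodule (𝓞 K) K) : ∃ T : Finset (Submodule ℤ K),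
      T.card ≤ ndiv (Ideal.span {4 * t, 4 * l}) ^ 2 * Ideal.absNorm (Ideal.span {4 * t, 4 * l}) *
        c ^ (Module.finrank ℚ K ^ 2) ∧
      ∀ M, Cfg τ a θ M (l : Fx τ) z → span (𝓞 K) (M : Set K) = J → M ∈ T := by
  classical
  by_cases hJ : J.FG
  swap
  · refine ⟨∅, Nat.zero_le _, fun M g e => absurd ?_ hJ⟩
    obtain ⟨S, hS⟩ := g.fg
    exact ⟨S, by rw [← e, ← hS, span_span_of_tower]⟩
  have t0 : (2 * θ : K) ≠ 0 := mul_ne_zero two_ne_zero h.θ0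
  have q0 : Ideal.span {4 * t, 4 * l} ≠ ⊥ := fun e => by
    have e' := (mul_eq_zero.1 (Ideal.span_eq_bot.1 e (4 * t) (by simp))).resolve_left (by norm_num)
    exact pow_ne_zero 2 h.θ0 (by rw [← ht, e']; rfl)
  have f : (sharp θ z (l : Fx τ) J).FG :=
    FG.of_restrictScalars ℤ (FG.of_le (hJ.restrictScalars (R := ℤ)) fun x hx => hx.1)
  obtain ⟨T₁, k1, k2⟩ := hT (Fx τ) K h.finrank_two _ f _ q0
  have H : ∀ N : Submodule (𝓞 (Fx τ)) K, ∃ T : Finset (Submodule ℤ K),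
      T.card ≤ c ^ (Module.finrank ℚ K ^ 2) ∧ (N.FG → ∀ M : Submodule ℤ K,
        (∀ x ∈ N, (c : K) * x ∈ M) → M ≤ N.restrictScalars ℤ → M ∈ T) := fun N => by
    by_cases f : N.FG
    · obtain ⟨T, a, b⟩ := hI K _ (f.restrictScalars (R := ℤ)) c c0
      exact ⟨T, a, fun _ => b⟩
    · exact ⟨∅, Nat.zero_le _, fun g => absurd g f⟩
  choose T hT hT' using H
  refine ⟨T₁.biUnion T, (Finset.card_biUnion_le_card_mul _ _ _ fun N _ => hT N).trans
    (Nat.mul_le_mul_right _ k1), fun M g e => ?_⟩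
  subst e
  set N := span (𝓞 (Fx τ)) (M : Set K)
  have sub : ∀ m ∈ M, m ∈ N := fun m hm => subset_span hm
  have two : ∀ w ∈ span (𝓞 K) (M : Set K), 2 * θ * w ∈ N := fun w hw =>
    span_ind (N := N.toAddSubgroup) (f := AddMonoidHom.mulLeft (2 * θ)) (fun r m hm => by
      have := N.add_mem (fx_mul_mem (h.tr_mem r) (r.2.add (int_map τ r.2)) (sub _ (g.sθ m hm)))
        (fx_mul_mem (h.od_mem r) (h.iθ.mul (r.2.sub (int_map τ r.2))) (sub _ hm))
      change 2 * θ * ((r : K) * m) ∈ N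
      convert this using 1
      ring) hw
  have dif : ∀ w ∈ span (𝓞 K) (M : Set K), (l : Fx τ) * w - z * τ w ∈ N := fun w hw =>
    span_ind (N := N.toAddSubgroup) (f := AddMonoidHom.mulLeft ((l : Fx τ) : K) -
      (AddMonoidHom.mulLeft z).comp τ.toRingHom.toAddMonoidHom) (fun r m hm => by
      have := N.sub_mem (N.smul_mem l
        (fx_mul_mem (h.tr_mem r) (r.2.add (int_map τ r.2)) (sub _ hm)))
        (two _ (int_mul_mem (int_map τ r.isIntegral_coe) (subset_span (g.sY m hm))))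
      change ((l : Fx τ) : K) * ((r : K) * m) - z * τ ((r : K) * m) ∈ N
      convert this using 1
      rw [smul_eq, map_mul]
      have := h.θ0
      field_simp
      ring) hw
  have le : N ≤ sharp θ z (l : Fx τ) (span (𝓞 K) (M : Set K)) := span_le.2 fun m hm =>
    ⟨subset_span hm, _, add_mem (subset_span (g.sY m hm)) (subset_span (g.sY m hm)), by
      have := h.θ0
      field_simp
      ring⟩
  refine Finset.mem_biUnion.2 ⟨N, k2 N (Submodule.smul_le.2 fun r hr v hv => ?_) le,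
    hT' N (f.of_le le) M (fun x hx => ?_) sub⟩
  · obtain ⟨α, β, rfl⟩ := Ideal.mem_span_pair.1 hr
    obtain ⟨hv, w, hw, e⟩ := hv
    rw [add_smul, mul_smul, mul_smul β]
    refine add_mem (N.smul_mem _ ?_) (N.smul_mem _ ?_)
    · convert two _ (int_mul_mem (IsIntegral.add h.iθ h.iθ) hv) using 1
      change 4 * ((t : Fx τ) : K) * v = _
      rw [ht]
      ring
    · convert N.add_mem (N.add_mem (dif v hv) (dif v hv)) (two w hw) using 1
      change 4 * ((l : Fx τ) : K) * v = _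
      linear_combination 2 * e
  · refine span_ind (N := M.toAddSubgroup) (f := AddMonoidHom.mulLeft (c : K)) (fun r m hm => ?_) hx
    have k : ∀ p ∈ Algebra.adjoin ℤ {(⟨a, ha⟩ : Fx τ)}, ∀ m ∈ M, (p : K) * m ∈ M := fun p hp => by
      induction hp using Algebra.adjoin_induction with
      | mem x hx => exact hx ▸ g.sa
      | algebraMap r => exact fun m hm => by simpa using M.smul_mem r hm
      | add x y _ _ hx hy => exact fun m hm => by simpa [add_mul] using add_mem (hx m hm) (hy m hm)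
      | mul x y _ _ hx hy => exact fun m hm => by simpa [mul_assoc] using hx _ (hy m hm)
    have := k _ (hc r r.2) m hm
    rwa [IntermediateField.coe_mul, mul_assoc] at this

theorem Cfg.map {M : Submodule ℤ K} {l : K} (g : Cfg τ a θ M l z) (hτ : ∀ x, τ (τ x) = x) {u : K}
    (hu : u ≠ 0) : Cfg τ a θ (M.map (LinearMap.mulLeft ℤ u)) l (z * u / τ u) := by
  have hu' : τ u ≠ 0 := (map_ne_zero τ).2 hu
  obtain ⟨m, hm, m0⟩ := (Submodule.ne_bot_iff M).1 g.ne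
  refine ⟨g.fg.map _, (Submodule.ne_bot_iff _).2 ⟨_, ⟨m, hm, rfl⟩, mul_ne_zero hu m0⟩, ?_, ?_, g.τl,
    ?_, div_ne_zero (mul_ne_zero g.z0 hu) hu', ?_⟩
  · rintro _ ⟨m, hm, rfl⟩
    exact ⟨_, g.sa m hm, mul_left_comm u a m⟩
  · rintro _ ⟨m, hm, rfl⟩
    exact ⟨_, g.sθ m hm, mul_left_comm u θ m⟩
  · rw [← g.nz, map_div₀, map_mul, hτ]
    field_simp
  · rintro _ ⟨m, hm, rfl⟩
    refine ⟨_, g.sY m hm, ?_⟩
    simp only [LinearMap.mulLeft_apply, map_mul]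
    field_simp

theorem Cfg.good {M : Submodule ℤ K} {l : K} (g : Cfg τ a θ M l z) (h : Quad K σ s τ a θ) :
    Good τ z (span (𝓞 K) (M : Set K)) := by
  obtain ⟨S, hS⟩ := g.fg
  obtain ⟨m, hm, m0⟩ := (Submodule.ne_bot_iff M).1 g.ne
  refine ⟨⟨S, by rw [← hS, span_span_of_tower]⟩, (Submodule.ne_bot_iff _).2 ⟨m, subset_span hm, m0⟩,
    fun w hw => span_ind (N := (span (𝓞 K) (M : Set K)).toAddSubgroup)
      (f := (AddMonoidHom.mulLeft z).comp τ.toRingHom.toAddMonoidHom) (fun r m hm => ?_) hw⟩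
  change z * τ ((r : K) * m) ∈ span (𝓞 K) (M : Set K)
  rw [map_mul, mul_left_comm]
  exact int_mul_mem (int_map τ r.2) (subset_span (g.sz h m hm))

theorem span_map (M : Submodule ℤ K) (u : K) : span (𝓞 K) (M.map (LinearMap.mulLeft ℤ u) : Set K) =
    span (𝓞 K) {u} * span (𝓞 K) (M : Set K) := by
  rw [span_mul_span, Set.singleton_mul]
  rfl

theorem nd_le {ε C W : ℝ} (hε : 0 < ε) (hC : 0 < C) (hW : 1 ≤ W)
    (hD : ∀ (K : Type) [Field K] [NumberField K], Module.finrank ℚ K ≤ n → ∀ q : Ideal (𝓞 K), q ≠ ⊥ →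
      Finite {I : Ideal (𝓞 K) // q ≤ I} ∧ (ndiv q : ℝ) ≤ C * (Ideal.absNorm q : ℝ) ^ ε)
    (E : Type) [Field E] [NumberField E] [IsTotallyReal E] (hE : Module.finrank ℚ E ≤ n)
    {q : Ideal (𝓞 E)} {x : 𝓞 E} (hx : x ∈ q) (x0 : x ≠ 0) (b : ∀ ψ : E →+* ℝ, |ψ x| ≤ W) :
    (ndiv q : ℝ) ≤ C * (W ^ n) ^ ε := by
  refine (hD E hE q ((Submodule.ne_bot_iff _).2 ⟨x, hx, x0⟩)).2.trans ?_
  have e : Ideal.absNorm q ≤ Ideal.absNorm (Ideal.span {x}) := Nat.le_of_dvd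
    (Nat.pos_of_ne_zero (by simpa [Ideal.absNorm_eq_zero_iff] using x0))
    (Ideal.absNorm_dvd_absNorm_of_le ((Ideal.span_singleton_le_iff_mem _).2 hx))
  gcongr
  exact (Nat.cast_le.2 e).trans ((norm_span_le x b).trans (pow_le_pow_right₀ hW hE))

theorem perL (hD : SDiv) (hS : SSmall) (hO : SOne) (hT : STwo) (hI : SInt) (hB : SBal) (hG : SGen)
    (n : ℕ) : PerL n := by
  classical
  obtain ⟨Cs, Cs0, hS⟩ := hS n
  obtain ⟨Cb, Cb1, hB⟩ := hB n
  refine ⟨2 * n ^ 2 + n ^ 2 * n ^ 2, fun ε hε => ?_⟩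
  have n1 : (0 : ℝ) < n + 1 := by positivity
  obtain ⟨Cd, Cd0, hD⟩ := hD n (ε / (16 * (n + 1))) (by positivity)
  refine ⟨(Cd ^ 4 * 5 ^ ε * Cs + 1) * Cb ^ 2 * 2 ^ (2 * n ^ 2 + n ^ 2 * n ^ 2),
    one_le_mul_of_one_le_of_one_le (one_le_mul_of_one_le_of_one_le
      (le_add_of_nonneg_left (by positivity)) (one_le_pow₀ Cb1)) (one_le_pow₀ one_le_two),
    fun K _ _ σ s τ a θ hn h A Θ A1 Θ1 ba bθ t l ht bl => ?_⟩
  by_cases ex : ∃ M z, Cfg τ a θ M (l : Fx τ) z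
  swap
  · exact ⟨∅, by rw [Finset.card_empty, Nat.cast_zero]; positivity,
      fun M z g => absurd ⟨M, z, g⟩ ex⟩
  obtain ⟨M₀, z₀, g₀⟩ := ex
  have := real_of_ord σ hn
  have dn : Module.finrank ℚ (Fx τ) ≤ n := by
    have := Module.finrank_mul_finrank ℚ (Fx τ) K
    rw [h.finrank_two] at this
    omega
  have all : ∀ {P : (Fx τ →+* ℝ) → Prop}, (∀ j, P (rs σ τ j)) → ∀ ψ, P ψ := fun k ψ => by
    obtain ⟨j, rfl⟩ := rs_surj (σ := σ) hn ψ
    exact k j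
  have all' : ∀ {P : (K →+* ℝ) → Prop}, (∀ j, P (σ j)) → ∀ ψ, P ψ := fun k ψ =>
    σ.apply_symm_apply ψ ▸ k _
  have A2 : 1 ≤ 2 * A := by linarith
  obtain ⟨d1, c, c0, c1, hc⟩ := hG (Fx τ) ⟨a, h.τa hn⟩
    ((isIntegral_algebraMap_iff (algebraMap (Fx τ) K).injective).1 h.ia) (h.a_inj hn) A A1 (all ba)
  have p1 : (2 * A) ^ (Module.finrank ℚ (Fx τ) ^ 2) ≤ (2 * A) ^ (n ^ 2) :=
    pow_le_pow_right₀ A2 (Nat.pow_le_pow_left dn 2)
  have b1 : Cb * |(discr (Fx τ) : ℝ)| ≤ Cb * (2 * A) ^ (n ^ 2) := by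
    gcongr
    exact d1.trans p1
  obtain ⟨TI, i1, i2⟩ := hS (Fx τ) dn (Cb * (2 * A) ^ (n ^ 2))
    (one_le_mul_of_one_le_of_one_le Cb1 (one_le_pow₀ A2))
  have iν : IsIntegral ℤ (((l : Fx τ) : K) ^ 2 - 4 * θ ^ 4) :=
    ((int_oF l).pow 2).sub (by simpa using (h.iθ.pow 4).nsmul 4)
  obtain ⟨TJ, j1, j2⟩ := jfin hO h.inv h.τθ h.θ0 h.iθ g₀.z0 (oK iν) g₀.nz.symm TI
  choose TM m1 m2 using mfin (z := z₀) hT hI h (h.τa hn) t l ht c0 hc
  refine ⟨(TJ.biUnion TM).image fun M => (M, ((l : Fx τ) : K), z₀), ?_, fun M z g ω ω0 ωs => ?_⟩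
  · have W1 : 1 ≤ 5 * Θ ^ 4 := by linarith [one_le_pow₀ (n := 4) Θ1]
    have Θ2 : Θ ^ 2 ≤ Θ ^ 4 := pow_le_pow_right₀ Θ1 (by norm_num)
    have Θ3 : Θ ≤ Θ ^ 4 := le_self_pow₀ Θ1 (by norm_num)
    have sq : ∀ j, σ j θ ^ 2 ≤ Θ ^ 2 := fun j => by
      rw [← sq_abs]
      exact pow_le_pow_left₀ (abs_nonneg _) (bθ j) 2
    have n1 := nd_le (by positivity) Cd0 W1 hD K hn.le (Ideal.mem_span_singleton_self (oK iν))
      (fun e => mul_ne_zero g₀.z0 ((map_ne_zero τ).2 g₀.z0)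
        (g₀.nz.trans (congrArg (fun x : 𝓞 K => (x : K)) e))) (all' fun j => by
        change |σ j (((l : Fx τ) : K) ^ 2 - 4 * θ ^ 4)| ≤ _
        have e := bl j
        have e' : |σ j ((l : Fx τ) - 2 * θ ^ 2) + 4 * σ j θ ^ 2| ≤ 5 * Θ ^ 2 :=
          (abs_add_le _ _).trans (by rw [abs_of_nonneg (a := 4 * _) (by positivity)]; linarith [sq j])
        refine le_of_eq_of_le ?_ ((mul_le_mul e e' (abs_nonneg _) (by positivity)).trans_eq (by ring))
        rw [← abs_mul]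
        simp only [map_sub, map_mul, map_pow, map_ofNat]
        congr 1
        ring)
    have n2 := nd_le (by positivity) Cd0 W1 hD K hn.le (Ideal.mem_span_singleton_self (2 * oK h.iθ))
      (fun e => mul_ne_zero two_ne_zero h.θ0 (congrArg (fun x : 𝓞 K => (x : K)) e)) (all' fun j => by
        change |σ j (2 * θ)| ≤ _
        rw [map_mul, map_ofNat, abs_mul, abs_two]
        linarith [bθ j])
    have n3 := nd_le (by positivity) Cd0 W1 hD (Fx τ) dn (q := Ideal.span {4 * t, 4 * l}) (x := 4 * t)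
      (Ideal.subset_span (by simp)) (mul_ne_zero (by norm_num) fun e =>
        pow_ne_zero 2 h.θ0 (by rw [← ht, e]; rfl)) (all fun j => by
        change |σ j (4 * ((t : Fx τ) : K))| ≤ _
        rw [ht, map_mul, map_ofNat, map_pow, abs_of_nonneg (by positivity)]
        linarith [sq j])
    have n4 : ((5 * Θ ^ 4) ^ n) ^ (ε / (16 * (n + 1))) ≤ (5 ^ ε * Θ ^ ε) ^ (1 / 4 : ℝ) := by
      rw [← Real.rpow_natCast (5 * Θ ^ 4), ← Real.rpow_mul (by positivity)]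
      refine (Real.rpow_le_rpow_of_exponent_le W1 (z := ε / 16) ?_).trans ?_
      · rw [mul_div_assoc', div_le_div_iff₀ (by positivity) (by norm_num)]
        nlinarith
      · rw [← Real.mul_rpow (by norm_num) (by positivity), ← Real.rpow_mul (by positivity),
          show ε * (1 / 4) = (4 : ℕ) * (ε / 16) by push_cast; ring, Real.rpow_mul (by positivity),
          Real.rpow_natCast]
        gcongr
        nlinarith [pow_pos (zero_lt_one.trans_le Θ1) 4]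
    set Q := (5 ^ ε * Θ ^ ε) ^ (1 / 4 : ℝ)
    have Q4 : Q ^ 4 = 5 ^ ε * Θ ^ ε := by
      rw [← Real.rpow_natCast, ← Real.rpow_mul (by positivity)]
      norm_num
    have k : ((TJ.biUnion TM).card : ℝ) ≤ _ := Nat.cast_le.2
      ((Finset.card_biUnion_le_card_mul _ _ _ fun J _ => m1 J).trans (Nat.mul_le_mul_right _ j1))
    refine (Nat.cast_le.2 Finset.card_image_le).trans (k.trans ?_)
    push_cast
    rw [hn]
    calc _ ≤ Cd * Q * (Cs * (Cb * (2 * A) ^ (n ^ 2)) ^ 2 * (Cd * Q)) * ((Cd * Q) ^ 2 *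
          Ideal.absNorm (Ideal.span {4 * t, 4 * l}) * ((2 * A) ^ (n ^ 2)) ^ (n ^ 2)) := by
          gcongr
          exacts [n1.trans (by gcongr), n2.trans (by gcongr), n3.trans (by gcongr), c1.trans p1]
      _ = (Cd ^ 4 * 5 ^ ε * Cs) * Cb ^ 2 * 2 ^ (2 * n ^ 2 + n ^ 2 * n ^ 2) *
          A ^ (2 * n ^ 2 + n ^ 2 * n ^ 2) * Θ ^ ε * Ideal.absNorm (Ideal.span {4 * t, 4 * l}) := by
          rw [← pow_mul, mul_assoc _ (2 ^ _), ← mul_pow, pow_add]
          linear_combination Cd ^ 4 * Cs * Cb ^ 2 * (2 * A) ^ (2 * n ^ 2) * (2 * A) ^ (n ^ 2 * n ^ 2) *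
            Ideal.absNorm (Ideal.span {4 * t, 4 * l}) * Q4
      _ ≤ _ := by gcongr; linarith
  obtain ⟨u, u0, e⟩ := hilbert' h.inv h.τθ h.θ0 g.z0 (g.nz.trans g₀.nz.symm)
  have g1 := e ▸ g.map h.inv u0
  obtain ⟨L, L1, L2, L3⟩ := j2 _ (g1.good h)
  choose ρ hρ using rs_surj (σ := σ) (τ := τ) hn
  have pos : ∀ {x : K}, x ≠ 0 → ∀ j, 0 < |σ j x| := fun k j => abs_pos.2 ((map_ne_zero _).2 k)
  have uu : u * τ u ≠ 0 := mul_ne_zero u0 ((map_ne_zero τ).2 u0)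
  obtain ⟨φ, -, φ0, ⟨I, I0, I1, I2⟩, bal⟩ := hB (Fx τ) dn L L1 L2
    (fun ψ => √(ω (ρ ψ) / |σ (ρ ψ) (u * τ u)|)) fun ψ => Real.sqrt_pos.2 (div_pos (ω0 _) (pos uu _))
  have φ1 : (φ : K) ≠ 0 := by simpa using φ0
  have mm : M.map (LinearMap.mulLeft ℤ ((φ : K)⁻¹ * u)) =
      (M.map (LinearMap.mulLeft ℤ u)).map (LinearMap.mulLeft ℤ (φ : K)⁻¹) := by
    rw [← map_comp, LinearMap.mulLeft_mul]
  have zz : z₀ * (φ : K)⁻¹ / τ (φ : K)⁻¹ = z₀ := by
    rw [map_inv₀, Fx_fix, mul_div_cancel_right₀ _ (inv_ne_zero φ1)]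
  refine ⟨(φ : K)⁻¹ * u, mul_ne_zero (inv_ne_zero φ1) u0, Finset.mem_image.2 ⟨_, Finset.mem_biUnion.2
    ⟨_, L3 φ φ0 I (i2 I I0 (I1.trans b1)) I0 I2, m2 _ _ (zz ▸ g1.map h.inv (inv_ne_zero φ1))
      (span_map _ _)⟩, ?_⟩, fun j k => ?_⟩
  · rw [mm, ← e, map_mul, map_inv₀, Fx_fix, mul_left_comm, mul_div_mul_left _ _ (inv_ne_zero φ1)]
  have ev : ∀ j, ω j / |σ j ((φ : K)⁻¹ * u * τ ((φ : K)⁻¹ * u))| =
      (|rs σ τ j φ| * √(ω (ρ (rs σ τ j)) / |σ (ρ (rs σ τ j)) (u * τ u)|)) ^ 2 := fun j => by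
    have a1 : ω (ρ (rs σ τ j)) / |σ (ρ (rs σ τ j)) (u * τ u)| = ω j / |σ j (u * τ u)| := by
      rcases (h.rs_eq hn).1 (hρ (rs σ τ j)) with e | e
      · rw [e]
      · rw [e, ωs, h.emb, map_mul, h.inv, mul_comm]
    have a2 := (pos φ1 j).ne'
    have a3 := (pos uu j).ne'
    rw [a1, mul_pow, Real.sq_sqrt (div_pos (ω0 _) (pos uu _)).le, map_mul τ, map_inv₀, Fx_fix,
      mul_mul_mul_comm, map_mul, map_mul, map_inv₀, abs_mul, abs_mul, abs_inv, rs_apply]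
    field_simp
  rw [ev, ev]
  refine (pow_le_pow_left₀ (by positivity) (bal _ (rs σ τ k)) 2).trans ?_
  rw [mul_pow]
  gcongr
  calc _ ≤ (Cb * (2 * A) ^ (n ^ 2)) ^ 2 := by gcongr
    _ = 1 * Cb ^ 2 * (2 * A) ^ (2 * n ^ 2) := by ring
    _ ≤ (Cd ^ 4 * 5 ^ ε * Cs + 1) * Cb ^ 2 * (2 * A) ^ (2 * n ^ 2 + n ^ 2 * n ^ 2) := by
      gcongr
      · exact le_add_of_nonneg_left (by positivity)
      · omega
    _ = _ := by rw [mul_pow]; ring

end Vale.Agent.P007X
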