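import Vale.Agent.P007X.LinB

/-!
# Pairs of close points of the packet and configurations
-/

set_option linter.all false

noncomputable section

open Matrix NumberField

namespace Vale.Agent.P007X

open Vale.Agent.P007 Vale.Agent.P007.R Vale.Agent.P007.Fib Vale.Agent.P007.N Vale.Agent.P007M

variable {n : ℕ} {D : Datum n} {a θ : Fin n → ℝ} {s : Fin n → Fin n} {τ : D.K ≃+* D.K}

theorem cm_iff {P : Matrix (Fin n) (Fin n) ℝ} :
    Commute P (diagonal a) ↔ ∀ p q, a p ≠ a q → P p q = 0 := by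
  rw [commute_iff_eq, ← Matrix.ext_iff]
  simp only [mul_diagonal, diagonal_mul]
  refine forall₂_congr fun p q => ⟨fun h e => ?_, fun h => ?_⟩
  · rw [mul_comm] at h
    exact (mul_eq_mul_right_iff.1 h).resolve_left e.symm
  · by_cases e : a p = a q
    · rw [e, mul_comm]
    · simp [h e]

theorem cm_inv {h : G n} {Q : Matrix (Fin n) (Fin n) ℝ} (e : Commute h.1 Q) :
    Commute (h⁻¹).1 Q := by
  have : (h⁻¹).1 * Q = (h⁻¹).1 * (Q * h.1) * (h⁻¹).1 := by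
    rw [mul_assoc, mul_assoc, coe_mul_inv, mul_one]
  rw [commute_iff_eq, this, ← e.eq, ← mul_assoc, coe_inv_mul, one_mul]

theorem one_le_prod {g g' : G n} {d : Fin n → ℝ} (h : ∀ w ∈ latS g, d * w ∈ latS g')
    (h0 : ∀ j, d j ≠ 0) : 1 ≤ ∏ j, |d j| := by
  obtain ⟨P, hP⟩ := exists_int_mul (M := g.1 * diagonal d) (N := g'.1) fun i => by
    have := h _ (row_mem_latM g.1 i)
    rwa [show d * g.1 i = (g.1 * diagonal d) i from funext fun j => by
      rw [mul_diagonal, mul_comm]; rfl] at this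
  have h1 := congrArg det hP
  rw [det_mul, det_mul, g.2, g'.2, one_mul, mul_one, det_diagonal, castM, ← Int.cast_det] at h1
  rw [← Finset.abs_prod, h1, ← Int.cast_abs, ← Int.cast_one, Int.cast_le]
  refine Int.one_le_abs fun e => Finset.prod_ne_zero_iff.2 (fun j _ => h0 j) (h1.trans ?_)
  rw [e, Int.cast_zero]

theorem one_le_mul_pow {x : Fin n → ℝ} {c : ℝ} (hx : ∀ j, |x j| ≤ c) (hc : 1 ≤ c)
    (hp : 1 ≤ ∏ j, |x j|) (j : Fin n) : 1 ≤ |x j| * c ^ n := by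
  rw [← Finset.mul_prod_erase _ _ (Finset.mem_univ j)] at hp
  refine hp.trans (mul_le_mul_of_nonneg_left ((Finset.prod_le_prod (fun _ _ => abs_nonneg _)
    fun k _ => hx k).trans ?_) (abs_nonneg _))
  rw [Finset.prod_const]
  exact pow_le_pow_right₀ hc (card_finset_fin_le _)

theorem abs_conj {P Q : Matrix (Fin n) (Fin n) ℝ} {d : Fin n → ℝ} {B E : ℝ} (hP : ∀ p q, |P p q| ≤ B)
    (hQ : ∀ p q, |Q p q| ≤ B) (hd : ∀ j, |d j| ≤ E) (p q : Fin n) :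
    |(P * diagonal d * Q) p q| ≤ n * (B * E * B) := by
  have hB := (abs_nonneg _).trans (hP p q)
  have hE := (abs_nonneg _).trans (hd p)
  rw [mul_apply]
  refine (Finset.abs_sum_le_sum_abs _ _).trans ((Finset.sum_le_card_nsmul _ _ (B * E * B)
    fun k _ => ?_).trans (by simp))
  rw [mul_diagonal, abs_mul, abs_mul]
  gcongr
  exacts [hP _ _, hd _, hQ _ _]

theorem mem_mul {g h : G n} {y : Fin n → ℝ} :
    y ∈ latS (g * h) ↔ ∃ y₀ ∈ latS g, y₀ ᵥ* h.1 = y := by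
  rw [mem_latS, Stab.lat_mul]
  rfl

theorem vm_diag (w d : Fin n → ℝ) : w ᵥ* diagonal d = d * w :=
  funext fun j => (vecMul_diagonal _ _ _).trans (mul_comm _ _)

theorem lat_diag {g₁ g₂ h₁ h₂ : G n} {d e : Fin n → ℝ} (hd : latS g₂ = vmul d (latS g₁))
    (he : diagonal d * h₂.1 = h₁.1 * diagonal e) : latS (g₂ * h₂) = vmul e (latS (g₁ * h₁)) := by
  have key : ∀ w : Fin n → ℝ, (d * w) ᵥ* h₂.1 = e * (w ᵥ* h₁.1) := fun w => by
    rw [← vm_diag, ← vm_diag, vecMul_vecMul, vecMul_vecMul, he]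
  ext y
  simp only [mem_mul, hd, mem_vmul]
  constructor
  · rintro ⟨_, ⟨w, hw, rfl⟩, rfl⟩
    exact ⟨_, ⟨w, hw, rfl⟩, key w⟩
  · rintro ⟨_, ⟨w, hw, rfl⟩, rfl⟩
    exact ⟨_, ⟨w, hw, rfl⟩, key w⟩

theorem sees_of {g g' : G n} {d u : Fin n → ℝ} {E R : ℝ} (hd : latS g' = vmul d (latS g))
    (h0 : ∀ j, d j ≠ 0 ∧ |d j| ≤ E) (hu : u ∈ latS g) (u0 : u ≠ 0) (u2 : ∀ j, |u j| ≤ 2)
    (hR : 2 * E < R) : Sees R (pt g') (vmul u⁻¹ (latS g)) := by
  refine ⟨⟨d * u, by rw [N.latx_pt, hd]; exact mem_vmul.2 ⟨u, hu, rfl⟩, fun e => u0 (funext fun j =>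
    (mul_eq_zero.1 (congrFun e j)).resolve_left (h0 j).1)⟩, fun j => ?_, ?_⟩
  · change |d j * u j| < R
    rw [abs_mul, mul_comm]
    exact (mul_le_mul (u2 j) (h0 j).2 (abs_nonneg _) two_pos.le).trans_lt hR
  · change vmul (d * u)⁻¹ _ = _
    rw [Lx_pt, hd, vmul_vmul, mul_inv_rev', mul_right_comm, mul_comm d⁻¹,
      mul_inv_vec fun j => (h0 j).1, one_mul]

/-- the matrix of `θ` at the second point -/
def Yo (θ : Fin n → ℝ) (h : G n) : Matrix (Fin n) (Fin n) ℝ := h.1 * diagonal θ * (h⁻¹).1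

theorem Yo_mul (h : G n) : Yo θ h * h.1 = h.1 * diagonal θ := by
  rw [Yo, mul_assoc, coe_inv_mul, mul_one]

theorem Yo_cm {h : G n} (e : Commute h.1 (diagonal a)) : Commute (Yo θ h) (diagonal a) :=
  (e.mul_left (commute_diagonal _ _)).mul_left (cm_inv e)

theorem Two.sum (hT : Two D a s τ) {f : Fin n → ℝ} (j : Fin n) (h : ∀ k, a k ≠ a j → f k = 0) :
    ∑ k, f k = f j + f (s j) :=
  Fintype.sum_eq_add _ _ (hT.ne j).symm fun k hk => h k fun e => ((hT.fib j k).1 e).elim hk.1 hk.2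

theorem Two.as (hT : Two D a s τ) (j : Fin n) : a (s j) = a j := (hT.fib j _).2 (.inr rfl)

theorem Two.mul (hT : Two D a s τ) {P : Matrix (Fin n) (Fin n) ℝ} (e : Commute P (diagonal a))
    (Q : Matrix (Fin n) (Fin n) ℝ) (j k : Fin n) :
    (P * Q) j k = P j j * Q j k + P j (s j) * Q (s j) k :=
  hT.sum j fun l hl => mul_eq_zero_of_left (cm_iff.1 e j l hl.symm) _

theorem Two.diag (hT : Two D a s τ) (hθ : ∀ j, θ (s j) = -θ j) (θ0 : ∀ j, θ j ≠ 0)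
    {P : Matrix (Fin n) (Fin n) ℝ} (e : Commute P (diagonal a)) (e' : Commute P (diagonal θ)) :
    P = diagonal fun j => P j j := by
  ext p q
  rcases eq_or_ne p q with rfl | c
  · rw [diagonal_apply_eq]
  rw [diagonal_apply_ne _ c]
  by_cases h : a q = a p
  · obtain rfl : q = s p := ((hT.fib p q).1 h).resolve_left c.symm
    exact cm_iff.1 e' _ _ fun h' => θ0 p (by rw [hθ] at h'; linarith)
  · exact cm_iff.1 e _ _ (Ne.symm h)

theorem Two.Yo (hT : Two D a s τ) (hθ : ∀ j, θ (s j) = -θ j) {h : G n}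
    (e : Commute h.1 (diagonal a)) (j : Fin n) :
    Yo θ h j j = θ j * (1 - 2 * (h.1 j (s j) * (h⁻¹).1 (s j) j)) ∧
      h.1 j (s j) * (h⁻¹).1 (s j) j = h.1 (s j) j * (h⁻¹).1 j (s j) ∧
      Yo θ h j j ^ 2 + Yo θ h j (s j) * Yo θ h (s j) j = θ j ^ 2 := by
  have e1 := fun p q => hT.mul (e.mul_left (commute_diagonal θ a)) (h⁻¹).1 p q
  have e2 := fun p q => (hT.mul e (h⁻¹).1 p q).symm.trans (congrFun₂ (coe_mul_inv h) p q)
  have e3 := fun p q => (hT.mul (cm_inv e) h.1 p q).symm.trans (congrFun₂ (coe_inv_mul h) p q)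
  have a1 := e2 j j
  have b1 := e3 j j
  have b2 := e3 j (s j)
  have b3 := e3 (s j) j
  have b4 := e3 (s j) (s j)
  rw [one_apply_eq] at a1 b1 b4
  rw [one_apply_ne (hT.ne j).symm] at b2
  rw [one_apply_ne (hT.ne j)] at b3
  simp only [P007X.Yo, e1, mul_diagonal, hT.ss, hθ] at *
  refine ⟨by linear_combination θ j * a1, by linear_combination a1 - b1, ?_⟩
  linear_combination θ j ^ 2 * (a1 + h.1 j j * (h⁻¹).1 j j * b1 + h.1 j (s j) * (h⁻¹).1 (s j) j * b4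
    - h.1 j j * (h⁻¹).1 (s j) j * b2 - h.1 j (s j) * (h⁻¹).1 j j * b3)

/-- The pair `(g, g h)` gives a configuration. -/
theorem exists_cfg (hT : Two D a s τ) {a₀ θ₀ : D.K} (ha : sE D a₀ ∈ RE D) (hθ : sE D θ₀ ∈ RE D)
    (τθ : τ θ₀ = -θ₀) (θ0 : θ₀ ≠ 0) {g h : G n} (e : Commute h.1 (diagonal a))
    (i₁ : Inv (RE D) (latS g)) (i₂ : Inv (RE D) (latS (g * h))) :
    ∃ (v : Fin n → ℝ) (M : Submodule ℤ D.K) (l z : D.K), (∀ j, v j ≠ 0) ∧
      latS g = vmul v (sL D M) ∧ (∀ j, D.σ j l = 2 * D.σ j θ₀ * Yo (sE D θ₀) h j j) ∧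
      (∀ j, D.σ j z * v j = 2 * D.σ j θ₀ * Yo (sE D θ₀) h (s j) j * v (s j)) ∧
      (z ≠ 0 → Cfg τ a₀ θ₀ M l z) := by
  obtain ⟨v, I, hv, hL⟩ := exists_of_inv D i₁
  set M := D.zmod (I : FractionalIdeal (nonZeroDivisors D.O) D.K) with hM
  set Y := Yo (sE D θ₀) h with hY
  have mem : ∀ m, m ∈ M ↔ v * sE D m ∈ latS g := fun m => by
    rw [hL, mem_vmul]
    refine ⟨fun hm => ⟨_, (mem_sL D).2 ⟨m, hm, rfl⟩, rfl⟩, ?_⟩
    rintro ⟨x, hx, e⟩
    obtain ⟨m', hm', rfl⟩ := (mem_sL D).1 hx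
    rwa [sE_injective D (funext fun j => mul_left_cancel₀ (hv j) (congrFun e j) : sE D m = sE D m')]
  have st : ∀ c, sE D c ∈ RE D → ∀ m ∈ M, c * m ∈ M := fun c hc m hm => by
    rw [mem, map_mul, mul_left_comm]
    exact i₁.1 _ hc _ ((mem m).1 hm)
  have hs : ∀ j, D.σ (s j) θ₀ = -D.σ j θ₀ := fun j => by rw [hT.emb, τθ, map_neg]
  have key : ∀ m ∈ M, ∃ m' ∈ M, ∀ j,
      v j * D.σ j m' = v j * D.σ j m * Y j j + v (s j) * D.σ j (τ m) * Y (s j) j := fun m hm => by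
    obtain ⟨w, hw, e1⟩ := mem_mul.1 (i₂.1 _ hθ _ (mem_mul.2 ⟨_, (mem m).1 hm, rfl⟩))
    have e2 : w = (v * sE D m) ᵥ* Y := by
      rw [hY, Yo, ← vecMul_vecMul, ← vecMul_vecMul, vm_diag, ← e1, vecMul_vecMul, coe_mul_inv,
        vecMul_one]
    rw [hL] at hw
    obtain ⟨x, hx, rfl⟩ := mem_vmul.1 hw
    obtain ⟨m', hm', rfl⟩ := (mem_sL D).1 hx
    refine ⟨m', hm', fun j => (congrFun e2 j).trans ?_⟩
    rw [← hT.emb]
    exact hT.sum j fun k hk => mul_eq_zero_of_right _ (cm_iff.1 (Yo_cm e) k j hk)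
  have ne : M ≠ ⊥ := fun c => I.ne_zero (FractionalIdeal.coeToSubmodule_eq_bot.1
    ((Submodule.restrictScalars_eq_bot_iff _ _ _).1 c))
  obtain ⟨m₀, hm₀, m0⟩ := Submodule.exists_mem_ne_zero_of_ne_bot ne
  obtain ⟨m₁, -, k₁⟩ := key m₀ hm₀
  obtain ⟨m₂, -, k₂⟩ := key _ (st _ hθ _ hm₀)
  have hl : ∀ j, D.σ j ((θ₀ * m₁ + m₂) / m₀) = 2 * D.σ j θ₀ * Y j j := fun j => by
    rw [map_div₀, div_eq_iff ((map_ne_zero _).2 m0), map_add, map_mul]
    refine mul_left_cancel₀ (hv j) ?_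
    have := k₂ j
    simp only [map_mul, τθ, map_neg] at this
    linear_combination D.σ j θ₀ * k₁ j + this
  have hz : ∀ j, D.σ j ((θ₀ * m₁ - m₂) / τ m₀) * v j = 2 * D.σ j θ₀ * Y (s j) j * v (s j) :=
    fun j => by
      rw [map_div₀, div_mul_eq_mul_div, div_eq_iff ((map_ne_zero _).2 ((map_ne_zero _).2 m0)),
        map_sub, map_mul]
      have := k₂ j
      simp only [map_mul, τθ, map_neg] at this
      linear_combination D.σ j θ₀ * k₁ j - this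
  refine ⟨v, M, _, _, hv, hL, hl, hz, fun z0 => ?_⟩
  let j : Fin n := ⟨0, D.pos⟩
  obtain ⟨y1, y2, y3⟩ := hT.Yo (θ := sE D θ₀) hs e j
  have y4 := (hT.Yo (θ := sE D θ₀) hs e (s j)).1
  rw [hT.ss, ← hY] at y4
  rw [← hY] at y1 y3
  simp only [sE_apply] at y1 y3 y4
  refine ⟨Module.Finite.iff_fg.1 (D.zmod_finite I), ne, st _ ha, st _ hθ, (D.σ j).injective ?_,
    (D.σ j).injective ?_, z0, fun m hm => ?_⟩
  · rw [← hT.emb, hl, hl, y1, y4, y2, hs]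
    ring
  · have h1 := hz (s j)
    rw [hT.ss, hs] at h1
    rw [map_mul, ← hT.emb, map_sub, map_pow, hl, map_mul, map_pow, map_ofNat]
    refine mul_left_cancel₀ (mul_ne_zero (hv j) (hv (s j))) ?_
    linear_combination (D.σ (s j) ((θ₀ * m₁ - m₂) / τ m₀) * v (s j)) * hz j +
      (2 * D.σ j θ₀ * Y (s j) j * v (s j)) * h1 - 4 * D.σ j θ₀ ^ 2 * v j * v (s j) * y3
  · obtain ⟨m', hm', k⟩ := key m hm
    convert hm' using 1
    rw [div_eq_iff (mul_ne_zero two_ne_zero θ0)]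
    refine (D.σ j).injective (mul_left_cancel₀ (hv j) ?_)
    rw [map_add, map_mul, map_mul, map_mul, map_mul, hl, map_ofNat]
    linear_combination D.σ j (τ m) * hz j - 2 * D.σ j θ₀ * k j

theorem Cfg.st {K : Type} [Field K] [CharZero K] {τ : K ≃+* K} {a θ l z : K} {M : Submodule ℤ K}
    (h : Cfg τ a θ M l z) (τθ : τ θ = -θ) (θ0 : θ ≠ 0) {m : K} (hm : m ∈ M) :
    z * τ z * m ∈ M := by
  have hl : ∀ m ∈ M, l * m ∈ M := fun m hm => by
    convert M.add_mem (h.sθ _ (h.sY m hm)) (h.sY _ (h.sθ m hm)) using 1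
    rw [map_mul, τθ]
    field_simp
    ring
  convert M.sub_mem (hl _ (hl m hm)) (M.smul_mem 4 (h.sθ _ (h.sθ _ (h.sθ _ (h.sθ m hm))))) using 1
  rw [h.nz, zsmul_eq_mul]
  push_cast
  ring

/-- the pair `(g, g h)` has the index `i` -/
structure Ix (D : Datum n) (s : Fin n → Fin n) (θ : Fin n → ℝ) (C : ℝ) (g h : G n)
    (i : Submodule ℤ D.K × D.K × D.K) (v : Fin n → ℝ) : Prop where
  v0 : ∀ j, v j ≠ 0
  lat : latS g = vmul v (sL D i.1)
  hl : ∀ j, D.σ j i.2.1 = 2 * θ j * Yo θ h j j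
  hz : ∀ j, D.σ j i.2.2 * v j = 2 * θ j * Yo θ h (s j) j * v (s j)
  bal : ∀ j k, |v j * v (s j)| ≤ C * |v k * v (s k)|
  nm : 1 ≤ ∏ j, |2 * θ j * Yo θ h (s j) j|

theorem exists_ix (hT : Two D a s τ) {a₀ θ₀ : D.K} (ha : sE D a₀ ∈ RE D) (hθ : sE D θ₀ ∈ RE D)
    (τθ : τ θ₀ = -θ₀) (θ0 : θ₀ ≠ 0) {C : ℝ} {b : Fin n → ℝ} {T : Finset (Submodule ℤ D.K × D.K × D.K)}
    (H : ∀ (M : Submodule ℤ D.K) (l z : D.K), Cfg τ a₀ θ₀ M l z →
      (∀ j, |D.σ j (l - 2 * θ₀ ^ 2)| ≤ b j) → ∀ ω : Fin n → ℝ, (∀ j, 0 < ω j) →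
      (∀ j, ω (s j) = ω j) → ∃ lam : D.K, lam ≠ 0 ∧
        (M.map (LinearMap.mulLeft ℤ lam), l, z * lam / τ lam) ∈ T ∧
        ∀ j k, ω j / |D.σ j (lam * τ lam)| ≤ C * (ω k / |D.σ k (lam * τ lam)|))
    {g h : G n} (e : Commute h.1 (diagonal a)) (i₁ : Inv (RE D) (latS g))
    (i₂ : Inv (RE D) (latS (g * h))) (hq : ∀ j, |h.1 j (s j) * (h⁻¹).1 (s j) j| ≤ 1 / 4)
    (hb : ∀ j, 4 * D.σ j θ₀ ^ 2 * |h.1 j (s j) * (h⁻¹).1 (s j) j| ≤ b j) :
    (h.1 = diagonal fun j => h.1 j j) ∨ ∃ i ∈ T, ∃ v, Ix D s (sE D θ₀) C g h i v := by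
  obtain ⟨v, M, l, z, hv, hL, hl, hz, hc⟩ := exists_cfg hT ha hθ τθ θ0 e i₁ i₂
  have hs : ∀ j, D.σ (s j) θ₀ = -D.σ j θ₀ := fun j => by rw [hT.emb, τθ, map_neg]
  have t0 : ∀ j, D.σ j θ₀ ≠ 0 := fun j => (map_ne_zero _).2 θ0
  have hY := hT.Yo (θ := sE D θ₀) hs e
  by_cases z0 : z = 0
  · refine .inl (hT.diag (θ := sE D θ₀) hs t0 e ?_)
    have h1 : ∀ j, Yo (sE D θ₀) h (s j) j = 0 := fun j => by
      have := hz j
      rw [z0, map_zero, zero_mul] at this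
      simpa [t0 j, hv (s j)] using this
    have h2 : Yo (sE D θ₀) h = diagonal (sE D θ₀) := by
      ext p q
      rcases eq_or_ne p q with rfl | c
      · obtain ⟨y1, -, y3⟩ := hY p
        rw [h1, mul_zero, add_zero, y1, mul_pow, mul_eq_left₀ (pow_ne_zero 2 (show sE D θ₀ p ≠ 0 from t0 p))] at y3
        have := abs_le.1 (hq p)
        rw [diagonal_apply_eq, y1, show h.1 p (s p) * (h⁻¹).1 (s p) p = 0 by nlinarith]
        ring
      rw [diagonal_apply_ne _ c]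
      by_cases h' : a p = a q
      · obtain rfl : p = s q := ((hT.fib q p).1 h').resolve_left c
        exact h1 q
      · exact cm_iff.1 (Yo_cm e) _ _ h'
    rw [commute_iff_eq, ← Yo_mul, h2]
  obtain ⟨lam, l0, hm, hbal⟩ := H M l z (hc z0) (fun j => by
    refine le_trans (le_of_eq ?_) (hb j)
    rw [map_sub, hl, (hY j).1, map_mul, map_pow, map_ofNat, sE_apply,
      ← abs_of_nonneg (show 0 ≤ 4 * D.σ j θ₀ ^ 2 by positivity), ← abs_mul, ← abs_neg]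
    congr 1
    ring) (fun j => |v j * v (s j)|) (fun j => abs_pos.2 (mul_ne_zero (hv _) (hv _)))
    fun j => by rw [hT.ss, mul_comm]
  have s0 : ∀ j, D.σ j lam ≠ 0 := fun j => (map_ne_zero _).2 l0
  refine .inr ⟨_, hm, fun j => v j / D.σ j lam, fun j => div_ne_zero (hv j) (s0 j), ?_, hl,
    fun j => ?_, fun j k => ?_, ?_⟩
  · have : sL D (M.map (LinearMap.mulLeft ℤ lam)) = vmul (sE D lam) (sL D M) := by
      simp only [sL, vmul, ← Submodule.map_comp]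
      congr 1
      ext x j
      simp
    rw [this, vmul_vmul, hL]
    congr 1
    exact funext fun j => (div_mul_cancel₀ _ (s0 j)).symm
  · have := s0 j
    have := s0 (s j)
    rw [map_div₀, map_mul, ← hT.emb, ← mul_div_assoc (_ * _), sE_apply, ← hz]
    field_simp
  · have := hbal j k
    simp only [map_mul, ← hT.emb, ← abs_div] at this
    rwa [div_mul_div_comm, div_mul_div_comm]
  · have h1 := one_le_prod (g := g) (g' := g) (d := sE D (z * τ z)) (fun w hw => by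
      rw [hL] at hw ⊢
      obtain ⟨x, hx, rfl⟩ := mem_vmul.1 hw
      obtain ⟨m, hm, rfl⟩ := (mem_sL D).1 hx
      exact mem_vmul.2 ⟨_, (mem_sL D).2 ⟨_, (hc z0).st τθ θ0 hm, rfl⟩, by
        rw [map_mul _ (_ * _), mul_left_comm]⟩)
      fun j => (map_ne_zero (D.σ j)).2 (mul_ne_zero z0 ((map_ne_zero _).2 z0))
    rw [← one_le_sq_iff₀ (by positivity), ← prod_sq hT.ss]
    refine h1.trans_eq (Finset.prod_congr rfl fun j _ => ?_)
    have h2 := hz (s j)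
    rw [hT.ss] at h2
    rw [← abs_mul, sE_apply, map_mul, ← hT.emb, hT.ss, sE_apply, sE_apply]
    congr 1
    refine mul_left_cancel₀ (mul_ne_zero (hv j) (hv (s j))) ?_
    linear_combination (D.σ (s j) z * v (s j)) * hz j +
      (2 * D.σ j θ₀ * Yo (sE D θ₀) h (s j) j * v (s j)) * h2

/-- Two pairs with the same index differ by bounded diagonal matrices. -/
theorem pair (hT : Two D a s τ) (hθ : ∀ j, θ (s j) = -θ j) (θ0 : ∀ j, θ j ≠ 0) {C B Z : ℝ}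
    (C1 : 1 ≤ C) (Z1 : 1 ≤ Z) {g₁ h₁ g₂ h₂ : G n} {i : Submodule ℤ D.K × D.K × D.K}
    {v₁ v₂ : Fin n → ℝ} (x₁ : Ix D s θ C g₁ h₁ i v₁) (x₂ : Ix D s θ C g₂ h₂ i v₂)
    (e₁ : Commute h₁.1 (diagonal a)) (e₂ : Commute h₂.1 (diagonal a))
    (b₁ : ∀ p q, |(h₁⁻¹).1 p q| ≤ B) (b₂ : ∀ p q, |h₂.1 p q| ≤ B)
    (z₁ : ∀ j, |2 * θ j * Yo θ h₁ (s j) j| ≤ Z) (z₂ : ∀ j, |2 * θ j * Yo θ h₂ (s j) j| ≤ Z) :
    ∃ d e : Fin n → ℝ, (∀ j, d j ≠ 0 ∧ |d j| ≤ C * Z ^ (n + 1)) ∧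
      (∀ j, e j ≠ 0 ∧ |e j| ≤ n * (B * (C * Z ^ (n + 1)) * B)) ∧ latS g₂ = vmul d (latS g₁) ∧
      latS (g₂ * h₂) = vmul e (latS (g₁ * h₁)) := by
  set d : Fin n → ℝ := v₂ * v₁⁻¹ with hd
  have d0 : ∀ j, d j ≠ 0 := fun j => mul_ne_zero (x₂.v0 j) (inv_ne_zero (x₁.v0 j))
  have dv : ∀ j, v₂ j = d j * v₁ j := fun j => (inv_mul_cancel_right₀ (x₁.v0 j) _).symm
  have hL : latS g₂ = vmul d (latS g₁) := by
    rw [x₁.lat, x₂.lat, vmul_vmul]
    congr 1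
    exact funext dv
  have h1 : ∀ j, d (s j) * (2 * θ j * Yo θ h₂ (s j) j) = d j * (2 * θ j * Yo θ h₁ (s j) j) :=
    fun j => mul_left_cancel₀ (x₁.v0 (s j)) (by
      have := x₂.hz j
      rw [dv, dv] at this
      linear_combination d j * x₁.hz j - this)
  obtain ⟨k, hk⟩ : ∃ k, |d k * d (s k)| ≤ 1 := by
    by_contra c
    push Not at c
    have h2 := one_le_prod (g := g₂) (g' := g₁) (d := d⁻¹) (fun w hw => by
      rw [hL] at hw
      obtain ⟨y, hy, rfl⟩ := mem_vmul.1 hw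
      rwa [← mul_assoc, mul_comm d⁻¹, mul_inv_vec d0, one_mul]) fun j => inv_ne_zero (d0 j)
    have h3 := Finset.prod_lt_prod_of_nonempty (s := Finset.univ) (fun _ _ => one_pos)
      (fun j _ => c j) ⟨⟨0, D.pos⟩, Finset.mem_univ _⟩
    simp only [abs_mul, prod_sq hT.ss fun j => |d j|, Finset.prod_const_one] at h3
    simp only [Pi.inv_apply, abs_inv, Finset.prod_inv_distrib] at h2
    have h4 := (one_le_inv_iff₀.1 h2)
    nlinarith [h4.1, h4.2]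
  have h2 : ∀ j, |d j * d (s j)| ≤ C ^ 2 := fun j => by
    have a1 := x₂.bal j k
    have a2 := x₁.bal k j
    have a3 := abs_pos.2 (mul_ne_zero (x₁.v0 j) (x₁.v0 (s j)))
    simp only [dv, mul_mul_mul_comm (d _) (v₁ _), abs_mul (_ * _)] at a1
    refine le_of_mul_le_mul_right (a1.trans ?_) a3
    rw [sq, mul_assoc]
    exact mul_le_mul_of_nonneg_left ((mul_le_of_le_one_left (abs_nonneg _) hk).trans a2) (by linarith)
  have h3 : ∀ j, |d j| ≤ C * Z ^ (n + 1) := fun j => by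
    have a1 := mul_le_mul_of_nonneg_left (one_le_mul_pow z₂ Z1 x₂.nm (s j)) (abs_nonneg (d j))
    have a2 := h1 (s j)
    rw [hT.ss] at a2 a1
    rw [mul_one, ← mul_assoc, ← abs_mul, a2, abs_mul] at a1
    have a3 := z₁ (s j)
    rw [hT.ss] at a3
    have a4 : |d j| ≤ |d (s j)| * Z ^ (n + 1) := a1.trans (by
      rw [pow_succ', ← mul_assoc]
      gcongr)
    have a5 : 1 ≤ Z ^ (n + 1) := one_le_pow₀ Z1
    have a6 := h2 j
    rw [abs_mul] at a6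
    refine (pow_le_pow_iff_left₀ (abs_nonneg _) (by positivity) two_ne_zero).1 ?_
    calc |d j| ^ 2 ≤ |d j| * |d (s j)| * Z ^ (n + 1) := by
          rw [sq, mul_assoc]
          exact mul_le_mul_of_nonneg_left a4 (abs_nonneg _)
      _ ≤ C ^ 2 * (Z ^ (n + 1)) ^ 2 := mul_le_mul a6 (le_self_pow₀ a5 two_ne_zero) (by positivity)
          (by positivity)
      _ = _ := (mul_pow _ _ _).symm
  let e := (h₁⁻¹).1 * diagonal d * h₂.1
  have c1 : Yo θ h₁ * diagonal d = diagonal d * Yo θ h₂ := by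
    ext p q
    rw [mul_diagonal, diagonal_mul, mul_comm]
    by_cases h' : a p = a q
    · rcases (hT.fib q p).1 h' with rfl | rfl
      · rw [mul_left_cancel₀ (mul_ne_zero two_ne_zero (θ0 p)) ((x₁.hl p).symm.trans (x₂.hl p))]
      · exact mul_left_cancel₀ (mul_ne_zero two_ne_zero (θ0 q)) (by linear_combination -h1 q)
    · rw [cm_iff.1 (Yo_cm e₁) _ _ h', cm_iff.1 (Yo_cm e₂) _ _ h', mul_zero, mul_zero]
  have c2 : h₁.1 * e = diagonal d * h₂.1 := by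
    rw [← mul_assoc, ← mul_assoc, coe_mul_inv, one_mul]
  have c3 : e = diagonal fun j => e j j := hT.diag hθ θ0
    (((cm_inv e₁).mul_left (commute_diagonal _ _)).mul_left e₂) (by
      rw [commute_iff_eq, mul_assoc, ← Yo_mul (h := h₂), mul_assoc, ← mul_assoc (diagonal d), ← c1, Yo]
      simp only [e, ← mul_assoc, coe_inv_mul, one_mul])
  refine ⟨d, fun j => e j j, fun j => ⟨d0 j, h3 j⟩, fun j => ⟨fun c => ?_, abs_conj b₁ b₂ h3 j j⟩, hL,
    lat_diag hL (by rw [← c3, c2])⟩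
  have c4 := congrArg det c2
  rw [c3, det_mul, det_mul, h₁.2, h₂.2, det_diagonal, det_diagonal,
    Finset.prod_eq_zero (f := fun j => e j j) (Finset.mem_univ j) c] at c4
  exact Finset.prod_ne_zero_iff.2 (fun j _ => d0 j) (by linarith)

end Vale.Agent.P007X
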