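import Vale.Agent.P007X.SpecB

/-!
# Unfolding with multiplicities; a short element of relative trace zero
-/

set_option linter.all false

noncomputable section

open MeasureTheory Matrix NumberField Filter Topology Module
open scoped ENNReal

namespace Vale.Agent.P007X

open Vale.Agent.P007 Vale.Agent.P007.R Vale.Agent.P007.Fib Vale.Agent.P007.N Vale.Agent.P007M

variable {n : ℕ}

/-- the lattice `x` has a vector `v` of size `< R` with `v⁻¹ Λ = M` -/
def Sees (R : ℝ) (x : X n) (M : Submodule ℤ (Fin n → ℝ)) : Prop :=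
  ∃ v : NZ x, (∀ j, |v.1 j| < R) ∧ vmul v.1⁻¹ (Lx x) = M

/-- Markov form of the unfolding bound. -/
theorem unf_mk (D : Datum n) (hn : 2 ≤ n) {A : Set (X n)} (hA : MeasurableSet A) {R : ℝ}
    (hR : 1 ≤ R) {ι : Type} (T : Finset ι) (m : ι → Submodule ℤ (Fin n → ℝ)) (κ : ℝ≥0∞)
    (h : ∀ x ∈ A, InvPt (RE D) x → ∃ I ⊆ T, κ ≤ I.card ∧ ∀ i ∈ I, Sees R x (m i)) :
    κ * D.packetMeas A ≤ (vol D)⁻¹ *
      (T.card * ENNReal.ofReal (2 ^ n * Real.log (R ^ n * √(D.disc : ℝ)) ^ (n - 1))) := by
  classical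
  set V : Set (Fin n → ℝ) := {v | ∀ i, |v i| < R} with hV
  have hVm : MeasurableSet V := by
    rw [hV, Set.setOf_forall]
    exact (isOpen_iInter_of_finite fun i =>
      isOpen_lt (continuous_apply i).abs continuous_const).measurableSet
  let φ : ι → Submodule ℤ (Fin n → ℝ) → (Fin n → ℝ) → ℝ≥0∞ := fun i M =>
    if m i = M then V.indicator 1 else 0
  have hφ : ∀ i M, Measurable (φ i M) := fun i M => by
    simp only [φ]
    split_ifs
    exacts [measurable_one.indicator hVm, measurable_zero]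
  have hs := one_le_sqrt D
  have hRn : 1 ≤ R ^ n := one_le_pow₀ hR
  set c := ENNReal.ofReal (2 ^ n * Real.log (R ^ n * √(D.disc : ℝ)) ^ (n - 1)) with hc
  unfold Datum.packetMeas
  rw [Measure.smul_apply, Measure.sum_apply _ hA, smul_eq_mul, mul_left_comm]
  refine mul_le_mul_right ?_ _
  obtain ⟨W⟩ := nonempty_OD D
  calc κ * ∑' S : D.packet, orbMeas S.1 A
      ≤ ∑' S : D.packet, ∫⁻ x, (∑' v : NZ x, ∑ i ∈ T, φ i (vmul v.1⁻¹ (Lx x)) v.1)
          ∂(orbMeas S.1) := by
        rw [← ENNReal.tsum_mul_left]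
        refine ENNReal.tsum_le_tsum fun S => ?_
        rw [← lintegral_indicator_const hA, W.meas S, lintegral_map_section (W.sec S),
          lintegral_map_section (W.sec S)]
        refine lintegral_mono fun u => ?_
        by_cases hx : tr (aexp u) (W.x S) ∈ A
        · obtain ⟨I, h1, h2, h3⟩ := h _ hx ((W.inv S).tr u)
          rw [Set.indicator_of_mem hx, Summable.tsum_finsetSum fun _ _ => ENNReal.summable]
          refine h2.trans (le_trans ?_ (Finset.sum_le_sum_of_subset h1))
          rw [← mul_one (I.card : ℝ≥0∞), ← nsmul_eq_mul]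
          refine Finset.card_nsmul_le_sum _ _ _ fun i hi => ?_
          obtain ⟨v, h4, h5⟩ := h3 i hi
          refine le_trans ?_ (ENNReal.le_tsum v)
          simp only [φ]
          rw [if_pos h5.symm, Set.indicator_of_mem (show v.1 ∈ V from h4)]
          rfl
        · rw [Set.indicator_of_notMem hx]
          exact zero_le
    _ ≤ ∑' M : MM D, ∑ i ∈ T, if m i = M.1 then c else 0 := by
        rw [unfold2 D (fun M v => ∑ i ∈ T, φ i M v) fun M => Finset.measurable_sum _ fun i _ => hφ i M]
        refine ENNReal.tsum_le_tsum fun M => ?_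
        have h1 : (1 : ℝ) ≤ idx D M := by exact_mod_cast one_le_idx D M
        have ht : 0 < (idx D M : ℝ) / √(D.disc : ℝ) := by positivity
        refine (Finset.sum_congr rfl fun w _ => lintegral_finsetSum _ fun i _ =>
          (hφ i M.1).comp (measurable_const.mul continuous_ev.measurable)).trans_le
          (Finset.sum_comm.trans_le (Finset.sum_le_sum fun i _ => ?_))
        simp only [φ]
        split_ifs with hM
        · refine (Finset.sum_le_card_nsmul _ _
            (ENNReal.ofReal (Real.log (R ^ n * √(D.disc : ℝ)) ^ (n - 1))) fun w _ => ?_).trans ?_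
          · refine (inner_bound hn (by linarith) ht w).trans ?_
            split_ifs with h2
            · refine ENNReal.ofReal_le_ofReal (pow_le_pow_left₀ (Real.log_nonneg ?_)
                (Real.log_le_log (by positivity) ?_) _)
              · exact (one_le_div ht).2 h2.le
              · rw [div_div_eq_mul_div]
                exact div_le_self (by positivity) h1
            · exact zero_le
          · rw [Finset.card_univ, Fintype.card_fun, Fintype.card_fin, Fintype.card_units_int,
              nsmul_eq_mul, hc, ENNReal.ofReal_mul (by positivity),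
              ENNReal.ofReal_pow (by norm_num) n]
            simp
        · simp
    _ ≤ _ := by
        rw [Summable.tsum_finsetSum fun _ _ => ENNReal.summable, ← nsmul_eq_mul]
        refine Finset.sum_le_card_nsmul _ _ _ fun i _ => ?_
        by_cases e : ∃ M : MM D, m i = M.1
        · obtain ⟨M, hM⟩ := e
          rw [tsum_eq_single M fun M' h' => if_neg fun e => h' (Subtype.ext (e.symm.trans hM)),
            if_pos hM]
        · simp [not_exists.1 e]

theorem unf_pow (hn : 3 ≤ n) (k : ℕ) {e : ℝ} (he : 0 < e) : ∃ D₀ : ℕ, ∀ D : Datum n, D₀ ≤ D.disc →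
    ∀ {A : Set (X n)}, MeasurableSet A → ∀ {ι : Type} (T : Finset ι)
      (m : ι → Submodule ℤ (Fin n → ℝ)) (κ : ℝ≥0∞), (∀ x ∈ A, InvPt (RE D) x →
        ∃ I ⊆ T, κ ≤ I.card ∧ ∀ i ∈ I, Sees ((D.disc : ℝ) ^ k) x (m i)) →
      κ * D.packetMeas A ≤ ENNReal.ofReal (T.card * (D.disc : ℝ) ^ (2 * e - 1 / 2)) := by
  obtain ⟨C, D₂, hC, h₂⟩ := vol_inv_le n hn he
  obtain ⟨D₃, h₃⟩ := log_small (C * 2 ^ n * (2 * (k * n) + 1) ^ (n - 1)) 1 (n - 1) he
    (by positivity) le_rfl
  refine ⟨max D₂ D₃, fun D hD A hA ι T m κ h => ?_⟩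
  obtain ⟨d1, h4⟩ := h₃ _ (le_of_max_le_right hD)
  refine (unf_mk D (by omega) hA (one_le_pow₀ d1) T m κ h).trans
    ((mul_le_mul_left (h₂ D (le_of_max_le_left hD)) _).trans ?_)
  set d : ℝ := (D.disc : ℝ)
  have d0 : 0 < d := by linarith
  rw [← ENNReal.ofReal_natCast, ← ENNReal.ofReal_mul (by positivity),
    ← ENNReal.ofReal_mul (by positivity)]
  refine ENNReal.ofReal_le_ofReal ?_
  have h5 : Real.log ((d ^ k) ^ n * √d) = (2 * (k * n) + 1) * Real.log (1 * √d) := by
    rw [Real.log_mul (by positivity) (by positivity), ← pow_mul, Real.log_pow, one_mul,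
      Real.log_sqrt d0.le]
    push_cast
    ring
  rw [h5, mul_pow, show 2 * e - 1 / 2 = (e - 1 / 2) + e by ring, Real.rpow_add d0]
  refine le_trans (le_of_eq (by ring)) (mul_le_mul_of_nonneg_left
    (mul_le_mul_of_nonneg_left h4 (by positivity)) (by positivity))

theorem Two.ss {D : Datum n} {a : Fin n → ℝ} {s : Fin n → Fin n} {τ : D.K ≃+* D.K}
    (h : Two D a s τ) (j : Fin n) : s (s j) = j :=
  D.σ.injective (RingHom.ext fun x => by rw [h.emb, h.emb, h.inv])

theorem prod_sq {s : Fin n → Fin n} (hs : ∀ j, s (s j) = j) (f : Fin n → ℝ) :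
    ∏ j, f j * f (s j) = (∏ j, f j) ^ 2 := by
  rw [Finset.prod_mul_distrib, sq]
  exact congrArg _ (Equiv.prod_comp (Function.Involutive.toPerm s hs) f)

/-- Minkowski: a short element of relative trace zero. -/
theorem exists_theta {D : Datum n} {a : Fin n → ℝ} {s : Fin n → Fin n} {τ : D.K ≃+* D.K}
    (h : Two D a s τ) : ∃ θ : D.K, sE D θ ∈ RE D ∧ τ θ = -θ ∧ θ ≠ 0 ∧
      ∀ j, |D.σ j θ| ≤ 6 * (D.disc : ℝ) ^ ((n : ℝ)⁻¹) := by
  obtain ⟨k, rfl⟩ : ∃ k, n = k + 1 := ⟨n - 1, by have := D.pos; omega⟩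
  obtain ⟨B, hB, hl⟩ := exists_mat_order D
  have hd := abs_det_order D hB hl
  have d0 : (0 : ℝ) < D.disc := Real.sqrt_pos.1 (disc_pos D)
  set q : ℝ := (D.disc : ℝ) ^ (((k + 1 : ℕ) : ℝ)⁻¹) with hq
  have q0 : 0 < q := by positivity
  let f : Fin (k + 1) → ℝ := fun j => if j < s j then 3 else (3 * q)⁻¹
  let P : Matrix (Fin (k + 1)) (Fin (k + 1)) ℝ :=
    diagonal f + of fun p j => if p = s j then (if j < s j then 3 else 0) else 0
  have hP : P.det ^ 2 = (D.disc : ℝ)⁻¹ := by
    rw [det_of_lowerTriangular P fun p j hpj => ?_]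
    · have e : ∀ j, P j j = f j := fun j => by simp [P, (h.ne j).symm]
      have e' : ∀ j, f j * f (s j) = q⁻¹ := fun j => by
        simp only [f, h.ss]
        rcases lt_or_gt_of_ne (h.ne j) with c | c <;> simp only [c, c.not_gt, if_true, if_false] <;>
          field_simp
      simp only [e]
      rw [← prod_sq h.ss, Finset.prod_congr rfl fun j _ => e' j, Finset.prod_const, Finset.card_univ,
        Fintype.card_fin, inv_pow, hq, Real.rpow_inv_natCast_pow d0.le k.succ_ne_zero]
    · have c : p < j := hpj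
      simp only [P, Matrix.add_apply, diagonal_apply_ne _ c.ne, of_apply, zero_add]
      split_ifs with c1 c2
      exacts [absurd (c1 ▸ c) c2.not_gt, rfl, rfl]
  have h1 : (B * P).det ^ 2 = 1 := by
    rw [det_mul, mul_pow, hP, ← sq_abs, hd, Real.sq_sqrt d0.le, mul_inv_cancel₀ d0.ne']
  obtain ⟨m, hm, h2⟩ := Red.exists_short (B * P) (fun e => by simp [e] at h1)
    (by rw [← sq_le_one_iff_abs_le_one, h1])
  have hx : (fun i => (m i : ℝ)) ᵥ* B ∈ RE D := by
    have : (fun i => (m i : ℝ)) ᵥ* B ∈ latM B := ⟨m, rfl⟩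
    rwa [hl] at this
  obtain ⟨r, hr, e⟩ := (mem_RE D).1 hx
  rw [← vecMul_vecMul, e] at h2
  have h3 : ∀ j, |f j * D.σ j r + D.σ (s j) r * if j < s j then 3 else 0| ≤ 2 := fun j => by
    refine le_trans (le_of_eq ?_) ((norm_le_pi_norm _ j).trans h2)
    rw [Real.norm_eq_abs, vecMul_add, Pi.add_apply, vecMul_diagonal, mul_comm (f j)]
    simp [vecMul, dotProduct, sE_apply]
  have h4 : τ r = -r := by
    have i1 : IsIntegral ℤ ((r : D.K) + τ r) :=
      r.2.add (r.2.map (τ : D.K →+* D.K).toIntAlgHom)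
    by_contra c
    obtain ⟨j, hj⟩ := exists_one_le (mx D) (x := sE D (r + τ r))
      ((mem_RE _).2 ⟨⟨_, i1⟩, trivial, rfl⟩) fun e => c (eq_neg_of_add_eq_zero_right
        (sE_injective D (e.trans (map_zero _).symm)))
    have h5 : ∀ j, j < s j → |D.σ j r + D.σ (s j) r| < 1 := fun j c => by
      have := h3 j
      simp only [f, if_pos c] at this
      rw [abs_le] at this
      rw [abs_lt]
      constructor <;> linarith
    rw [sE_apply, map_add, ← h.emb] at hj
    rcases lt_or_gt_of_ne (h.ne j) with c | c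
    · have := h5 (s j) (by rwa [h.ss])
      rw [h.ss, add_comm] at this
      linarith
    · linarith [h5 j c]
  have h5 : ∀ j, s j < j → |D.σ j r| ≤ 6 * q := fun j c => by
    have := h3 j
    simp only [f, if_neg c.not_gt] at this
    rw [mul_zero, add_zero, abs_mul, abs_of_pos (by positivity), inv_mul_le_iff₀ (by positivity)]
      at this
    linarith
  refine ⟨r, e ▸ hx, h4, fun c => hm (funext fun i => ?_), fun j => ?_⟩
  · rw [c, map_zero] at e
    simpa using congrFun (eq_zero_of_vecMul_eq_zero hB e) i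
  · rcases lt_or_gt_of_ne (h.ne j) with c | c
    · exact h5 j c
    · have := h5 (s j) (by rwa [h.ss])
      rwa [h.emb, h4, map_neg, abs_neg] at this

end Vale.Agent.P007X
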