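import Vale.Agent.P007X.LinA

/-!
# The basic lemma of Linnik over the fixed field
-/

set_option linter.all false

noncomputable section

open MeasureTheory Matrix NumberField Filter Topology
open scoped ENNReal

namespace Vale.Agent.P007X

open Vale.Agent.P007 Vale.Agent.P007.R Vale.Agent.P007.Fib Vale.Agent.P007.N Vale.Agent.P007M

variable {n : ℕ}

theorem cpt_B (B : ℝ) : IsCompact {h : G n | ∀ p q, |h.1 p q| ≤ B} := by
  refine (Matrix.SpecialLinearGroup.isClosedEmbedding_val.isCompact_preimage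
    (isCompact_univ_pi fun _ : Fin n => isCompact_univ_pi fun _ : Fin n =>
      isCompact_closedBall (0 : ℝ) B)).of_isClosed_subset ?_
    fun h hh p _ q _ => mem_closedBall_zero_iff.2 (hh p q)
  simp only [Set.setOf_forall]
  have c1 : ∀ p q, Continuous fun h : G n => h.1 p q := fun p q =>
    (continuous_apply_apply p q).comp continuous_subtype_val
  exact isClosed_iInter fun p => isClosed_iInter fun q => isClosed_le (c1 p q).abs continuous_const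

theorem cpt_Eb (a : Fin n → ℝ) (j k : Fin n) (B T : ℝ) : IsCompact (Eb a j k B T) := by
  have c1 : ∀ p q, Continuous fun h : G n => h.1 p q := fun p q =>
    (continuous_apply_apply p q).comp continuous_subtype_val
  have c2 : ∀ p q, Continuous fun h : G n => (h⁻¹).1 p q := fun p q => (c1 p q).comp continuous_inv
  refine (cpt_B B).of_isClosed_subset ?_ fun h hh p q => (hh.1 p q).1
  simp only [Eb, Set.setOf_and, Set.setOf_forall]
  refine (isClosed_iInter fun p => isClosed_iInter fun q =>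
    (isClosed_le (c1 p q).abs continuous_const).inter
      ((isClosed_le (c2 p q).abs continuous_const).inter
        (isClosed_iInter fun _ => isClosed_eq (c1 p q) continuous_const))).inter
    ((isClosed_le (c2 j k).abs continuous_const).inter (isClosed_iInter fun p =>
      isClosed_iInter fun q => isClosed_iInter fun _ =>
        isClosed_le ((c1 p q).mul (c2 q p)).abs continuous_const))

theorem short (hn : 0 < n) (g : G n) : ∃ u, u ∈ latS g ∧ u ≠ 0 ∧ ∀ j, |u j| ≤ 2 := by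
  obtain ⟨v, -, a, -, b, -, c, -⟩ := exists_vw hn g 0 (by simp)
  exact ⟨v, b, a, c⟩

/-- The geometric part: Markov's inequality for the number of the indices which a point sees. -/
theorem geo {D : Datum n} {s : Fin n → Fin n} {τ : D.K ≃+* D.K} {a₀ θ₀ : D.K}
    (hT : Two D (sE D a₀) s τ) (ha : sE D a₀ ∈ RE D) (hθ : sE D θ₀ ∈ RE D) (τθ : τ θ₀ = -θ₀)
    (θ0 : θ₀ ≠ 0) {C B T Θ Z R q κ Λ : ℝ} {j : Fin n} {N₀ : ℕ} {Ω : Set (X n)}
    {S : Finset (Submodule ℤ D.K × D.K × D.K)} (hΘ : ∀ k, |D.σ k θ₀| ≤ Θ)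
    (H : ∀ (M : Submodule ℤ D.K) (l z : D.K), Cfg τ a₀ θ₀ M l z →
      (∀ k, |D.σ k (l - 2 * θ₀ ^ 2)| ≤ Θ ^ 2 *
        if sE D a₀ k = sE D a₀ j then min 1 (4 * B ^ 2 * Real.exp (-T)) else 1) →
      ∀ ω : Fin n → ℝ, (∀ j, 0 < ω j) → (∀ j, ω (s j) = ω j) → ∃ lam : D.K, lam ≠ 0 ∧
        (M.map (LinearMap.mulLeft ℤ lam), l, z * lam / τ lam) ∈ S ∧
        ∀ j k, ω j / |D.σ j (lam * τ lam)| ≤ C * (ω k / |D.σ k (lam * τ lam)|))
    (C1 : 1 ≤ C) (Z1 : 1 ≤ Z) (hZ : 2 * Θ * (n * (B * Θ * B)) ≤ Z)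
    (R1 : 2 * (n * (B * (C * Z ^ (n + 1)) * B)) < R) (R2 : 2 * (C * Z ^ (n + 1)) < R)
    (R3 : 2 * B < R) (hΩ : MeasurableSet Ω) (q0 : 0 ≤ q) (κ1 : 1 ≤ κ) (hκ : Λ = 2 * κ * ((N₀ + 1) * q))
    (hN : ∀ x ∈ Ω, ∀ E ⊆ {h : G n | ∀ p q, |h.1 p q| ≤ B}, MeasurableSet E →
      loc D.packetMeas x E ≤ N₀ * D.packetMeas ((tr · x) '' E))
    (hU : ∀ {A : Set (X n)}, MeasurableSet A → ∀ {ι : Type} (T : Finset ι)
      (m : ι → Submodule ℤ (Fin n → ℝ)) (κ : ℝ≥0∞), (∀ x ∈ A, InvPt (RE D) x →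
        ∃ I ⊆ T, κ ≤ I.card ∧ ∀ i ∈ I, Sees R x (m i)) →
      κ * D.packetMeas A ≤ ENNReal.ofReal (T.card * q)) :
    ENNReal.ofReal κ * D.packetMeas {x | x ∈ Ω ∧ ENNReal.ofReal Λ <
      loc D.packetMeas x (Eb (sE D a₀) j (s j) B T)} ≤ ENNReal.ofReal (S.card * q) := by
  classical
  have := packetMeas_prob D
  have hs : ∀ k, sE D θ₀ (s k) = -sE D θ₀ k := fun k => by
    rw [sE_apply, sE_apply, hT.emb, τθ, map_neg]
  have t0 : ∀ k, sE D θ₀ k ≠ 0 := fun k => (map_ne_zero (D.σ k)).2 θ0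
  have Θ0 := (abs_nonneg _).trans (hΘ j)
  have hc := cpt_Eb (sE D a₀) j (s j) B T
  set E := Eb (sE D a₀) j (s j) B T with hE
  have cm : ∀ h ∈ E, Commute h.1 (diagonal (sE D a₀)) := fun h hh =>
    cm_iff.2 fun p q => (hh.1 p q).2.2
  have hZ : ∀ h ∈ E, ∀ k, |2 * sE D θ₀ k * Yo (sE D θ₀) h (s k) k| ≤ Z := fun h hh k => by
    rw [abs_mul, abs_mul, abs_two]
    exact le_trans (mul_le_mul (mul_le_mul_of_nonneg_left (hΘ k) two_pos.le) (abs_conj
      (fun p q => (hh.1 p q).1) (fun p q => (hh.1 p q).2.1) hΘ _ _) (abs_nonneg _) (by linarith)) hZ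
  have ref : ∀ i, ∃ M M' : Submodule ℤ (Fin n → ℝ), ∀ g h v, h ∈ E →
      Ix D s (sE D θ₀) C g h i v → Sees R (pt g) M ∧ Sees R (pt (g * h)) M' := fun i => by
    by_cases ex : ∃ g h v, h ∈ E ∧ Ix D s (sE D θ₀) C g h i v
    · obtain ⟨g₁, h₁, v₁, e₁, x₁⟩ := ex
      obtain ⟨u, u1, u2, u3⟩ := short D.pos g₁
      obtain ⟨w, w1, w2, w3⟩ := short D.pos (g₁ * h₁)
      refine ⟨vmul u⁻¹ (latS g₁), vmul w⁻¹ (latS (g₁ * h₁)), fun g h v e₂ x₂ => ?_⟩
      obtain ⟨d', e', a1, a2, a3, a4⟩ := pair hT hs t0 C1 Z1 x₁ x₂ (cm _ e₁) (cm _ e₂)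
        (fun p q => (e₁.1 p q).2.1) (fun p q => (e₂.1 p q).1) (hZ _ e₁) (hZ _ e₂)
      exact ⟨sees_of a3 a1 u1 u2 u3 R2, sees_of a4 a2 w1 w2 w3 R1⟩
    · exact ⟨⊥, ⊥, fun g h v a b => (ex ⟨g, h, v, a, b⟩).elim⟩
  choose m m' hm using ref
  refine hU (hΩ.inter (measurableSet_lt measurable_const (meas_loc hc.measurableSet))) S m _
    fun x hx i₁ => ?_
  obtain ⟨g, rfl⟩ := pt_surjective x
  refine ⟨S.filter fun i => Sees R (pt g) (m i), Finset.filter_subset _ _, ?_,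
    fun i hi => (Finset.mem_filter.1 hi).2⟩
  set I := S.filter fun i => Sees R (pt g) (m i) with hI
  obtain ⟨u, u1, u2, u3⟩ := short D.pos g
  have one := hU (A := (tr · (pt g)) '' E) (hc.image (continuous_tr_uncurry.comp
    (Continuous.prodMk_right (pt g)))).measurableSet (Finset.insertNone I)
    (fun o => o.elim (vmul u⁻¹ (latS g)) m') 1 (by
      rintro _ ⟨h, hh, rfl⟩ i₂
      have hb : ∀ k, 4 * D.σ k θ₀ ^ 2 * |h.1 k (s k) * (h⁻¹).1 (s k) k| ≤ Θ ^ 2 *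
          if sE D a₀ k = sE D a₀ j then min 1 (4 * B ^ 2 * Real.exp (-T)) else 1 := fun k => by
        have b1 := hh.2.2 _ _ (hT.ne k).symm
        rw [mul_comm 4, mul_assoc]
        refine mul_le_mul (sq_le_sq' (abs_le.1 (hΘ k)).1 (abs_le.1 (hΘ k)).2) ?_ (by positivity)
          (by positivity)
        split_ifs with c
        · refine le_min (by linarith) ?_
          have b3 : |h.1 (s j) j * (h⁻¹).1 j (s j)| ≤ B * (B * Real.exp (-T)) := by
            rw [abs_mul]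
            exact mul_le_mul (hh.1 _ _).1 hh.2.1 (abs_nonneg _) ((abs_nonneg _).trans (hh.1 j j).1)
          rcases (hT.fib j k).1 c with rfl | rfl
          · rw [(hT.Yo hs (cm h hh) k).2.1]
            linarith
          · rw [hT.ss]
            linarith
        · linarith
      rcases exists_ix hT ha hθ τθ θ0 H (cm h hh) (i₁.inv D.pos) (InvPt.inv D.pos i₂)
        (fun k => hh.2.2 _ _ (hT.ne k).symm) hb with c | ⟨i, hi, v, hv⟩
      · refine ⟨{none}, by simp, by simp, fun o ho => ?_⟩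
        obtain rfl := Finset.mem_singleton.1 ho
        have c1 := lat_diag (g₁ := g) (h₁ := 1) (h₂ := h) (e := fun k => h.1 k k)
          (vmul_one _).symm (by rw [← c]; simp [Pi.one_def])
        rw [mul_one] at c1
        refine sees_of c1 (fun k => ⟨fun c2 => ?_, (hh.1 k k).1⟩) u1 u2 u3 R3
        have c3 := h.2
        rw [c, det_diagonal, Finset.prod_eq_zero (f := fun k => h.1 k k) (Finset.mem_univ k) c2] at c3
        exact zero_ne_one c3
      · exact ⟨{some i}, by simp [hI, hi, (hm i g h v hh hv).1], by simp, fun o ho =>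
          Finset.mem_singleton.1 ho ▸ (hm i g h v hh hv).2⟩)
  rw [one_mul, Finset.card_insertNone] at one
  have two := hx.2.trans_le ((hN _ hx.1 E (fun h hh p q => (hh.1 p q).1) hc.measurableSet).trans
    (mul_le_mul_right one _))
  rw [← ENNReal.ofReal_natCast, ← ENNReal.ofReal_mul (Nat.cast_nonneg _), hκ,
    ENNReal.ofReal_lt_ofReal_iff_of_nonneg (by positivity)] at two
  rw [← ENNReal.ofReal_natCast]
  refine ENNReal.ofReal_le_ofReal ?_
  push_cast at two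
  have three : 2 * κ < I.card + 1 := lt_of_mul_lt_mul_right (two.trans_le (by
    rw [mul_left_comm]
    gcongr
    linarith)) (show 0 ≤ (N₀ + 1 : ℝ) * q by positivity)
  linarith

theorem nums {d p r y x B C A e N₀ : ℝ} (N : ℕ) (hn : 3 ≤ n) (hB : 1 ≤ B) (C1 : 1 ≤ C) (A1 : 1 ≤ A)
    (e0 : 0 < e) (N0 : 0 ≤ N₀) (hAD : A ≤ d) (dC : C ≤ d) (dB : 72 * n * B ^ 2 ≤ d)
    (p1 : 2 * (N₀ + 1) ≤ p) (p2 : 8 * C * 6 ^ n * B ^ 2 * (N₀ + 1) / (7 * e) ≤ p) (r0 : 0 < r)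
    (r1 : r ≤ 1) (r2 : r ^ 4 * d = 1) (r3 : r ≤ x) (y3 : y ^ 2 ≤ d) :
    2 * (6 * y) * (n * (B * (6 * y) * B)) ≤ d ^ 2 ∧
    2 * (n * (B * (C * A ^ N * (d ^ 2) ^ (n + 1)) * B)) < d ^ (N + 2 * n + 5) ∧
    2 * (C * A ^ N * (d ^ 2) ^ (n + 1)) < d ^ (N + 2 * n + 5) ∧ 2 * B < d ^ (N + 2 * n + 5) ∧
    ∃ κ, 1 ≤ κ ∧ p ^ 7 * A ^ N * x = 2 * κ * ((N₀ + 1) * (p ^ 2 * r ^ 2)) ∧
      C * A ^ N * p ^ 2 * (6 ^ n * d * (4 * B ^ 2 * x)) * (p ^ 2 * r ^ 2) ≤ κ * (7 * e) := by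
  have n3 : (3 : ℝ) ≤ n := by exact_mod_cast hn
  have B1 : 3 ≤ n * B ^ 2 := by nlinarith
  have d1 : 6 ≤ d := by linarith
  have p3 : 1 ≤ p := by linarith
  have x0 : 0 < x := by linarith
  have AN : 1 ≤ A ^ N := one_le_pow₀ A1
  have R1 : 2 * (n * (B * (C * A ^ N * (d ^ 2) ^ (n + 1)) * B)) < d ^ (N + 2 * n + 5) :=
    calc _ = 2 * (n * B ^ 2) * C * A ^ N * (d ^ 2) ^ (n + 1) := by ring
      _ ≤ d * d * d ^ N * (d ^ 2) ^ (n + 1) := by gcongr; linarith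
      _ = d ^ (N + 2 * n + 4) := by ring
      _ < _ := pow_lt_pow_right₀ (by linarith) (by omega)
  have R0 : 1 ≤ C * A ^ N * (d ^ 2) ^ (n + 1) := one_le_mul_of_one_le_of_one_le
    (one_le_mul_of_one_le_of_one_le C1 AN) (one_le_pow₀ (by nlinarith))
  refine ⟨?_, R1, by nlinarith, ?_, p ^ 7 * A ^ N * x / (2 * (N₀ + 1) * (p ^ 2 * r ^ 2)), ?_,
    by field_simp, ?_⟩
  · calc _ = 72 * n * B ^ 2 * y ^ 2 := by ring
      _ ≤ d * d := by gcongr
      _ = _ := (sq d).symm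
  · refine lt_of_le_of_lt (mul_le_mul_of_nonneg_left ?_ two_pos.le) R1
    rw [← mul_assoc]
    exact le_mul_of_one_le_left (by linarith) (one_le_mul_of_one_le_of_one_le (by linarith)
      (one_le_mul_of_one_le_of_one_le hB R0))
  · rw [one_le_div (by positivity)]
    calc _ ≤ p * (p ^ 6 * (1 * r)) := by
          rw [sq r]
          gcongr
          norm_num
      _ = p ^ 7 * 1 * r := by ring
      _ ≤ _ := by gcongr
  · rw [div_le_iff₀ (by positivity)] at p2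
    rw [div_mul_eq_mul_div, le_div_iff₀ (by positivity)]
    calc _ = 8 * C * 6 ^ n * B ^ 2 * (N₀ + 1) * (p ^ 6 * A ^ N * x) * (r ^ 4 * d) := by ring
      _ ≤ p * (7 * e) * (p ^ 6 * A ^ N * x) * 1 := by rw [r2]; gcongr
      _ = _ := by ring

/-- **The basic lemma** follows from the count of the configurations. -/
theorem sLinG (hn : 3 ≤ n) (hS : SLin n) : SLinG n := by
  classical
  obtain ⟨N, hN⟩ := hS
  refine ⟨N, fun Ω ε B hΩ hε hB => ?_⟩
  obtain ⟨e, rfl⟩ : ∃ e, ε = 7 * e := ⟨ε / 7, by ring⟩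
  have e0 : 0 < e := by linarith
  obtain ⟨C, C1, hC⟩ := hN e e0
  obtain ⟨N₀, hN₀⟩ := loc_le_mul hΩ (cpt_B (n := n) B)
  obtain ⟨D₁, h₁⟩ := unf_pow hn (N + 2 * n + 5) e0
  obtain ⟨D₂, h₂⟩ := eventually_atTop.1 (((tendsto_rpow_atTop e0).comp
    tendsto_natCast_atTop_atTop).eventually_ge_atTop
      (max (2 * (N₀ + 1)) (8 * C * 6 ^ n * B ^ 2 * (N₀ + 1) / (7 * e))))
  obtain ⟨D₃, h₃⟩ := exists_nat_ge (max (max C 6) (72 * n * B ^ 2))
  refine ⟨max D₁ (max D₂ D₃), fun D hD a ha s τ hT A A1 hA hAD j T T0 T1 => ?_⟩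
  simp only [max_le_iff] at hD h₃
  obtain ⟨p1, p2⟩ := max_le_iff.1 (h₂ _ hD.2.1)
  replace h₁ := @h₁ D hD.1
  obtain ⟨θ₀, hθ, τθ, θ0, hΘ⟩ := exists_theta hT
  have d3 : (D₃ : ℝ) ≤ D.disc := Nat.cast_le.2 hD.2.2
  change _ ≤ (D.disc : ℝ) ^ e at p1 p2
  generalize (D.disc : ℝ) = d at *
  have d1 : 6 ≤ d := h₃.1.2.trans d3
  have d0 : 0 < d := by linarith
  have r0 : 0 < d ^ (-(1 / 4) : ℝ) := by positivity
  have r1 : d ^ (-(1 / 4) : ℝ) ≤ 1 :=
    Real.rpow_le_one_of_one_le_of_nonpos (by linarith) (by norm_num)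
  have r2 : (d ^ (-(1 / 4) : ℝ)) ^ 4 * d = 1 := by
    rw [← Real.rpow_natCast, ← Real.rpow_mul d0.le, ← Real.rpow_add_one d0.ne']
    norm_num
  have r3 : d ^ (-(1 / 4) : ℝ) ≤ Real.exp (-T) := by
    rw [Real.rpow_def_of_pos d0]
    exact Real.exp_le_exp.2 (by linarith)
  have q1 : d ^ (2 * e - 1 / 2) = (d ^ e) ^ 2 * (d ^ (-(1 / 4) : ℝ)) ^ 2 := by
    rw [← Real.rpow_natCast, ← Real.rpow_natCast, ← Real.rpow_mul d0.le, ← Real.rpow_mul d0.le,
      ← Real.rpow_add d0]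
    congr 1
    push_cast
    ring
  have q2 : d ^ (7 * e) = (d ^ e) ^ 7 := by
    rw [mul_comm, Real.rpow_mul d0.le]
    exact_mod_cast Real.rpow_natCast _ 7
  have y1 : 1 ≤ d ^ ((n : ℝ)⁻¹) := Real.one_le_rpow (by linarith) (by positivity)
  have y2 : (d ^ ((n : ℝ)⁻¹)) ^ n = d := Real.rpow_inv_natCast_pow d0.le (by omega)
  generalize d ^ ((n : ℝ)⁻¹) = y at *
  have y3 : y ^ 2 ≤ d := y2 ▸ pow_le_pow_right₀ y1 (by omega)
  have hy2 : (6 * y) ^ e ≤ (d ^ e) ^ 2 := by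
    rw [sq, ← Real.mul_rpow d0.le d0.le]
    exact Real.rpow_le_rpow (by positivity)
      (mul_le_mul d1 ((le_self_pow₀ y1 two_ne_zero).trans y3) (by positivity) d0.le) e0.le
  obtain ⟨hZ, R1, R2, R3, κ, κ1, hκ, fin⟩ := nums N hn hB C1 A1 e0 N₀.cast_nonneg hAD
    (h₃.1.1.trans d3) (h₃.2.trans d3) p1 p2 r0 r1 r2 r3 y3
  obtain ⟨a₀, -, rfl⟩ := (mem_RE D).1 ha
  obtain ⟨θ₁, -, eθ⟩ := (mem_RE D).1 hθ
  have μ0 : 0 < min 1 (4 * B ^ 2 * Real.exp (-T)) := lt_min one_pos (by positivity)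
  obtain ⟨S, hS, H⟩ := hC D.K D.σ s τ a₀ θ₀ D.deg ⟨hT.ne, hT.emb, hT.inv, hT.fib, a₀.2,
    sE_injective D eθ ▸ θ₁.2, τθ, θ0⟩ A (6 * y) A1 (by linarith) hA hΘ
    (fun k => (6 * y) ^ 2 * if sE D a₀ k = sE D a₀ j then min 1 (4 * B ^ 2 * Real.exp (-T)) else 1)
    (fun k => by split_ifs <;> positivity) (fun k => by rw [hT.as]) fun k => by
      split_ifs
      exacts [mul_le_of_le_one_right (by positivity) (min_le_left _ _), (mul_one _).le]
  rw [q1] at h₁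
  have main := geo hT ha hθ τθ θ0 hΘ H (one_le_mul_of_one_le_of_one_le C1 (one_le_pow₀ A1))
    (one_le_pow₀ (by linarith)) hZ R1 R2 R3 hΩ.measurableSet (by positivity) κ1 hκ (hN₀ _) @h₁
  rw [Finset.prod_mul_distrib, Finset.prod_const, Finset.card_univ, Fintype.card_fin,
    Fintype.prod_eq_mul j (s j) (hT.ne j).symm fun k hk =>
      if_neg fun c => ((hT.fib j k).1 c).elim hk.1 hk.2, if_pos rfl, if_pos (hT.as j),
    ← pow_mul, mul_comm 2, pow_mul, ← sq, ← mul_pow, Real.sqrt_sq (by positivity), mul_pow, y2] at hS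
  rw [q2]
  refine ENNReal.toReal_le_of_le_ofReal hε.le ((ENNReal.mul_le_mul_iff_right
    (ENNReal.ofReal_pos.2 (one_pos.trans_le κ1)).ne' ENNReal.ofReal_ne_top).1 (main.trans ?_))
  rw [← ENNReal.ofReal_mul (by linarith)]
  refine ENNReal.ofReal_le_ofReal (le_trans (mul_le_mul_of_nonneg_right (hS.trans ?_)
    (by positivity)) fin)
  gcongr
  exact min_le_right _ _

end Vale.Agent.P007X
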