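import Vale.Agent.P007X.Lin1

/-! The count of the configurations with a given `ℓ`: the statement. -/

set_option autoImplicit false

open NumberField

namespace Vale.Agent.P007X

/-- the count of the configurations with a given `ℓ` -/
def PerL (n : ℕ) : Prop := ∃ N : ℕ, ∀ ε : ℝ, 0 < ε → ∃ C : ℝ, 1 ≤ C ∧
  ∀ (K : Type) [Field K] [NumberField K] (σ : Fin n ≃ (K →+* ℝ)) (s : Fin n → Fin n)
    (τ : K ≃+* K) (a θ : K), Module.finrank ℚ K = n → Quad K σ s τ a θ → ∀ A Θ : ℝ, 1 ≤ A → 1 ≤ Θ →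
    (∀ j, |σ j a| ≤ A) → (∀ j, |σ j θ| ≤ Θ) → ∀ t l : 𝓞 (Fx τ), ((t : Fx τ) : K) = θ ^ 2 →
    (∀ j, |σ j ((l : Fx τ) - 2 * θ ^ 2)| ≤ Θ ^ 2) →
    ∃ T : Finset (Submodule ℤ K × K × K),
      (T.card : ℝ) ≤ C * A ^ N * Θ ^ ε * Ideal.absNorm (Ideal.span {4 * t, 4 * l}) ∧
      ∀ (M : Submodule ℤ K) (z : K), Cfg τ a θ M (l : Fx τ) z →
        ∀ ω : Fin n → ℝ, (∀ j, 0 < ω j) → (∀ j, ω (s j) = ω j) → ∃ lam : K, lam ≠ 0 ∧
          (M.map (LinearMap.mulLeft ℤ lam), ((l : Fx τ) : K), z * lam / τ lam) ∈ T ∧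
          ∀ j k, ω j / |σ j (lam * τ lam)| ≤ C * A ^ N * (ω k / |σ k (lam * τ lam)|)

end Vale.Agent.P007X
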