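import Vale.Agent.P007M.TubeG

/-!
# P007 / X : the second tube, geometry
-/

open Matrix Filter Topology Polynomial

namespace Vale.Agent.P007X

open Vale.Agent.P007 Vale.Agent.P007M

variable {n : ℕ} {p : Fin n → ℝ} {L : Set (G n)} {g h : G n} {i j k : Fin n}

/-- the difference quotient of a polynomial -/
theorem exists_quot (P : Matrix (Fin n) (Fin n) ℝ) (f : ℤ[X]) :
    ∃ Q : Matrix (Fin n) (Fin n) ℝ → Matrix (Fin n) (Fin n) ℝ, Continuous Q ∧
      Q 0 = aeval P (derivative f) ∧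
        ∀ E, Commute P E → aeval (P + E) f = aeval P f + Q E * E := by
  induction f using Polynomial.induction_on with
  | C a => exact ⟨0, continuous_const, by simp, fun E _ => by simp⟩
  | add f g hf hg =>
    obtain ⟨Q, a1, a2, a3⟩ := hf
    obtain ⟨Q', b1, b2, b3⟩ := hg
    refine ⟨Q + Q', a1.add b1, by simp [a2, b2], fun E h => ?_⟩
    rw [map_add, map_add, a3 E h, b3 E h, Pi.add_apply, add_mul, add_add_add_comm]
  | monomial k a ih =>
    obtain ⟨Q, a1, a2, a3⟩ := ih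
    rw [pow_succ, ← mul_assoc]
    generalize C a * Polynomial.X ^ k = g at *
    refine ⟨fun E => aeval P g + Q E * (P + E), by fun_prop, by simp [a2, add_comm], fun E h => ?_⟩
    rw [map_mul, map_mul, aeval_X, aeval_X, a3 E h, add_mul, mul_assoc,
      ← (h.add_left (Commute.refl E)).eq]
    noncomm_ring

theorem exists_ball {P : Matrix (Fin n) (Fin n) ℝ → Prop} (h : ∀ᶠ E in 𝓝 0, P E) :
    ∃ δ > 0, ∀ E, (∀ a b, |E a b| < δ) → P E := by
  obtain ⟨δ, h0, h1⟩ := (Metric.eventually_nhds_iff (α := Fin n → Fin n → ℝ)).1 h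
  exact ⟨δ, h0, fun E hE => h1 ((dist_pi_lt_iff h0).2 fun a => (dist_pi_lt_iff h0).2 fun b => by
    simpa using hE a b)⟩

/-- integer matrices in the frame `g` -/
noncomputable def cj (g : G n) : Matrix (Fin n) (Fin n) ℤ →+* Matrix (Fin n) (Fin n) ℝ where
  toFun N := (g⁻¹ : G n).1 * castM N * g.1
  map_one' := by rw [castM_one, mul_one, coe_inv_mul]
  map_mul' M N := by
    simp only [castM_mul, mul_assoc]
    rw [← mul_assoc g.1, coe_mul_inv, one_mul]
  map_zero' := by simp [castM]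
  map_add' M N := by simp [castM, Matrix.map_add, mul_add, add_mul]

theorem cj_eq (p : Fin n → ℝ) (M : Matrix (Fin n) (Fin n) ℤ) (g : G n) :
    cj g M = diagonal p + dev p M g := (add_sub_cancel _ _).symm

theorem stab_iff_cj : Stab p g ↔ ∃ M, cj g M = diagonal p := exists_congr fun M => by
  change _ ↔ (g⁻¹ : G n).1 * castM M * g.1 = _
  refine ⟨fun h => ?_, fun h => ?_⟩
  · rw [mul_assoc, ← h, ← mul_assoc, coe_inv_mul, one_mul]
  · rw [← h, mul_assoc, ← mul_assoc, coe_mul_inv, one_mul]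

theorem cj_zero (hL : IsCompact L) : ∃ c > 0, ∀ g ∈ L, ∀ N, (∀ a b, |cj g N a b| < c) → N = 0 := by
  obtain ⟨c, h0, h⟩ := dev_unique hL 0
  exact ⟨c, h0, fun g hg N hN => h g hg 1 N 0 (by simpa [cj_eq 0] using hN)
    (by simp [dev, castM, h0]) (by simp [h0])⟩

/-- a small deviation that commutes with `diag p` is zero -/
theorem dev_rigid (hL : IsCompact L) (hp : H11.IsMult p) : ∃ δ > 0, ∀ g ∈ L, ∀ M,
    (∀ a b, |dev p M g a b| < δ) → Commute (diagonal p) (dev p M g) → Stab p g := by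
  obtain ⟨f, hf, hi, -, -, h3⟩ := hp
  obtain ⟨Q, a1, a2, a3⟩ := exists_quot (diagonal p) f
  obtain ⟨c, c0, c1⟩ := cj_zero hL
  have b1 : (Q 0).det ≠ 0 := by
    rw [a2, H11.aeval_diag, det_diagonal]
    refine Finset.prod_ne_zero_iff.2 fun j _ => ?_
    have := ((hf.irreducible_iff_irreducible_map_fraction_map (K := ℚ)).1
      hi).separable.aeval_derivative_ne_zero (x := p j) (by rw [aeval_map_algebraMap, h3])
    rwa [derivative_map, aeval_map_algebraMap] at this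
  obtain ⟨δ, d0, d1⟩ := exists_ball ((a1.matrix_det.continuousAt.eventually_ne b1).and
    (eventually_all.2 fun a => eventually_all.2 fun b =>
      ((a1.mul continuous_id).matrix_elem a b).abs.continuousAt.eventually_lt (x₀ := 0)
        (g := fun _ => c) continuousAt_const (by simpa)))
  refine ⟨δ, d0, fun g hg M h1 h2 => stab_iff_cj.2 ⟨M, ?_⟩⟩
  have e : cj g (aeval M f) = Q (dev p M g) * dev p M g := by
    rw [← RingHom.toIntAlgHom_apply, ← aeval_algHom_apply, RingHom.toIntAlgHom_apply, cj_eq p,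
      a3 _ h2, H11.aeval_diag, funext h3, diagonal_zero, zero_add]
  rw [c1 g hg (aeval M f) (e ▸ (d1 _ h1).2), map_zero, eq_comm, ((isUnit_iff_isUnit_det _).2
    (d1 _ h1).1.isUnit).mul_right_eq_zero] at e
  rw [cj_eq p, e, add_zero]

/-- **The deviation is not small outside the blocks.** -/
theorem dev_lower (hL : IsCompact L) (hp : H11.IsMult p) : ∃ δ > 0, ∃ c > 0, ∀ g ∈ L, ∀ M,
    (∀ a b, |dev p M g a b| < δ) → ¬Stab p g → ∀ (a : Fin n → ℝ) (A : ℝ), Stab a g →
      (∀ j, |a j| ≤ A) → (∀ j k, a j = a k → p j = p k) →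
        ∃ j k, a j ≠ a k ∧ c ≤ A * |dev p M g j k| := by
  obtain ⟨δ, d0, d1⟩ := dev_rigid hL hp
  obtain ⟨c, c0, c1⟩ := cj_zero hL
  refine ⟨δ, d0, c / 2, half_pos c0, fun g hg M h1 h2 a A h3 h4 h5 => ?_⟩
  by_contra! hc
  obtain ⟨M', e⟩ := stab_iff_cj.1 h3
  have b1 : ∀ j k, cj g (M * M' - M' * M) j k = dev p M g j k * (a k - a j) := fun j k => by
    rw [map_sub, map_mul, map_mul, e, cj_eq p, add_mul, mul_add, diagonal_mul_diagonal,
      diagonal_mul_diagonal, funext fun i => mul_comm (p i) (a i), add_sub_add_left_eq_sub,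
      Matrix.sub_apply, mul_diagonal, diagonal_mul]
    ring
  have b2 := c1 g hg (M * M' - M' * M) fun j k => by
    rw [b1, abs_mul]
    by_cases c2 : a j = a k
    · simpa [c2]
    · nlinarith [hc j k c2, abs_sub (a k) (a j), h4 j, h4 k, abs_nonneg (dev p M g j k)]
  refine h2 (d1 g hg M h1 (Matrix.ext fun j k => ?_))
  rw [mul_diagonal, diagonal_mul, mul_comm]
  by_cases c2 : a j = a k
  · rw [h5 j k c2]
  · have := b1 j k
    rw [b2, map_zero, Matrix.zero_apply, eq_comm, mul_eq_zero, sub_eq_zero] at this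
    rw [this.resolve_right (Ne.symm c2), zero_mul, zero_mul]

theorem dev_da (M : Matrix (Fin n) (Fin n) ℤ) (g : G n) (u : Fin n → ℝ) (a b : Fin n) :
    dev p M (g * R.da u) a b = Real.exp (u b - u a) * dev p M g a b := by
  have e := congrFun (congrFun (dev_mul p M g (R.da u)) a) b
  rw [R.coe_da, mul_diagonal, diagonal_mul, Matrix.add_apply, Matrix.add_apply] at e
  refine mul_left_cancel₀ (Real.exp_ne_zero (u a - R.mean u)) ?_
  rw [← mul_assoc, ← Real.exp_add, show u a - R.mean u + (u b - u a) = u b - R.mean u by ring]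
  by_cases c : a = b
  · subst c
    linarith
  · rw [diagonal_apply_ne _ c] at e
    linarith

/-- the points with a deviation in `U` -/
def Tu (p : Fin n → ℝ) (U : Set (Matrix (Fin n) (Fin n) ℝ)) : Set (X n) :=
  {x | ∃ g M, pt g = x ∧ dev p M g ∈ U}

variable {U : Set (Matrix (Fin n) (Fin n) ℝ)}

theorem pt_mem_tu : pt g ∈ Tu p U ↔ ∃ M, dev p M g ∈ U := by
  refine ⟨fun ⟨g', M, e, h⟩ => ?_, fun ⟨M, h⟩ => ⟨g, M, rfl, h⟩⟩
  obtain ⟨M', h'⟩ := dev_left (pt_eq_pt.1 e) M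
  exact ⟨M', by rwa [← h', inv_mul_cancel_right] at h⟩

theorem isOpen_tu (hU : IsOpen U) : IsOpen (Tu p U) := by
  refine isOpenQuotientMap_pt.isQuotientMap.isOpen_preimage.1 ?_
  rw [show pt ⁻¹' Tu p U = ⋃ M, dev p M ⁻¹' U from Set.ext fun g => by
    simp only [Set.mem_preimage, pt_mem_tu, Set.mem_iUnion]]
  exact isOpen_iUnion fun M => hU.preimage (continuous_dev p M)

/-- the entry `(j, k)` is not small and dominates the entry `(i, k)` -/
def Ub (δ κ ζ : ℝ) (i j k : Fin n) : Set (Matrix (Fin n) (Fin n) ℝ) :=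
  {E | (∀ a b, |E a b| < δ) ∧ |E i k| < κ * |E j k| ∧ ζ < |E j k|}

theorem isOpen_ub (δ κ ζ : ℝ) (i j k : Fin n) : IsOpen (Ub δ κ ζ i j k) := by
  simp only [Ub, Set.ofPred_and, Set.ofPred_forall]
  exact (isOpen_iInter_of_finite fun a => isOpen_iInter_of_finite fun b =>
    isOpen_lt (by fun_prop) continuous_const).inter
      ((isOpen_lt (by fun_prop) (by fun_prop)).inter (isOpen_lt continuous_const (by fun_prop)))

/-- the shift into the second tube -/
theorem shift_mem {E E' : Matrix (Fin n) (Fin n) ℝ} {δ κ ζ s : ℝ} (hs : 0 ≤ s)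
    (hκ : Real.exp (-s) < κ) (h1 : ∀ a b, |E a b| < δ * Real.exp (-s)) (h2 : |E i k| ≤ |E j k|)
    (h3 : ζ < |E j k|) (h4 : 0 ≤ ζ) (hj : j ≠ i) (hk : k ≠ i)
    (e : ∀ a b, E' a b = Real.exp ((Pi.single i s : Fin n → ℝ) b -
      (Pi.single i s : Fin n → ℝ) a) * E a b) : E' ∈ Ub δ κ ζ i j k := by
  simp only [Ub, Set.mem_ofPred_eq, e, abs_mul, Real.abs_exp, Pi.single_eq_same,
    Pi.single_eq_of_ne hj, Pi.single_eq_of_ne hk, sub_self, Real.exp_zero, one_mul, zero_sub]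
  refine ⟨fun a b => ?_, by nlinarith [Real.exp_pos (-s)], h3⟩
  have b1 := h1 a b
  rw [Real.exp_neg, ← div_eq_mul_inv, lt_div_iff₀' (Real.exp_pos s)] at b1
  refine lt_of_le_of_lt (mul_le_mul_of_nonneg_right (Real.exp_le_exp.2 ?_) (abs_nonneg _)) b1
  simp only [Pi.single_apply]
  split_ifs <;> linarith

/-- the entry `(i, j)` of an intertwiner -/
theorem entry_le {N N' h : Matrix (Fin n) (Fin n) ℝ} {B η κ ζ : ℝ} (e : N * h = h * N')
    (hN : ∀ a b, |N a b| ≤ B) (hN' : ∀ a b, |N' a b| ≤ B) (h0 : 0 ≤ η)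
    (hw : ∀ a b, a ≠ b → ¬(a = i ∧ b = j) → |h a b| ≤ η) (hd : ∀ a, |h a a - 1| ≤ 1 / 2)
    (hij : i ≠ j) (hjk : j ≠ k) (h1 : |N i k| ≤ κ * |N j k|) (h2 : |N' i k| ≤ κ * |N' j k|)
    (h3 : ζ < |N' j k|) (h4 : 2 * n * B * η ≤ κ * ζ) (h5 : 0 < κ) (h6 : κ ≤ 1) (h7 : 0 ≤ ζ) :
    |h i j| ≤ 10 * κ := by
  obtain ⟨W, w1, w2⟩ : ∃ W : Matrix (Fin n) (Fin n) ℝ, (∀ a b, |W a b| ≤ η) ∧
      h = diagonal (fun a => h a a) + single i j (h i j) + W := by
    refine ⟨of fun a b => if a = b ∨ (a = i ∧ b = j) then 0 else h a b, fun a b => ?_,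
      Matrix.ext fun a b => ?_⟩
    · rw [of_apply]
      split_ifs with c
      exacts [by simpa, hw a b (not_or.1 c).1 (not_or.1 c).2]
    · simp only [Matrix.add_apply, diagonal_apply, single_apply, of_apply]
      grind
  have w3 : ∀ a, |N a k * h k k - h a a * N' a k - (single i j (h i j) * N') a k| ≤ κ * ζ :=
    fun a => by
      have a1 := abs_le.1 (tube_mul_le hN w1 a k)
      have a2 := abs_le.1 (tube_mul_le w1 hN' a k)
      have a3 := congrFun (congrFun e a) k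
      rw [w2] at a3
      simp only [mul_add, add_mul, Matrix.add_apply, mul_diagonal, diagonal_mul,
        mul_single_apply_of_ne _ _ _ _ _ hjk.symm] at a3
      rw [abs_le]
      constructor <;> linarith
  have d : ∀ a, 1 / 2 ≤ |h a a| ∧ |h a a| ≤ 3 / 2 := fun a => by
    have := abs_le.1 (hd a)
    rw [abs_of_nonneg (by linarith)]
    constructor <;> linarith
  have b1 := w3 i
  have b2 := w3 j
  rw [single_mul_apply_same] at b1
  rw [single_mul_apply_of_ne _ _ _ _ _ hij.symm, sub_zero] at b2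
  have b3 := (abs_sub_abs_le_abs_sub _ _).trans b2
  have b4 := (abs_sub_abs_le_abs_sub _ _).trans ((abs_sub_comm _ _).trans_le b1)
  have b5 := abs_sub (N i k * h k k) (h i i * N' i k)
  simp only [abs_mul] at b3 b4 b5
  have b6 : |N j k| ≤ 5 * |N' j k| := by
    nlinarith [d k, d j, abs_nonneg (N j k), abs_nonneg (N' j k)]
  have b7 := mul_le_mul h1 (d k).2 (abs_nonneg _) (by positivity)
  have b8 := mul_le_mul (d i).2 h2 (abs_nonneg _) (by positivity)
  exact le_of_mul_le_mul_right (by nlinarith) (h7.trans_lt h3)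

/-- **The second tube is transversal** to the root direction `(i, j)`. -/
theorem tu_transv (hL : IsCompact L) (p : Fin n → ℝ) : ∃ ρ > 0, ∃ B > 0, ∀ g ∈ L, ∀ (h : G n)
    (δ κ ζ η : ℝ) i j k, δ ≤ ρ → 0 < κ → κ ≤ 1 → 0 ≤ ζ → 0 ≤ η → B * η ≤ κ * ζ → i ≠ j → j ≠ k →
      i ≠ k → pt g ∈ Tu p (Ub δ κ ζ i j k) → pt (g * h) ∈ Tu p (Ub δ κ ζ i j k) →
        (∀ a b, |(h.1 - 1) a b| < ρ) → (∀ a b, a ≠ b → ¬(a = i ∧ b = j) → |h.1 a b| ≤ η) →
          |h.1 i j| ≤ 10 * κ := by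
  obtain ⟨ρ, h0, h1⟩ := dev_unique hL p
  refine ⟨min ρ (1 / 2), by positivity, 2 * (n + 1) * (‖p‖ + 1), by positivity,
    fun g hg h δ κ ζ η i j k a1 a2 a3 a4 a5 a6 hij hjk hik b1 b2 b3 b4 => ?_⟩
  obtain ⟨M, c1, c2, -⟩ := pt_mem_tu.1 b1
  obtain ⟨M', d1, d2, d3⟩ := pt_mem_tu.1 b2
  obtain ⟨a7, a8⟩ := le_min_iff.1 a1
  obtain rfl := h1 g hg h M M' (fun a b => (c1 a b).trans_le a7) (fun a b => (d1 a b).trans_le a7)
    fun a b => (b3 a b).trans_le (min_le_left _ _)
  have e : ∀ E : Matrix (Fin n) (Fin n) ℝ, (∀ a b, |E a b| < δ) → ∀ a b,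
      |(diagonal p + E) a b| ≤ ‖p‖ + 1 := fun E hE a b => by
    refine (abs_add_le _ _).trans (add_le_add ?_ (by linarith [hE a b]))
    rw [diagonal_apply]
    split_ifs
    exacts [norm_le_pi_norm p a, by simp]
  refine entry_le (k := k) (ζ := ζ) (dev_mul p M g h) (e _ c1) (e _ d1) a5 b4
    (fun a => by simpa using ((b3 a a).trans_le (min_le_right _ _)).le) hij hjk
    (by simpa [hik, hjk] using c2.le) (by simpa [hik, hjk] using d2.le) (by simpa [hjk] using d3)
    (le_trans ?_ a6) a2 a3 a4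
  gcongr
  linarith

end Vale.Agent.P007X
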