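import Vale.Agent.P007X.SpecB
import Vale.Agent.P007X.TbG
import Vale.Agent.P007M.Equi

/-!
# P007 / X : both tubes
-/

open MeasureTheory Filter Topology Set Real

namespace Vale.Agent.P007X

open Vale.Agent.P007 Vale.Agent.P007.Fib Vale.Agent.P007.R Vale.Agent.P007.Koopman
  Vale.Agent.P007M Vale.Agent.P007M.Reg

variable {n : ℕ} {p a : Fin n → ℝ} {Ω : Set (X n)}

theorem mem_Yd_of_inv {D : Datum n} {x : X n} (h : InvPt (RE D) x) : x ∈ Yd p ↔ p ∈ RE D := by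
  rw [H11.mem_Yd_iff]
  refine ⟨fun c => ?_, fun c g e v hv => ?_⟩
  · obtain ⟨g, rfl, -, L', -, h3⟩ := h
    have h4 : ∀ v ∈ latS g * L', v * p ∈ latS g * L' := fun v hv =>
      Submodule.mul_induction_on hv (fun x hx y hy => mul_right_comm x p y ▸
        Submodule.mul_mem_mul (c g rfl x hx) hy) fun x y hx hy => add_mul x y p ▸ add_mem hx hy
    rw [h3] at h4
    exact one_mul p ▸ h4 1 (RE D).one_mem
  · exact (mul_comm p v ▸ ((e ▸ h).inv D.pos).1 p c v hv : v * p ∈ latS g)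

theorem ae_packet (D : Datum n) (hp : p ∉ RE D) (ha : a ∈ RE D) :
    ∀ᵐ x ∂D.packetMeas, x ∈ Yd a ∧ x ∉ Yd p := by
  refine packetMeas_null D (Y := Yd a \ Yd p)
    ((isClosed_Yd a).measurableSet.diff (isClosed_Yd p).measurableSet) ?_
  rw [packet_eq]
  rintro _ ⟨x, hx, rfl⟩ _ ⟨u, rfl⟩
  exact ⟨(mem_Yd_of_inv (hx.tr u)).2 ha, mt (mem_Yd_of_inv (hx.tr u)).1 hp⟩

theorem small_of {μ : Measure (X n)} [IsFiniteMeasure μ] {S : Set (X n)} {F : X n → ℝ}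
    {H ε b : ℝ} (h1 : μ.real (S ∩ Ω ∩ {x | H ≤ F x}) ≤ b) (h2 : μ.real {x | F x < H} ≤ ε) :
    μ.real S ≤ ε + μ.real Ωᶜ + b := by
  refine le_trans ((measureReal_mono fun x hx => ?_).trans ((measureReal_union_le _ _).trans
    (add_le_add (measureReal_union_le _ _) h1))) (add_le_add_left (add_le_add_left h2 _) _)
  by_cases c2 : F x < H
  · exact .inl (.inl c2)
  · by_cases c3 : x ∈ Ω
    exacts [.inr ⟨⟨hx, c3⟩, not_lt.1 c2⟩, .inl (.inr c3)]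

/-- the first tube, for all pairs -/
theorem tube_one (hΩ : IsCompact Ω) (p : Fin n → ℝ) : ∀ᶠ ρ in 𝓝[>] (0 : ℝ), ∀ l : ℝ, ∃ V,
    IsOpen V ∧ Yd p ⊆ V ∧ ∀ (μ : Measure (X n)) [IsProbabilityMeasure μ] (j k : Fin n) (t : Th n)
      (H ε : ℝ), p j ≠ p k → Valid t → Valid (up t j k l) → 0 ≤ t →
        μ.real {x | J (fi μ ρ) t j k l x < H} ≤ ε →
          μ.real V ≤ ε + μ.real Ωᶜ + 24 ^ (n * n) * exp (-H) := by
  filter_upwards [eventually_all.2 fun j => eventually_all.2 fun k => eventually_all.2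
    fun h : p j ≠ p k => let ⟨_, h0, h1⟩ := tube_main hΩ h
      mem_of_superset (Ioc_mem_nhdsGT h0) fun ρ hρ => h1 ρ hρ.1 hρ.2] with ρ h l
  choose V b1 b2 b3 using fun j k e => h j k e l
  refine ⟨⋂ j, ⋂ k, ⋂ e, V j k e, isOpen_iInter_of_finite fun j => isOpen_iInter_of_finite fun k =>
    isOpen_iInter_of_finite (b1 j k), subset_iInter fun j => subset_iInter₂ (b2 j),
    fun μ _ j k t H ε e v v' t0 c => (measureReal_mono ((iInter_subset _ j).trans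
      (iInter₂_subset k e))).trans (small_of ?_ c)⟩
  exact b3 j k e μ t _ v v' t0 (fun a b c => (up_ne c).le) up_self.le H

/-- the second tube -/
theorem tube_two (hΩ : IsCompact Ω) (hp : H11.IsMult p) : ∀ᶠ ρ in 𝓝[>] (0 : ℝ), ∀ l : ℝ, 0 ≤ l →
    ∃ δ > 0, ∃ C₀ : ℝ, ∀ (μ : Measure (X n)) [IsProbabilityMeasure μ], AInv μ →
      ∀ (a : Fin n → ℝ) (A r₁ H ε : ℝ), 1 ≤ A → (∀ j, |a j| ≤ A) → (∀ j, ∃ k, k ≠ j ∧ a k = a j) →
        (∀ j k, a j = a k → p j = p k) → (∀ᵐ x ∂μ, x ∈ Yd a ∧ x ∉ Yd p) → C₀ + log A ≤ r₁ →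
          0 ≤ ε → Full μ ρ a r₁ l H ε → μ.real (Tube p δ) ≤
            μ.real Ωᶜ + n ^ 3 * (ε + μ.real Ωᶜ + 24 ^ (n * n) * exp (-H)) := by
  obtain ⟨L, hL, h0⟩ := R.NB.exists_compact_lift Ω hΩ
  obtain ⟨δ₁, d1, c, c0, h1⟩ := dev_lower hL hp
  obtain ⟨ρ₁, r1, B, B0, h2⟩ := tu_transv hL p
  filter_upwards [Ioc_mem_nhdsGT (show 0 < min (ρ₁ / 4) (1 / (2 * n + 1)) by positivity)]
    with ρ ⟨r0, r2⟩ l l0
  obtain ⟨r3, r4⟩ := le_min_iff.1 r2
  rw [le_div_iff₀ (by positivity)] at r3 r4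
  have n0 : (0 : ℝ) ≤ n * ρ := by positivity
  obtain ⟨κ, k0, k1, k2⟩ : ∃ κ, 0 < κ ∧ κ ≤ 1 ∧ 10 * κ < 4 * ρ * exp (-l) :=
    ⟨ρ * exp (-l) / 4, by positivity, by nlinarith [exp_le_one_iff.2 (neg_nonpos.2 l0)],
      by nlinarith [mul_pos r0 (exp_pos (-l))]⟩
  obtain ⟨s, s0, s1⟩ : ∃ s, 0 ≤ s ∧ exp (-s) < κ := ⟨-log (κ / 2),
    neg_nonneg.2 (log_nonpos (by positivity) (by linarith)), by
      rw [neg_neg, exp_log (by positivity)]
      linarith⟩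
  refine ⟨min δ₁ ρ₁ * exp (-s), by positivity, -log (κ * c / (8 * ρ * B)),
    fun μ _ hμ a A r₁ H ε A1 a1 a2 a3 a4 a5 e0 hF => ?_⟩
  obtain ⟨T, hT⟩ : ∃ T : Fin n → Fin n → Fin n → Set (X n),
    T = fun i j k => Tu p (Ub (min δ₁ ρ₁) κ (c / (2 * A)) i j k) := ⟨_, rfl⟩
  have T0 : ∀ i j k, MeasurableSet (T i j k) := fun i j k =>
    hT ▸ (isOpen_tu (isOpen_ub _ _ _ i j k)).measurableSet
  have b1 : ∀ i j k, i ≠ j → a i = a j → a j ≠ a k →
      μ.real (T i j k) ≤ ε + μ.real Ωᶜ + 24 ^ (n * n) * exp (-H) := fun i j k hij e e' => by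
    obtain ⟨t, v, v', t0, -, t1, t2⟩ := hF i j hij e
    refine small_of (trans_bx v v' r0 (by linarith) ((T0 i j k).inter hΩ.measurableSet)
      (fun x hx h hh hx' y z => ?_) H) t2
    by_cases c1 : y = i ∧ z = j
    · obtain ⟨rfl, rfl⟩ := c1
      obtain ⟨g, hg, rfl⟩ := h0 x hx.2
      rw [up_self, Matrix.sub_apply, Matrix.one_apply_ne hij, sub_zero]
      rw [hT] at hx hx'
      refine (h2 g hg h _ κ _ (4 * ρ * exp (-r₁)) y z k (min_le_right _ _) k0 k1 (by positivity)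
        (by positivity) ?_ hij (fun e => e' (e ▸ rfl)) (fun c => e' (c ▸ e.symm)) hx.1 hx'.1
        (fun a b => (hh a b).trans_le ?_) fun a b c1 c2 => ?_).trans_lt k2
      · have c2 := exp_le_exp.2 (neg_le_neg a5)
        rw [neg_add, neg_neg, exp_add, exp_log (by positivity), exp_neg (log A),
          exp_log (by positivity)] at c2
        refine (mul_le_mul_of_nonneg_left (mul_le_mul_of_nonneg_left c2 (by positivity))
          B0.le).trans_eq ?_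
        field_simp
        norm_num
      · nlinarith [exp_le_one_iff.2 (neg_nonpos.2 (t0 a b))]
      · have c3 := hh a b
        rw [Matrix.sub_apply, Matrix.one_apply_ne c1, sub_zero] at c3
        exact c3.le.trans (mul_le_mul_of_nonneg_left
          (exp_le_exp.2 (neg_le_neg (t1 a b c1 c2))) (by positivity))
    · rw [up_ne c1]
      exact hh y z
  have b2 : ∀ᵐ x ∂μ, x ∈ Tube p (min δ₁ ρ₁ * exp (-s)) → x ∈ Ωᶜ ∪ ⋃ z : Fin n × Fin n × Fin n,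
      ⋃ _ : z.1 ≠ z.2.1 ∧ a z.1 = a z.2.1 ∧ a z.2.1 ≠ a z.2.2,
        tr (da (Pi.single z.1 s)) ⁻¹' T z.1 z.2.1 z.2.2 := by
    filter_upwards [a4] with x ⟨x1, x2⟩ x3
    refine or_iff_not_imp_left.2 fun x4 => ?_
    obtain ⟨g, hg, rfl⟩ := h0 x (not_not.1 x4)
    obtain ⟨M, x5⟩ := pt_mem_tube.1 x3
    obtain ⟨j₀, k₀, y1, y2⟩ := h1 g hg M (fun a b => (x5 a b).trans_le
      ((mul_le_of_le_one_right (by positivity) (exp_le_one_iff.2 (neg_nonpos.2 s0))).trans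
        (min_le_left _ _))) (mt pt_mem_Yd.2 x2) a A (pt_mem_Yd.1 x1) a1 a3
    obtain ⟨⟨j, k⟩, y3, y4⟩ := exists_max_image {z : Fin n × Fin n | a z.1 ≠ a z.2}
      (fun z => |dev p M g z.1 z.2|) (toFinite _) ⟨(j₀, k₀), y1⟩
    obtain ⟨i, y5, y6⟩ := a2 j
    refine mem_iUnion₂.2 ⟨(i, j, k), ⟨y5, y6, y3⟩, ?_⟩
    rw [hT]
    refine pt_mem_tu.2 ⟨M, shift_mem s0 s1 x5 (y4 (i, k) (y6.trans_ne y3)) ?_ (by positivity) y5.symm
      (fun e => y3 (y6.symm.trans (e ▸ rfl))) (dev_da M g _)⟩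
    rw [div_lt_iff₀ (by positivity)]
    nlinarith [y4 (j₀, k₀) y1]
  refine (ENNReal.toReal_mono (measure_ne_top _ _) (measure_mono_ae b2)).trans
    ((measureReal_union_le _ _).trans (add_le_add_right ((measureReal_iUnion_fintype_le _).trans
      ((Finset.sum_le_card_nsmul _ _ (ε + μ.real Ωᶜ + 24 ^ (n * n) * exp (-H))
        fun z _ => ?_).trans_eq (by simp [pow_three, mul_add]))) _))
  by_cases c : z.1 ≠ z.2.1 ∧ a z.1 = a z.2.1 ∧ a z.2.1 ≠ a z.2.2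
  · rw [iUnion_eq_if, if_pos c, MeasurePreserving.measureReal_preimage
      ⟨(continuous_tr _).measurable, hμ _⟩ (T0 _ _ _).nullMeasurableSet]
    exact b1 _ _ _ c.1 c.2.1 c.2.2
  · rw [iUnion_eq_if, if_neg c, measureReal_empty]
    positivity

/-- **Both tubes.** -/
theorem sTube (n : ℕ) : STube n := fun Ω hΩ p hp => by
  obtain ⟨ρ₀, h0, h1⟩ := mem_nhdsGT_iff_exists_Ioc_subset.1 ((tube_one hΩ p).and (tube_two hΩ hp))
  refine ⟨ρ₀, h0, fun ρ r0 r1 l l0 => ?_⟩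
  obtain ⟨V, b1, b2, b3⟩ := (h1 ⟨r0, r1⟩).1 l
  obtain ⟨δ, d0, C₀, b4⟩ := (h1 ⟨r0, r1⟩).2 l l0
  refine ⟨V ∩ Tube p δ, b1.inter (isOpen_tube p δ), subset_inter b2 (Yd_subset_tube d0), C₀,
    fun D hD a ha A A1 a1 a2 r₁ H ε a3 hF => ?_⟩
  have := packetMeas_prob D
  have e0 : 0 ≤ ε := by
    obtain ⟨k, c1, c2⟩ := a2 ⟨0, D.pos⟩
    obtain ⟨t, -, -, -, -, -, c3⟩ := hF _ _ c1 c2
    exact measureReal_nonneg.trans c3
  have e1 : 0 ≤ 24 ^ (n * n) * exp (-H) := by positivity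
  have e2 : 0 ≤ (n : ℝ) ^ 3 * (ε + D.packetMeas.real Ωᶜ + 24 ^ (n * n) * exp (-H)) := by
    positivity
  by_cases c : ∀ j k, a j = a k → p j = p k
  · refine (measureReal_mono inter_subset_right).trans ((b4 _ (ainv_packet D) a A r₁ H ε A1 a1 a2 c
      (ae_packet D hD ha) a3 e0 hF).trans ?_)
    linarith
  · push Not at c
    obtain ⟨j, k, c1, c2⟩ := c
    obtain ⟨t, v, v', t0, -, -, c3⟩ := hF j k (fun e => c2 (e ▸ rfl)) c1
    refine (measureReal_mono inter_subset_left).trans ((b3 _ j k t H ε c2 v v' t0 c3).trans ?_)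
    linarith

end Vale.Agent.P007X
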